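import Vale.Agent.P078.Tracial.Two.Facts
import Vale.Agent.P078.Tracial.Start
import Vale.Agent.P078.Tracial.Iterate

/-! The initial state, and the paving read off from a final state. -/

namespace Vale.Agent.P078.Tracial.Two

set_option linter.unusedSectionVars false

open Filter Topology ComplexOrder
open Scalar (f f' continuous_f f_le_of_le f_ge_posPart)

variable {M X : Type*} [CStarAlgebra M] [PartialOrder M] [StarOrderedRing M]
variable [TopologicalSpace X] [CompactSpace X] [T2Space X] [TotallyDisconnectedSpace X]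
variable {C : Core M X} {P : Prm M}
variable {n : ℕ}

theorem sg_mul_self (i : Bool) : sg i * sg i = 1 := by cases i <;> simp [sg]

theorem norm_sg_smul (i : Bool) (z : M) : ‖sg i • z‖ = ‖z‖ := by
  cases i <;> simp [sg]

theorem sg_smul_le (hP : P.Ok C) (i : Bool) : sg i • P.y ≤ algebraMap ℝ M P.β := by
  refine ((IsSelfAdjoint.all (sg i)).smul hP.y_sa).le_algebraMap_norm_self.trans ?_
  exact algebraMap_mono M ((norm_sg_smul i P.y).trans_le hP.norm_y)

theorem yy_le (hP : P.Ok C) : P.y * P.y ≤ algebraMap ℝ M (P.β ^ 2) := by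
  have h := CStarAlgebra.star_mul_le_algebraMap_norm_sq (a := P.y)
  rw [hP.y_sa.star_eq] at h
  exact h.trans (algebraMap_mono M (pow_le_pow_left₀ (norm_nonneg _) hP.norm_y 2))

/-- The initial resolvent of one sign, with bounds on its trace and its diagonal. -/
theorem exists_start_res (hP : P.Ok C) (i : Bool) :
    ∃ G : Mˣ, 0 ≤ (G : M) ∧ (↑G⁻¹ : M) = algebraMap ℝ M (1 / 2) - sg i • P.y ∧
      C.tr (G : M) ≤ 3 ∧ ∀ x, C.Er (G : M) x ≤ 2 + 2 * P.κ := by
  set m : ℝ := 1 / 2 - P.β with hm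
  have hβ := P.β_le
  have hm0 : 0 < m := by linarith
  set a : M := algebraMap ℝ M (1 / 2) - sg i • P.y with ha
  set u : Mˣ := Units.map (algebraMap ℝ M).toMonoidHom (Units.mk0 m hm0.ne') with hu
  have huv : (u : M) = algebraMap ℝ M m := rfl
  have hui : (↑u⁻¹ : M) = algebraMap ℝ M m⁻¹ := rfl
  have hu0 : (0 : M) ≤ u := by rw [huv]; exact algebraMap_nonneg M hm0.le
  have hle : (u : M) ≤ a := by
    rw [huv, hm, map_sub, ha]
    exact sub_le_sub_left (sg_smul_le hP i) _
  have hau : IsUnit a :=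
    CStarAlgebra.isUnit_of_le (u : M) hle (u.isUnit.isStrictlyPositive hu0)
  set G : Mˣ := hau.unit⁻¹ with hG
  have hGi : (↑G⁻¹ : M) = a := by rw [hG, inv_inv, IsUnit.unit_spec]
  have hG0 : 0 ≤ (G : M) := by
    rw [hG]
    exact Core.units_inv_nonneg (by rw [IsUnit.unit_spec]; exact hu0.trans hle)
  have hGle : (G : M) ≤ algebraMap ℝ M m⁻¹ := by
    rw [hG, ← hui]
    exact CStarAlgebra.inv_le_inv hu0 (by rw [IsUnit.unit_spec]; exact hle)
  have hm1 : m⁻¹ ≤ 21 / 10 := (inv_le_iff_one_le_mul₀ hm0).2 (by linarith)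
  refine ⟨G, hG0, hGi, (C.tr_mono hGle).trans (by rw [C.tr_algebraMap]; linarith), fun x => ?_⟩
  have e1 : a * (G : M) = 1 := by rw [← hGi, Units.inv_mul]
  have e2 : (G : M) * a = 1 := by rw [← hGi, Units.mul_inv]
  obtain ⟨y, hy⟩ : ∃ y : M, y = sg i • P.y := ⟨_, rfl⟩
  rw [← hy] at ha
  have f1 : (1 / 2 : ℝ) • (G : M) - y * G = 1 := by
    rw [← e1, ha, sub_mul, Algebra.algebraMap_eq_smul_one, smul_mul_assoc, one_mul]
  have f2 : (1 / 2 : ℝ) • (G : M) - (G : M) * y = 1 := by
    rw [← e2, ha, mul_sub, Algebra.algebraMap_eq_smul_one, mul_smul_comm, mul_one]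
  have g2 : (G : M) = (2 : ℝ) • (1 + (G : M) * y) := by
    conv_rhs => rw [← f2]
    rw [sub_add_cancel, smul_smul]
    norm_num
  have g1 : y * (G : M) = (2 : ℝ) • (y + y * G * y) := by
    conv_lhs => rw [g2]
    rw [mul_smul_comm, mul_add, mul_one, mul_assoc]
  have g3 : (G : M) = algebraMap ℝ M 2 + (4 : ℝ) • y + (4 : ℝ) • (y * G * y) := by
    have g0 : (G : M) = (2 : ℝ) • (1 + y * G) := by
      conv_rhs => rw [← f1]
      rw [sub_add_cancel, smul_smul]
      norm_num
    conv_lhs => rw [g0, g1]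
    rw [Algebra.algebraMap_eq_smul_one]
    module
  have hys : IsSelfAdjoint y := hy ▸ (IsSelfAdjoint.all (sg i)).smul hP.y_sa
  have h4 : y * (G : M) * y ≤ algebraMap ℝ M (21 / 10 * P.β ^ 2) := by
    have h5 := star_left_conjugate_le_conjugate (hGle.trans (algebraMap_mono M hm1)) y
    rw [hys.star_eq, Algebra.algebraMap_eq_smul_one, mul_smul_comm, mul_one, smul_mul_assoc]
      at h5
    refine h5.trans ?_
    have h6 : y * y = P.y * P.y := by
      rw [hy, smul_mul_smul_comm, sg_mul_self, one_smul]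
    rw [h6, Algebra.algebraMap_eq_smul_one, mul_smul, ← Algebra.algebraMap_eq_smul_one]
    exact smul_le_smul_of_nonneg_left (yy_le hP) (by norm_num)
  have hE : C.Er (G : M) x = 2 + 4 * C.Er (y * (G : M) * y) x := by
    conv_lhs => rw [g3]
    rw [C.Er_add, C.Er_add, C.Er_algebraMap, C.Er_smul, C.Er_smul,
      show C.Er y = 0 by rw [hy, C.Er_smul, hP.Er_y, smul_zero]]
    simp
  have h7 := ContinuousMap.le_def.1 (C.Er_mono h4) x
  rw [C.Er_algebraMap, ContinuousMap.const_apply] at h7
  rw [hE]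
  unfold Prm.κ
  nlinarith [P.β_pos]

/-- An initial state with a negligible potential. -/
theorem exists_start (hP : P.Ok C) (hn : 0 < n) (hS : P.S = (n : ℝ) * P.κ / 4) :
    ∃ s : Config2 M X n, StateOk P C s ∧
      P.Psi C s ≤ n * (2 * P.sm + 4 * P.l + 8 * P.ν) := by
  choose G hG0 hGi hGt hGE using exists_start_res (C := C) hP
  have hκ := P.κ_pos
  have hκ1 := P.κ_le
  set s : Config2 M X n := ⟨fun _ => 0, fun _ => 1, fun _ => ContinuousMap.const X (P.κ / 4),
    fun _ => ContinuousMap.const X (1 / 2), fun _ => G⟩ with hs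
  have hU : s.U = 1 := by simp [Config2.U, hs]
  have hinv : ∀ c, P.Inv C (col s c) := by
    intro c x _
    right
    show P.κ / 4 + 2 * P.b1 ≤ TF P.κ (gam2 (C.Er (G true : M) x) (C.Er (G false : M) x)) (1 / 2)
    set a := C.Er (G true : M) x
    set b := C.Er (G false : M) x
    have ha0 : 0 ≤ a := ContinuousMap.le_def.1 (C.Er_nonneg (hG0 true)) x
    have hb0 : 0 ≤ b := ContinuousMap.le_def.1 (C.Er_nonneg (hG0 false)) x
    have hΓ0 : 0 ≤ gam2 a b := div_nonneg (by positivity) (by positivity)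
    have hΓ : gam2 a b ≤ 2 + 2 * P.κ := by
      unfold gam2
      rcases eq_or_lt_of_le (add_nonneg ha0 hb0) with h | h
      · rw [← h, div_zero]; linarith
      · rw [div_le_iff₀ h]
        nlinarith [mul_le_mul_of_nonneg_left (hGE false x) ha0,
          mul_le_mul_of_nonneg_right (hGE true x) hb0]
    have hxi : xi P.κ (1 / 2) = 1 / 2 := by unfold xi; rw [max_eq_left] <;> linarith
    have hs2 : sF P.κ (1 / 2) ≤ 1 / 4 - P.κ / 2 := by
      unfold sF hF
      rw [hxi]
      have h1 : 1 ≤ 1 / √(1 / 2 : ℝ) := by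
        rw [le_div_iff₀ (by positivity), one_mul, Real.sqrt_le_one]
        norm_num
      have := mul_nonneg (by positivity : 0 ≤ 100 * (P.κ * √P.κ)) (sub_nonneg.2 h1)
      linarith
    have hT : gam2 a b * sF P.κ (1 / 2) ≤ (2 + 2 * P.κ) * (1 / 4 - P.κ / 2) :=
      (mul_le_mul_of_nonneg_left hs2 hΓ0).trans
        (mul_le_mul_of_nonneg_right hΓ (by linarith))
    unfold TF Prm.b1
    nlinarith
  have hok : StateOk P C s :=
    { ass_01 := fun _ _ => Or.inl rfl
      act_01 := fun _ _ => Or.inr rfl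
      U_01 := fun x => Or.inr (by simp [hU])
      act_le := fun c x => by rw [hU, hs]
      b_sum := by
        rw [hU]
        ext x
        simp [hs, hS]
        ring
      b_supp := fun c x h => by simp [hU] at h
      b_drop := fun c x h => by simp [hs] at h
      b_act := fun c x _ => by
        show -P.b1 ≤ P.κ / 4
        linarith [P.b1_pos]
      W_mem := fun c x => by
        show 0 ≤ (1 / 2 : ℝ) ∧ (1 / 2 : ℝ) ≤ P.Wa
        refine ⟨by norm_num, ?_⟩
        unfold Prm.Wa; linarith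
      G_nonneg := fun _ => hG0
      inv := hinv }
  refine ⟨s, hok, ?_⟩
  have hcol : ∀ c, P.pot C (col s c) ≤ 2 * P.sm + 4 * P.l + 8 * P.ν := by
    intro c
    have hwt : P.wt (col s c) = ContinuousMap.const X (1 / 2) := by
      ext x; simp [Prm.wt, hs, col]
    have hmat : ∀ i, P.mat C (col s c) i = algebraMap ℝ M P.u2 := by
      intro i
      unfold Prm.mat
      rw [hwt, C.r_const]
      show (↑(G i)⁻¹ : M) + algebraMap ℝ M P.β + sg i • P.y + algebraMap ℝ M (1 / 2) = _
      rw [hGi i, Prm.u2, show (1 : ℝ) + P.β = 1 / 2 + P.β + 1 / 2 by ring, map_add, map_add]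
      abel
    have h1 : ∀ i, C.tr (cfc (f P.u2 P.sm P.l) (P.mat C (col s c) i))
        + P.ν * C.tr ((col s c).G i : M) ≤ P.sm + 2 * P.l + 4 * P.ν := by
      intro i
      rw [hmat i, cfc_algebraMap, C.tr_algebraMap]
      have h2 := f_le_of_le P.sm_pos.le P.l_pos.le (le_refl P.u2)
      have h3 : P.ν * C.tr ((col s c).G i : M) ≤ P.ν * 3 :=
        mul_le_mul_of_nonneg_left (hGt i) P.ν_pos.le
      have h4 : P.l * P.u2 ≤ 2 * P.l := by
        rw [Prm.u2]; nlinarith [P.l_pos, P.β_le]
      linarith [P.ν_pos]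
    unfold Prm.pot
    rw [Fintype.sum_bool]
    linarith [h1 true, h1 false]
  refine (Finset.sum_le_sum fun c _ => hcol c).trans_eq ?_
  rw [Finset.sum_const, Finset.card_univ, Fintype.card_fin, nsmul_eq_mul]

theorem posPart_tr_le (hP : P.Ok C) {s : Col M X} (hs : s.Ok P C) (i : Bool) :
    C.tr (cfc (fun t => max (t - P.u2) 0) (P.mat C s i)) ≤
      C.tr (cfc (f P.u2 P.sm P.l) (P.mat C s i)) / 2 := by
  have h : (2 : ℝ) • cfc (fun t => max (t - P.u2) 0) (P.mat C s i) ≤
      cfc (f P.u2 P.sm P.l) (P.mat C s i) := by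
    rw [← cfc_smul (2 : ℝ) _ (P.mat C s i)]
    exact cfc_mono (fun t ht => f_ge_posPart P.l_pos.le
      (spectrum_nonneg_of_nonneg (Prm.mat_nonneg hP hs i) ht)) (by fun_prop)
      continuous_f.continuousOn
  have h1 := C.tr_mono h
  rw [C.tr_smul] at h1
  linarith

/-- A state with small potential and small unassigned set gives a paving. -/
theorem exists_paving_of_state (hP : P.Ok C) (hn : 0 < n) {s : Config2 M X n}
    (hs : StateOk P C s) {η : ℝ} (hη : P.Psi C s + 6 * C.ig s.U ≤ η) :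
    ∃ (e : Fin n → C(X, ℝ)) (z : M), Core.IsCol e ∧ IsSelfAdjoint z ∧
      ‖z‖ ≤ 20000 * P.κ ∧ C.n2sq (C.spinch e P.y - z) ≤ 2 * n * P.β * η := by
  classical
  set c0 : Fin n := ⟨0, hn⟩
  set X0 : Fin n → C(X, ℝ) := fun c => if c = c0 then s.U else 0 with hX0
  set Q : Fin n → C(X, ℝ) := fun c => s.ass c + X0 c with hQdef
  have hass0 : ∀ x, s.U x = 1 → ∀ c, s.ass c x = 0 := fun x hx c => by
    have h0 : ∀ d ∈ (Finset.univ : Finset (Fin n)), 0 ≤ s.ass d x := fun d _ => by
      rcases hs.ass_01 d x with h' | h' <;> simp [h']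
    have h1 : ∑ d, s.ass d x = 0 := by simp [Config2.U] at hx; linarith
    exact (Finset.sum_eq_zero_iff_of_nonneg h0).1 h1 c (Finset.mem_univ c)
  have hQ01 : ∀ c t, Q c t = 0 ∨ Q c t = 1 := fun c t => by
    rcases hs.U_01 t with h | h
    · by_cases hc : c = c0 <;> simpa [hQdef, hX0, hc, h] using hs.ass_01 _ t
    · by_cases hc : c = c0 <;> simp [hQdef, hX0, hc, h, hass0 t h]
  have hQsum : ∑ c, Q c = 1 := by
    simp [hQdef, hX0, Finset.sum_add_distrib, Config2.U]
  have hQ : Core.IsCol Q := ⟨hQ01, hQsum⟩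
  have hU0 : 0 ≤ s.U := ContinuousMap.le_def.2 fun t => by
    rcases hs.U_01 t with h | h <;> simp [h]
  have hX00 : ∀ c, 0 ≤ X0 c := fun c => by simp only [hX0]; split_ifs <;> simp [hU0]
  set e : Fin n → M := fun c => C.r (Q c) with he
  have hee : ∀ c, e c * e c = e c := fun c => by simp only [he, ← C.r_mul, hQ.mul_self]
  have he0 : ∀ c, 0 ≤ e c := fun c => C.r_nonneg <| ContinuousMap.le_def.2 fun t => by
    rcases hQ01 c t with h | h <;> simp [h]
  have he1 : ∀ c, e c ≤ 1 := fun c => C.r_comp_le_one fun t => by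
    rcases hQ01 c t with h | h <;> simp [h]
  have hκ := P.κ_pos
  have hWf0 : 0 ≤ P.Wf := by unfold Prm.Wf; linarith [P.κ_le]
  have hWf1 : P.Wf ≤ 1 := by unfold Prm.Wf; linarith
  set T := 20000 * P.κ with hT
  have hT0 : 0 ≤ T := by positivity
  set pos : Fin n → Bool → M :=
    fun c i => cfc (fun t => max (t - P.u2) 0) (P.mat C (col s c) i) with hpos
  have hpos0 : ∀ c i, 0 ≤ pos c i := fun c i => cfc_nonneg fun t _ => le_max_right _ _
  -- the bound on one colour and one sign
  have hone : ∀ c i, e c * (sg i • P.y) * e c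
      ≤ T • e c + (P.Wf • C.r (X0 c) + e c * pos c i * e c) := by
    intro c i
    have h1 : algebraMap ℝ M P.β + sg i • P.y + P.Wf • C.r (s.ass c)
        ≤ algebraMap ℝ M P.u2 + pos c i := by
      refine le_trans ?_ (sub_le_iff_le_add.1
        (Core.le_add_pos_part (Prm.mat_isSelfAdjoint hP (hs.col c).G_nonneg i) P.u2))
      have h2 : P.Wf • C.r (s.ass c) ≤ C.r (P.wt (col s c)) := by
        rw [← C.r_smul]
        refine C.r_mono (ContinuousMap.le_def.2 fun t => ?_)
        have h3 := (hs.W_mem c t).1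
        rcases hs.act_01 c t with h | h <;> simp [Prm.wt, col, h, h3]
      unfold Prm.mat
      refine add_le_add ?_ h2
      have h4 := Core.units_inv_nonneg (hs.G_nonneg c i)
      exact add_le_add (le_add_of_nonneg_left h4) le_rfl
    have h5 : sg i • P.y + P.Wf • C.r (s.ass c) ≤ 1 + pos c i := by
      rw [Prm.u2, map_add, map_one, add_assoc, add_comm (1 : M), add_assoc] at h1
      exact le_of_add_le_add_left h1
    have h6 := conjugate_le_conjugate_of_nonneg h5 (he0 c)
    have h7 : e c * C.r (s.ass c) * e c = C.r (s.ass c) := by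
      simp only [he, ← C.r_mul]
      congr 1
      ext t
      rcases hs.ass_01 c t with h | h
      · simp [h]
      · have hQ1 : Q c t = 1 := by
          rcases hs.U_01 t with hu | hu
          · by_cases hc : c = c0 <;> simp [hQdef, hX0, hc, hu, h]
            · subst hc; simp [h]
          · exact absurd (hass0 t hu c) (by simp [h])
        simp [h, hQ1]
    rw [mul_add, mul_add, add_mul, add_mul, mul_one, hee c, mul_smul_comm P.Wf,
      smul_mul_assoc P.Wf, h7] at h6
    have h8 : e c = C.r (s.ass c) + C.r (X0 c) := by simp only [he, hQdef, C.r_add]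
    rw [← le_sub_iff_add_le] at h6
    refine h6.trans_eq ?_
    have hT1 : T = 1 - P.Wf := by rw [hT, Prm.Wf]; ring
    rw [hT1]
    conv_rhs => rw [show (1 - P.Wf) • e c = e c - P.Wf • e c by rw [sub_smul, one_smul]]
    nth_rewrite 5 [h8]
    module
  set S := C.spinch Q P.y with hSdef
  have hSs : IsSelfAdjoint S := C.spinch_isSelfAdjoint Q hP.y_sa
  have hSn : ‖S‖ ≤ P.β := (C.norm_spinch_le hQ hP.y_sa).trans hP.norm_y
  set Y : Bool → M := fun i => ∑ c, (P.Wf • C.r (X0 c) + e c * pos c i * e c) with hY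
  have hY0 : ∀ i, 0 ≤ Y i := fun i => Finset.sum_nonneg fun c _ =>
    add_nonneg (smul_nonneg hWf0 (C.r_nonneg (hX00 c)))
      (conjugate_nonneg_of_nonneg (hpos0 c i) (he0 c))
  have hSY : ∀ i, sg i • S - algebraMap ℝ M T ≤ Y i := fun i => by
    rw [sub_le_iff_le_add', hSdef, Core.spinch, Finset.smul_sum]
    refine (Finset.sum_le_sum (g := fun c => T • e c + (P.Wf • C.r (X0 c)
      + e c * pos c i * e c)) fun c _ => ?_).trans_eq ?_
    · have := hone c i
      rwa [mul_smul_comm, smul_mul_assoc] at this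
    · simp only [hY, Finset.sum_add_distrib, ← Finset.smul_sum, he, ← C.r_sum, hQsum, C.r_one,
        Algebra.algebraMap_eq_smul_one]
  have hYtr : ∀ i, C.tr (Y i) ≤ η / 2 := fun i => by
    have hb : ∀ c, C.tr (P.Wf • C.r (X0 c) + e c * pos c i * e c)
        ≤ C.ig (X0 c) + P.pot C (col s c) / 2 := fun c => by
      rw [C.tr_add, C.tr_smul]
      refine add_le_add (mul_le_of_le_one_left (C.ig_nonneg (hX00 c)) hWf1) ?_
      have h1 : C.tr (e c * pos c i * e c) ≤ C.tr (pos c i) := by
        rw [C.tr_cycle, hee c]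
        have := C.tr_mul_nonneg (sub_nonneg.2 (he1 c)) (hpos0 c i)
        rw [sub_mul, one_mul, C.tr_sub] at this
        linarith
      refine h1.trans ((posPart_tr_le hP (hs.col c) i).trans ?_)
      refine div_le_div_of_nonneg_right ?_ zero_le_two
      refine le_trans ?_ (Finset.single_le_sum
        (f := fun j => C.tr (cfc (f P.u2 P.sm P.l) (P.mat C (col s c) j))
          + P.ν * C.tr ((col s c).G j : M))
        (fun j _ => add_nonneg (C.tr_nonneg (cfc_nonneg fun t ht => Scalar.f_nonneg P.l_pos.le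
          (spectrum_nonneg_of_nonneg (Prm.mat_nonneg hP (hs.col c) j) ht)))
          (mul_nonneg P.ν_pos.le (C.tr_nonneg ((hs.col c).G_nonneg j)))) (Finset.mem_univ i))
      exact le_add_of_nonneg_right (mul_nonneg P.ν_pos.le (C.tr_nonneg ((hs.col c).G_nonneg i)))
    rw [hY, C.tr_sum]
    refine (Finset.sum_le_sum fun c _ => hb c).trans ?_
    rw [Finset.sum_add_distrib, ← Finset.sum_div, ← C.ig_sum]
    have : ∑ c, X0 c = s.U := by simp [hX0]
    rw [this]
    have := C.ig_nonneg hU0
    show _ + P.Psi C s / 2 ≤ _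
    linarith
  have hη0 : 0 ≤ η := by
    have := C.tr_nonneg (hY0 true); linarith [hYtr true]
  -- the clipped element
  set z := cfc (fun t : ℝ => max (-T) (min t T)) S with hz
  refine ⟨Q, z, hQ, cfc_predicate (R := ℝ) _ S, ?_, ?_⟩
  · refine norm_cfc_le hT0 fun t _ => ?_
    rw [Real.norm_eq_abs, abs_le]
    exact ⟨le_max_left _ _, max_le (by linarith) (min_le_right _ _)⟩
  set Z : Bool → M := fun i => cfc (fun t => max (sg i * t - T) 0) S with hZ
  have hZsq : ∀ i, C.tr (Z i * Z i) ≤ P.β * (η / 2) := fun i => by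
    have hZ0 : 0 ≤ Z i := cfc_nonneg fun t _ => le_max_right _ _
    have hA : sg i • S - algebraMap ℝ M T = cfc (fun t => sg i * t - T) S := by
      rw [cfc_sub (fun t => sg i * t) (fun _ => T) S, cfc_const_mul (sg i) (fun t => t) S,
        cfc_id' ℝ S, cfc_const T S]
    have hAP : (sg i • S - algebraMap ℝ M T) * Z i = Z i * Z i := by
      rw [hA, hZ, ← cfc_mul _ _ S, ← cfc_mul _ _ S]
      refine cfc_congr fun t _ => ?_
      rcases max_cases (sg i * t - T) 0 with ⟨h, _⟩ | ⟨h, _⟩ <;> rw [h]; ring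
    have hn1 : ‖Z i‖ ≤ P.β := by
      refine norm_cfc_le P.β_pos.le fun t ht => ?_
      rw [Real.norm_of_nonneg (le_max_right _ _)]
      have h1 : |t| ≤ P.β := (Core.abs_le_of_mem_spectrum hSs ht).trans hSn
      refine max_le ?_ P.β_pos.le
      have : |sg i * t| = |t| := by cases i <;> simp [sg]
      linarith [le_abs_self (sg i * t)]
    have h2 := C.tr_mul_nonneg (sub_nonneg.2 (hSY i)) hZ0
    rw [sub_mul, C.tr_sub, hAP, C.tr_comm (Y i)] at h2
    have h3 := C.tr_le_norm_mul (IsSelfAdjoint.of_nonneg hZ0) (hY0 i)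
    have h4 : ‖Z i‖ * C.tr (Y i) ≤ P.β * (η / 2) :=
      mul_le_mul hn1 (hYtr i) (C.tr_nonneg (hY0 i)) P.β_pos.le
    linarith
  have hd : C.n2sq (S - z) = C.tr (Z true * Z true) + C.tr (Z false * Z false) := by
    have e1 : S - z = cfc (fun t : ℝ => t - max (-T) (min t T)) S := by
      rw [hz, cfc_sub (fun t : ℝ => t) (fun t => max (-T) (min t T)) S, cfc_id' ℝ S]
    rw [Core.n2sq, e1, (IsSelfAdjoint.cfc).star_eq, ← C.tr_add, hZ, ← cfc_mul _ _ S,
      ← cfc_mul _ _ S, ← cfc_mul _ _ S, ← cfc_add ..]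
    congr 1
    refine cfc_congr fun t _ => ?_
    simp only [sg, Bool.false_eq_true, if_true, if_false, one_mul, neg_one_mul]
    rcases le_total t (-T) with h | h
    · rw [min_eq_left (by linarith), max_eq_left h, max_eq_right (by linarith : t - T ≤ 0),
        max_eq_left (by linarith : 0 ≤ -t - T)]
      ring
    · rcases le_total t T with h' | h'
      · rw [min_eq_left h', max_eq_right h, max_eq_right (by linarith : t - T ≤ 0),
          max_eq_right (by linarith : -t - T ≤ 0)]
        ring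
      · rw [min_eq_right h', max_eq_right (by linarith : -T ≤ T),
          max_eq_left (by linarith : 0 ≤ t - T), max_eq_right (by linarith : -t - T ≤ 0)]
        ring
  rw [hd]
  have hn1 : (1 : ℝ) ≤ n := Nat.one_le_cast.2 hn
  have := mul_le_mul_of_nonneg_right hn1 (mul_nonneg P.β_pos.le hη0)
  linarith [hZsq true, hZsq false, mul_nonneg P.β_pos.le hη0]

end Vale.Agent.P078.Tracial.Two
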