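import Vale.Agent.P078.Tracial.Two.Step
import Vale.Agent.P078.Tracial.Two.Start
import Vale.Agent.P078.Tracial.Semifinite

/-! Quadratically many pieces suffice. -/

namespace Vale.Agent.P078.Tracial.Two

set_option linter.unusedSectionVars false

open Filter Topology ComplexOrder

section

variable {M X : Type*} [CStarAlgebra M] [PartialOrder M] [StarOrderedRing M]
variable [TopologicalSpace X] [CompactSpace X] [T2Space X] [TotallyDisconnectedSpace X]

/-- A small self-adjoint element with zero expectation is cut down to a multiple of the square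
of its bound by few pieces. -/
theorem exists_paving2 (C : Core M X) {y : M} (hy : IsSelfAdjoint y) (hE : C.Er y = 0) {β : ℝ}
    (hβ : 0 < β) (hβ1 : β ≤ 1 / 10000) (hyn : ‖y‖ ≤ β) {n : ℕ}
    (hn : 20 ≤ (n : ℝ) * β ^ 2) {δ : ℝ} (hδ : 0 < δ) :
    ∃ (e : Fin n → C(X, ℝ)) (z : M), Core.IsCol e ∧ IsSelfAdjoint z ∧
      ‖z‖ ≤ 120000 * β ^ 2 ∧ C.n2sq (C.spinch e y - z) ≤ δ := by
  have hnR : (0 : ℝ) < n := by
    by_contra h
    nlinarith [sq_nonneg β]
  have hn0 : 0 < n := Nat.cast_pos.1 hnR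
  set κ : ℝ := 6 * β ^ 2 with hκ
  have hκ0 : 0 < κ := by positivity
  have hβsq : β ^ 2 ≤ 1 := pow_le_one₀ hβ.le (by linarith)
  have hκ1 : κ / 6 ≤ 1 := by rw [hκ]; linarith
  set η := δ / (2 * n * β) with hη
  have hη0 : 0 < η := by positivity
  set t := min 1 (η / (28 * n * (1 + 60 / κ))) with ht
  have ht0 : 0 < t := lt_min one_pos (by positivity)
  have ht1 : t ≤ 1 := min_le_left _ _
  set ν := t * κ ^ 3 with hνdef
  have hν : 0 < ν := by positivity
  have hκ3 : κ ^ 3 ≤ 1 := pow_le_one₀ hκ0.le (by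
    rw [hκ]; nlinarith [mul_le_mul hβ1 hβ1 hβ.le (by norm_num)])
  have hν1 : ν ≤ t := mul_le_of_le_one_right ht0.le hκ3
  set L := 3 / (κ / 8) + 1 with hLdef
  have hL1 : 1 ≤ L := le_add_of_nonneg_left (by positivity)
  set g := t / L with hgdef
  have hg : 0 < g := by positivity
  have hgΛ : g ≤ 3 / ν := by
    calc g ≤ t := div_le_self ht0.le hL1
      _ ≤ 1 := ht1
      _ ≤ 3 / ν := by rw [le_div_iff₀ hν]; linarith
  set P : Prm M := ⟨y, β, (n : ℝ) * κ / 4, t, t, ν, g, 3 / ν, hβ, hβ1,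
    by rw [hκ]; linarith, ht0, ht0, ht1, hν, le_rfl, hg, hgΛ⟩ with hPdef
  have hP : P.Ok C := ⟨hy, hE, hyn⟩
  have hPκ : P.κ = κ := rfl
  obtain ⟨ζ, hζ, hU⟩ := U_small hP (show 0 < η / 12 by positivity) n
  obtain ⟨s00, hs00, hstart⟩ := exists_start (C := C) hP hn0 (by rw [hPκ])
  obtain ⟨s0, hs0, hle0, hmin⟩ := exists_near_min hP s00 hs00 hζ
  obtain ⟨s, hs, hcl, hb, hle⟩ := exists_improve hP
    (by
      show (2 + t) / (3 / ν) ^ 2 ≤ ν
      rw [div_le_iff₀ (by positivity), div_pow, ← mul_div_assoc, le_div_iff₀ (by positivity)]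
      have : ν * ν ≤ ν := mul_le_of_le_one_right hν.le (hν1.trans ht1)
      nlinarith)
    (by
      show (2 + t) / (κ / 8) + ν ≤ t / g ^ 2
      have h1 : (2 + t) / (κ / 8) + ν ≤ L := by
        refine add_le_add (div_le_div_of_nonneg_right (by linarith) (by positivity))
          (hν1.trans ht1)
      refine h1.trans ?_
      rw [hgdef, div_pow, div_div_eq_mul_div, le_div_iff₀ (by positivity)]
      have h2 : t ^ 2 * 1 ≤ t * L := by
        rw [sq, mul_one]; exact mul_le_mul_of_nonneg_left (ht1.trans hL1) ht0.le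
      calc L * t ^ 2 ≤ L * (t * L) :=
            mul_le_mul_of_nonneg_left (by linarith) (by linarith)
        _ = t * L ^ 2 := by ring) s0 hs0
  have hUle := hU s hs hcl hb fun u hu => hle.trans (hmin u hu)
  have hΨ := Prm.Psi_nonneg hP hs
  have h3 : (1 + 60 / κ) * P.Psi C s ≤ η / 2 := by
    have h0 : P.Psi C s ≤ n * (14 * t) := by
      refine (hle.trans (hle0.trans hstart)).trans (mul_le_mul_of_nonneg_left ?_ hnR.le)
      show 2 * t + 4 * t + 8 * ν ≤ 14 * t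
      linarith
    calc (1 + 60 / κ) * P.Psi C s ≤ (1 + 60 / κ) * (n * (14 * t)) :=
          mul_le_mul_of_nonneg_left h0 (by positivity)
      _ ≤ (1 + 60 / κ) * (n * (14 * (η / (28 * n * (1 + 60 / κ))))) := by
          gcongr; exact min_le_right _ _
      _ = η / 2 := by field_simp; ring
  obtain ⟨e, z, he, hz, hzn, hn2⟩ := exists_paving_of_state hP hn0 hs (η := η) (by
    rw [hPκ] at hUle
    have e1 : (1 + 60 / κ) * P.Psi C s = P.Psi C s + 6 * (10 / κ * P.Psi C s) := by ring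
    linarith)
  refine ⟨e, z, he, hz, hzn.trans (le_of_eq ?_), hn2.trans (le_of_eq ?_)⟩
  · rw [hPκ, hκ]; ring
  · show 2 * (n : ℝ) * β * η = δ
    rw [hη]
    field_simp

end

theorem pavingConclusion_quadratic.{u, v} {ε : ℝ} (hε : 0 < ε) (hε1 : ε ≤ 24) {n : ℕ}
    (h : 20 * 240000 ^ 2 ≤ (n : ℝ) * ε ^ 2) : PavingConclusion.{u, v} ε n := by
  intro M X _ _ _ _ _ _ _ C x hx hx1 δ hδ
  set β := ε / 240000 with hβ
  have hβ0 : 0 < β := by positivity
  set x' := (1 / 2 : ℝ) • (x - C.r (C.Er x)) with hx'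
  have hx's : IsSelfAdjoint x' :=
    (IsSelfAdjoint.all _).smul (hx.sub (C.r_isSelfAdjoint _))
  have hx'1 : ‖x'‖ ≤ 1 := by
    rw [hx', norm_smul]
    have := norm_sub_le x (C.r (C.Er x))
    have := (C.norm_r_le (C.Er x)).trans (C.norm_Er_le hx)
    norm_num
    linarith
  have hE : C.Er x' = 0 := by
    rw [hx', C.Er_smul, C.Er_sub, C.Er_r, sub_self, smul_zero]
  set y := β • x' with hy
  obtain ⟨e, z, he, hz, hzn, hn2⟩ := exists_paving2 C (y := y)
    ((IsSelfAdjoint.all _).smul hx's) (by rw [hy, C.Er_smul, hE, smul_zero]) hβ0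
    (by rw [hβ]; linarith)
    (by
      rw [hy, norm_smul, Real.norm_of_nonneg hβ0.le]
      exact mul_le_of_le_one_right hβ0.le hx'1)
    (n := n) (by rw [hβ, div_pow, ← mul_div_assoc, le_div_iff₀ (by positivity)]; exact h)
    (δ := δ * (β / 2) ^ 2) (by positivity)
  refine ⟨e, (2 / β) • z, he.1, he.2, (IsSelfAdjoint.all _).smul hz, ?_, ?_⟩
  · rw [norm_smul, Real.norm_of_nonneg (by positivity)]
    calc 2 / β * ‖z‖ ≤ 2 / β * (120000 * β ^ 2) := mul_le_mul_of_nonneg_left hzn (by positivity)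
      _ = ε := by rw [hβ]; field_simp; ring
  · change C.n2sq (C.spinch e x - C.r (C.Er x) - (2 / β) • z) ≤ δ
    have key : C.spinch e x - C.r (C.Er x) - (2 / β) • z = (2 / β) • (C.spinch e y - z) := by
      rw [hy, C.spinch_smul, smul_sub, smul_smul, div_mul_cancel₀ _ hβ0.ne', hx', C.spinch_smul,
        smul_smul, show (2 : ℝ) * (1 / 2) = 1 by norm_num, one_smul, C.spinch_sub, C.spinch_r he]
    rw [key, C.n2sq_real_smul]
    calc (2 / β) ^ 2 * C.n2sq (C.spinch e y - z) ≤ (2 / β) ^ 2 * (δ * (β / 2) ^ 2) :=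
          mul_le_mul_of_nonneg_left hn2 (by positivity)
      _ = δ := by field_simp

/-- Quadratically many pieces so-pave every self-adjoint element over every masa of every von
Neumann algebra with a faithful normal semifinite trace, given by vectors. -/
theorem soPavableIn_semifinite_quadratic :
    ∃ C : ℝ, 0 < C ∧ ∀ ε : ℝ, 0 < ε → ε ≤ 1 → ∃ n : ℕ, (n : ℝ) ≤ C * (1 / ε) ^ 2 ∧
      ∀ (H : Type) [NormedAddCommGroup H] [InnerProductSpace ℂ H] [CompleteSpace H]
        (M : VonNeumannAlgebra H) (A : StarSubalgebra ℂ (H →L[ℂ] H)),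
        (∀ a ∈ A, a ∈ M) → (∀ x ∈ M, (∀ a ∈ A, a * x = x * a) → x ∈ A) →
        (∀ a ∈ A, ∀ b ∈ A, a * b = b * a) →
        ∀ (I : Type) (ξ : I → H), SemifiniteTrace M ξ →
        ∀ x ∈ M, IsSelfAdjoint x → SoPavableIn M A x ε n := by
  refine ⟨20 * 480000 ^ 2 + 3, by norm_num, fun ε hε hε1 => ?_⟩
  set n0 := ⌈20 * 480000 ^ 2 / ε ^ 2⌉₊ with hn0
  have hh : 20 * 240000 ^ 2 ≤ (n0 : ℝ) * (ε / 2) ^ 2 := by
    have : 20 * 480000 ^ 2 / ε ^ 2 ≤ (n0 : ℝ) := Nat.le_ceil _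
    rw [div_le_iff₀ (by positivity)] at this
    linarith
  refine ⟨n0 + (⌊1 / ε⌋₊ + 1), ?_, fun H _ _ _ M A h1 h2 h3 I ξ hτ x hx hxs =>
    soPavableIn_of_paving_semifinite M A h1 h2 h3 hτ hε
      (pavingConclusion_quadratic (by positivity) (by linarith) hh) hx hxs⟩
  set a := 1 / ε with ha
  have he : 1 ≤ a := one_le_one_div hε hε1
  have h1 : (⌊a⌋₊ : ℝ) ≤ a := Nat.floor_le (by linarith)
  have h2 : (n0 : ℝ) ≤ 20 * 480000 ^ 2 * a ^ 2 + 1 := by
    have h3 : (n0 : ℝ) < 20 * 480000 ^ 2 / ε ^ 2 + 1 := Nat.ceil_lt_add_one (by positivity)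
    have h4 : 20 * 480000 ^ 2 / ε ^ 2 = 20 * 480000 ^ 2 * a ^ 2 := by rw [ha]; field_simp
    linarith
  have h5 : 1 ≤ a ^ 2 := one_le_pow₀ he
  have h7 : a ≤ a ^ 2 := le_self_pow₀ he (by norm_num)
  push_cast
  linarith

end Vale.Agent.P078.Tracial.Two
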