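import Vale.Agent.P078.Tracial.Two.Clip

/-! Assigning full weights and dropping negative budgets decreases the potential. -/

namespace Vale.Agent.P078.Tracial.Two

set_option linter.unusedSectionVars false

open Filter Topology ComplexOrder

variable {M X : Type*} [CStarAlgebra M] [PartialOrder M] [StarOrderedRing M]
variable [TopologicalSpace X] [CompactSpace X] [T2Space X] [TotallyDisconnectedSpace X]
variable {C : Core M X} {P : Prm M}
variable {r : ℕ}

theorem Config2.U_apply (s : Config2 M X r) (x : X) : s.U x = 1 - ∑ c, s.ass c x := by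
  simp [Config2.U]

theorem exists_assign (hP : P.Ok C) (s : Config2 M X r) (hs : StateOk P C s) :
    ∃ s' : Config2 M X r, StateOk P C s' ∧ s'.G = s.G ∧ P.Psi C s' ≤ P.Psi C s ∧
      ∀ c x, s'.act c x = 1 → s'.W c x ≤ P.Wm := by
  have hUone : ∀ c x, s.act c x = 1 → s.U x = 1 := fun c x hx => by
    rcases hs.U_01 x with h' | h'
    · have := hs.act_le c x; linarith
    · exact h'
  have hass0 : ∀ x, s.U x = 1 → ∀ c, s.ass c x = 0 := fun x hx c => by
    have h0 : ∀ d ∈ (Finset.univ : Finset (Fin r)), 0 ≤ s.ass d x := fun d _ => by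
      rcases hs.ass_01 d x with h' | h' <;> simp [h']
    have h1 : ∑ d, s.ass d x = 0 := by rw [Config2.U_apply] at hx; linarith
    exact (Finset.sum_eq_zero_iff_of_nonneg h0).1 h1 c (Finset.mem_univ c)
  have hWm : P.Wf < P.Wm := by unfold Prm.Wf Prm.Wm; linarith [P.κ_pos]
  have hcl : ∀ c, ∃ V : Set X, IsClopen V ∧
      {x | 1 ≤ s.act c x ∧ P.Wm ≤ s.W c x} ⊆ V ∧
      V ⊆ {x | 1 / 2 < s.act c x ∧ P.Wf < s.W c x} := fun c => by
    refine exists_clopen_of_closed_subset_open ?_ ?_ ?_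
    · exact (isClosed_le continuous_const ((s.act c).continuous)).inter
        (isClosed_le continuous_const ((s.W c).continuous))
    · exact (isOpen_lt continuous_const ((s.act c).continuous)).inter
        (isOpen_lt continuous_const ((s.W c).continuous))
    · rintro x ⟨h1, h2⟩
      exact ⟨by linarith, by linarith⟩
  choose S hS hSge hSle using hcl
  obtain ⟨t, ht01, htS, htsum⟩ := exists_disjointify S hS
  have htact : ∀ c x, t c x = 1 → s.act c x = 1 ∧ P.Wf ≤ s.W c x := fun c x h => by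
    obtain ⟨h1, h2⟩ := hSle c (htS c x h)
    rcases hs.act_01 c x with h' | h'
    · linarith
    · exact ⟨h', h2.le⟩
  set T : C(X, ℝ) := 1 - ∑ c, t c with hTdef
  have hT : ∀ x, (T x = 1 ∧ (∀ c, t c x = 0) ∧ ∀ c, x ∉ S c) ∨ (T x = 0 ∧ s.U x = 1) := by
    intro x
    rcases htsum x with ⟨h0, hn⟩ | h1
    · refine Or.inl ⟨by simp [hTdef, h0], fun c => ?_, hn⟩
      rcases ht01 c x with h | h
      · exact h
      · exact absurd (htS c x h) (hn c)
    · refine Or.inr ⟨by simp [hTdef, h1], ?_⟩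
      by_contra hU
      have : ∑ c, t c x = 0 := Finset.sum_eq_zero fun c _ => by
        rcases ht01 c x with h | h
        · exact h
        · exact absurd (hUone c x (htact c x h).1) hU
      linarith
  set s' : Config2 M X r :=
    ⟨fun c => s.ass c + t c, fun c => s.act c * T, fun c => s.b c * T, s.W, s.G⟩ with hs'def
  have hU' : s'.U = s.U * T := by
    ext x
    have hsum : (s'.U) x = s.U x - ∑ c, t c x := by
      simp [Config2.U, hs'def, Finset.sum_add_distrib]; ring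
    have hTx : T x = 1 - ∑ c, t c x := by simp [hTdef]
    rw [hsum, ContinuousMap.mul_apply, hTx]
    rcases hT x with ⟨_, h, _⟩ | ⟨h, hU⟩
    · simp [h]
    · rw [hU]; ring
  refine ⟨s', ⟨fun c x => ?_, fun c x => ?_, fun x => ?_, fun c x => ?_, ?_, fun c x hx => ?_,
    fun c x hx => ?_, fun c x hx => ?_, hs.W_mem, hs.G_nonneg, fun c x hx => ?_⟩, rfl, ?_,
    fun c x hx => ?_⟩
  · rcases ht01 c x with h | h
    · simpa [hs'def, h] using hs.ass_01 c x
    · simp [hs'def, h, hass0 x (hUone c x (htact c x h).1) c]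
  · rcases hT x with ⟨h, _⟩ | ⟨h, _⟩
    · simpa [hs'def, h] using hs.act_01 c x
    · simp [hs'def, h]
  · rw [hU']
    rcases hT x with ⟨h, _⟩ | ⟨h, _⟩
    · simpa [h] using hs.U_01 x
    · simp [h]
  · rw [hU']
    rcases hT x with ⟨h, _⟩ | ⟨h, _⟩
    · simpa [hs'def, h] using hs.act_le c x
    · simp [hs'def, h]
  · rw [hU', ← smul_mul_assoc, ← hs.b_sum, Finset.sum_mul]
  · rw [hU'] at hx
    rcases hT x with ⟨h, _⟩ | ⟨h, _⟩
    · simp [h] at hx
      simp [hs'def, h, hs.b_supp c x hx]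
    · simp [hs'def, h]
  · rcases hT x with ⟨h, _⟩ | ⟨h, _⟩
    · simp [hs'def, h] at hx
      simpa [hs'def, h] using hs.b_drop c x hx
    · simp [hs'def, h]
  · rcases hT x with ⟨h, _⟩ | ⟨h, _⟩
    · simp [hs'def, h] at hx
      simpa [hs'def, h] using hs.b_act c x hx
    · simp [hs'def, h] at hx
  · rcases hT x with ⟨h, _⟩ | ⟨h, _⟩
    · simp [hs'def, col, h] at hx
      simpa [hs'def, col, h] using hs.inv c x hx
    · simp [hs'def, col, h] at hx
  · refine Finset.sum_le_sum fun c _ =>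
      Prm.pot_mono (s := col s c) (s' := col s' c) hP (hs.G_nonneg c) rfl ?_
    refine ContinuousMap.le_def.2 fun x => ?_
    rcases hT x with ⟨h, h0, _⟩ | ⟨h, _⟩
    · simp [Prm.wt, col, hs'def, h, h0 c]
    · rcases ht01 c x with h' | h'
      · have h'' := (hs.W_mem c x).1
        rcases hs.act_01 c x with ha | ha
        · simp [Prm.wt, col, hs'def, h, h', ha]
        · simp [Prm.wt, col, hs'def, h, h', ha]
          linarith
      · obtain ⟨ha, hb⟩ := htact c x h'
        simp [Prm.wt, col, hs'def, h, h', ha, hass0 x (hUone c x ha) c]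
        linarith
  · rcases hT x with ⟨h, _, hn⟩ | ⟨h, _⟩
    · simp [hs'def, h] at hx
      by_contra hb
      exact hn c (hSge c ⟨hx.ge, le_of_lt (not_le.1 hb)⟩)
    · simp [hs'def, h] at hx

theorem exists_drop (hP : P.Ok C) (s : Config2 M X r) (hs : StateOk P C s)
    (hhigh : ∀ c x, s.act c x = 1 → s.W c x ≤ P.Wm) :
    ∃ s' : Config2 M X r, StateOk P C s' ∧ (∀ c, P.Window (col s' c)) ∧ s'.G = s.G ∧
      P.Psi C s' ≤ P.Psi C s := by
  have hcl : ∀ c, ∃ V : Set X, IsClopen V ∧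
      {x | 1 ≤ s.act c x ∧ s.b c x ≤ -P.b1 / 2} ⊆ V ∧
      V ⊆ {x | 1 / 2 < s.act c x ∧ s.b c x < 0} := fun c => by
    refine exists_clopen_of_closed_subset_open ?_ ?_ ?_
    · exact (isClosed_le continuous_const ((s.act c).continuous)).inter
        (isClosed_le ((s.b c).continuous) continuous_const)
    · exact (isOpen_lt continuous_const ((s.act c).continuous)).inter
        (isOpen_lt ((s.b c).continuous) continuous_const)
    · rintro x ⟨h1, h2⟩
      exact ⟨by linarith, lt_of_le_of_lt h2 (by linarith [P.b1_pos])⟩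
  choose D hD hDge hDle using hcl
  set d : Fin r → C(X, ℝ) := fun c => ind (D c) (hD c) with hd
  set s' : Config2 M X r :=
    ⟨s.ass, fun c => s.act c * (1 - d c), s.b, s.W, s.G⟩ with hs'def
  have hcase : ∀ c x, (x ∈ D c ∧ s'.act c x = 0 ∧ s.b c x < 0) ∨
      (x ∉ D c ∧ s'.act c x = s.act c x) := fun c x => by
    by_cases h : x ∈ D c
    · exact Or.inl ⟨h, by simp [hs'def, hd, ind_mem _ h], (hDle c h).2⟩
    · exact Or.inr ⟨h, by simp [hs'def, hd, ind_notMem _ h]⟩
  refine ⟨s', ⟨hs.ass_01, fun c x => ?_, hs.U_01, fun c x => ?_, hs.b_sum, hs.b_supp,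
    fun c x hx => ?_, fun c x hx => ?_, hs.W_mem, hs.G_nonneg, fun c x hx => ?_⟩,
    fun c => ⟨fun x hx => ?_, fun x hx => ?_⟩, rfl, ?_⟩
  · rcases hcase c x with ⟨_, h, _⟩ | ⟨_, h⟩ <;> rw [h]
    · exact Or.inl rfl
    · exact hs.act_01 c x
  · show s'.act c x ≤ s.U x
    rcases hcase c x with ⟨_, h, _⟩ | ⟨_, h⟩ <;> rw [h]
    · rcases hs.U_01 x with h' | h' <;> simp [h']
    · exact hs.act_le c x
  · rcases hcase c x with ⟨_, _, h⟩ | ⟨_, h⟩
    · exact h.le
    · rw [h] at hx; exact hs.b_drop c x hx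
  · rcases hcase c x with ⟨_, h, _⟩ | ⟨_, h⟩ <;> rw [h] at hx
    · norm_num at hx
    · exact hs.b_act c x hx
  · change s'.act c x = 1 at hx
    rcases hcase c x with ⟨_, h, _⟩ | ⟨_, h⟩ <;> rw [h] at hx
    · norm_num at hx
    · exact hs.inv c x hx
  · change s'.act c x = 1 at hx
    rcases hcase c x with ⟨_, h, _⟩ | ⟨hn, h⟩ <;> rw [h] at hx
    · norm_num at hx
    · by_contra hb
      exact hn (hDge c ⟨hx.ge, le_of_lt (not_le.1 hb)⟩)
  · change s'.act c x = 1 at hx
    rcases hcase c x with ⟨_, h, _⟩ | ⟨_, h⟩ <;> rw [h] at hx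
    · norm_num at hx
    · exact hhigh c x hx
  · refine Finset.sum_le_sum fun c _ =>
      Prm.pot_mono (s := col s c) (s' := col s' c) hP (hs.G_nonneg c) rfl ?_
    refine ContinuousMap.le_def.2 fun x => ?_
    have h0 := (hs.W_mem c x).1
    show s'.act c x * s.W c x + P.Wf * s.ass c x ≤ s.act c x * s.W c x + P.Wf * s.ass c x
    rcases hcase c x with ⟨_, h, _⟩ | ⟨_, h⟩ <;> rw [h]
    rcases hs.act_01 c x with ha | ha <;> rw [ha] <;> linarith

/-- Every state can be made clean and bounded without increasing the potential. -/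
theorem exists_improve (hP : P.Ok C) (hνΛ : (2 + P.l) / P.Λ ^ 2 ≤ P.ν)
    (hlg : (2 + P.l) / P.b1 + P.ν ≤ P.l / P.g ^ 2)
    (s : Config2 M X r) (hs : StateOk P C s) :
    ∃ s' : Config2 M X r, StateOk P C s' ∧ (∀ c, P.Window (col s' c)) ∧
      (∀ c, P.Bounded (col s' c)) ∧ P.Psi C s' ≤ P.Psi C s := by
  choose W' G' hok hGb hGp using fun c => exists_clip hP hνΛ hlg (hs.col c)
  set s1 : Config2 M X r := ⟨s.ass, s.act, s.b, W', G'⟩
  have hs1 : StateOk P C s1 := ⟨hs.ass_01, hs.act_01, hs.U_01, hs.act_le, hs.b_sum, hs.b_supp,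
    hs.b_drop, hs.b_act, fun c => (hok c).W_mem, fun c => (hok c).G_nonneg, fun c => (hok c).inv⟩
  obtain ⟨s2, hs2, hG2, hP2, hhigh⟩ := exists_assign hP s1 hs1
  obtain ⟨s3, hs3, hcl, hG3, hP3⟩ := exists_drop hP s2 hs2 hhigh
  refine ⟨s3, hs3, hcl, fun c i => ?_, ?_⟩
  · have e : (col s3 c).G = G' c := by
      show s3.G c = G' c
      rw [hG3, hG2]
    rw [e]
    exact hGb c i
  · exact hP3.trans (hP2.trans (Finset.sum_le_sum fun c _ => hGp c))

/-- Approximate minimisers below a given state exist. -/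
theorem exists_near_min (hP : P.Ok C) (s0 : Config2 M X r) (h0 : StateOk P C s0) {ζ : ℝ}
    (hζ : 0 < ζ) :
    ∃ s : Config2 M X r, StateOk P C s ∧ P.Psi C s ≤ P.Psi C s0 ∧
      ∀ t : Config2 M X r, StateOk P C t → P.Psi C s ≤ P.Psi C t + ζ := by
  set V := {v : ℝ | ∃ t : Config2 M X r, StateOk P C t ∧ P.Psi C t = v}
  have hne : V.Nonempty := ⟨_, s0, h0, rfl⟩
  have hbd : BddBelow V := ⟨0, by rintro v ⟨t, ht, rfl⟩; exact Prm.Psi_nonneg hP ht⟩
  obtain ⟨v, ⟨t, ht, rfl⟩, hv⟩ := exists_lt_of_csInf_lt hne (lt_add_of_pos_right (sInf V) hζ)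
  by_cases hle : P.Psi C t ≤ P.Psi C s0
  · exact ⟨t, ht, hle, fun t' ht' => by linarith [csInf_le hbd ⟨t', ht', rfl⟩]⟩
  · exact ⟨s0, h0, le_rfl, fun t' ht' => by linarith [csInf_le hbd ⟨t', ht', rfl⟩]⟩

end Vale.Agent.P078.Tracial.Two
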