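import Vale.Agent.P078.Tracial.Two.Defs
import Vale.Agent.P078.Tracial.Clip

/-! Clipping the resolvents to a fixed interval decreases the potential. -/

namespace Vale.Agent.P078.Tracial.Two

set_option linter.unusedSectionVars false

open Filter Topology ComplexOrder

variable {M X : Type*} [CStarAlgebra M] [PartialOrder M] [StarOrderedRing M]
variable [TopologicalSpace X] [CompactSpace X] [T2Space X] [TotallyDisconnectedSpace X]
variable {C : Core M X} {P : Prm M}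

theorem exists_cut_above {G : Mˣ} (hG : 0 ≤ (G : M)) {Λ : ℝ} (hΛ : 0 < Λ) :
    ∃ G' : Mˣ, 0 ≤ (G' : M) ∧ (G' : M) ≤ G ∧ (G' : M) ≤ algebraMap ℝ M Λ ∧
      0 ≤ (↑G'⁻¹ : M) - ↑G⁻¹ ∧ (↑G'⁻¹ : M) - ↑G⁻¹ ≤ (1 / Λ ^ 2) • ((G : M) - G') := by
  have hsa : IsSelfAdjoint (G : M) := IsSelfAdjoint.of_nonneg hG
  have hpos := fun t (ht : t ∈ spectrum ℝ (G : M)) => Core.spectrum_unit_pos hG ht
  have hne : ∀ t ∈ spectrum ℝ (G : M), min t Λ ≠ 0 :=
    fun t ht => (lt_min (hpos t ht) hΛ).ne'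
  set G' := cfcUnits (fun t => min t Λ) (G : M) hne
  have hG'v : (G' : M) = cfc (fun t => min t Λ) (G : M) := val_cfcUnits _ _ hne
  have hG'i : (↑G'⁻¹ : M) = cfc (fun t => (min t Λ)⁻¹) (G : M) := val_inv_cfcUnits _ _ hne
  have hcI : ContinuousOn (fun t : ℝ => (min t Λ)⁻¹) (spectrum ℝ (G : M)) :=
    ContinuousOn.inv₀ (by fun_prop) hne
  have hcG : ContinuousOn (fun t : ℝ => t⁻¹) (spectrum ℝ (G : M)) :=
    ContinuousOn.inv₀ continuousOn_id fun t ht => (hpos t ht).ne'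
  have hinv : (↑G⁻¹ : M) = cfc (fun t : ℝ => t⁻¹) (G : M) := (cfc_inv_id G hsa).symm
  refine ⟨G', ?_, ?_, ?_, ?_, ?_⟩
  · rw [hG'v]; exact cfc_nonneg fun t ht => (lt_min (hpos t ht) hΛ).le
  · rw [hG'v]
    calc cfc (fun t => min t Λ) (G : M) ≤ cfc (fun t => t) (G : M) :=
          cfc_mono fun t _ => min_le_left _ _
      _ = G := cfc_id' ℝ (G : M)
  · rw [hG'v]
    exact cfc_le_algebraMap _ _ _ fun t _ => min_le_right _ _
  · rw [hG'i, hinv, ← cfc_sub _ _ _ hcI hcG]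
    exact cfc_nonneg fun t ht =>
      sub_nonneg.2 (inv_anti₀ (lt_min (hpos t ht) hΛ) (min_le_left _ _))
  · rw [hG'i, hinv, hG'v, ← cfc_sub _ _ _ hcI hcG]
    nth_rewrite 2 [← cfc_id' ℝ (G : M)]
    rw [← cfc_sub (fun t : ℝ => t) (fun t => min t Λ) (G : M),
      ← cfc_smul (1 / Λ ^ 2) _ (G : M)]
    refine cfc_mono (fun t ht => ?_) (hcI.sub hcG)
    have ht0 := hpos t ht
    rcases le_total t Λ with h1 | h1
    · simp [min_eq_left h1]
    · rw [min_eq_right h1, smul_eq_mul, inv_sub_inv hΛ.ne' ht0.ne', one_div_mul_eq_div]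
      refine div_le_div_of_nonneg_left (by linarith) (by positivity) ?_
      rw [sq]; exact mul_le_mul_of_nonneg_left h1 hΛ.le

theorem exists_cut_below {G : Mˣ} (hG : 0 ≤ (G : M)) {g Λ : ℝ} (hg : 0 < g) (hgΛ : g ≤ Λ)
    (hGΛ : (G : M) ≤ algebraMap ℝ M Λ) :
    ∃ G' : Mˣ, (G : M) ≤ G' ∧ algebraMap ℝ M g ≤ (G' : M) ∧ (G' : M) ≤ algebraMap ℝ M Λ ∧
      (1 / g ^ 2) • ((G' : M) - G) ≤ (↑G⁻¹ : M) - ↑G'⁻¹ := by
  have hsa : IsSelfAdjoint (G : M) := IsSelfAdjoint.of_nonneg hG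
  have hpos := fun t (ht : t ∈ spectrum ℝ (G : M)) => Core.spectrum_unit_pos hG ht
  have hne : ∀ t ∈ spectrum ℝ (G : M), max t g ≠ 0 :=
    fun t _ => (lt_max_of_lt_right hg).ne'
  set G' := cfcUnits (fun t => max t g) (G : M) hne
  have hG'v : (G' : M) = cfc (fun t => max t g) (G : M) := val_cfcUnits _ _ hne
  have hG'i : (↑G'⁻¹ : M) = cfc (fun t => (max t g)⁻¹) (G : M) := val_inv_cfcUnits _ _ hne
  have hcI : ContinuousOn (fun t : ℝ => (max t g)⁻¹) (spectrum ℝ (G : M)) :=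
    ContinuousOn.inv₀ (by fun_prop) hne
  have hcG : ContinuousOn (fun t : ℝ => t⁻¹) (spectrum ℝ (G : M)) :=
    ContinuousOn.inv₀ continuousOn_id fun t ht => (hpos t ht).ne'
  have hinv : (↑G⁻¹ : M) = cfc (fun t : ℝ => t⁻¹) (G : M) := (cfc_inv_id G hsa).symm
  refine ⟨G', ?_, ?_, ?_, ?_⟩
  · rw [hG'v]
    calc (G : M) = cfc (fun t : ℝ => t) (G : M) := (cfc_id' ℝ (G : M)).symm
      _ ≤ cfc (fun t => max t g) (G : M) := cfc_mono fun t _ => le_max_left _ _
  · rw [hG'v]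
    exact algebraMap_le_cfc _ _ _ fun t _ => le_max_right _ _
  · rw [hG'v]
    refine cfc_le_algebraMap _ _ _ fun t ht => max_le ?_ hgΛ
    exact (le_algebraMap_iff_spectrum_le hsa).1 hGΛ t ht
  · rw [hG'i, hinv, hG'v, ← cfc_sub _ _ _ hcG hcI]
    nth_rewrite 2 [← cfc_id' ℝ (G : M)]
    rw [← cfc_sub (fun t => max t g) (fun t : ℝ => t) (G : M),
      ← cfc_smul (1 / g ^ 2) _ (G : M)]
    refine cfc_mono (fun t ht => ?_) ?_ (hcG.sub hcI)
    swap; · fun_prop
    have ht0 := hpos t ht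
    rcases le_total g t with h1 | h1
    · simp [max_eq_left h1]
    · rw [max_eq_right h1, smul_eq_mul, inv_sub_inv ht0.ne' hg.ne', one_div_mul_eq_div]
      refine div_le_div_of_nonneg_left (by linarith) (by positivity) ?_
      rw [sq]; exact mul_le_mul_of_nonneg_right h1 hg.le

theorem Er_unit_pos (C : Core M X) {G : Mˣ} (hG : 0 ≤ (G : M)) (x : X) : 0 < C.Er (G : M) x := by
  have : Nontrivial M := nontrivial_of_ne (1 : M) 0 fun e => by
    have h1 := C.τ_one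
    rw [e, map_zero] at h1
    exact zero_ne_one h1
  obtain ⟨c, hc, hle⟩ := (CFC.exists_pos_algebraMap_le_iff (IsSelfAdjoint.of_nonneg hG)).2
    fun t ht => Core.spectrum_unit_pos hG ht
  have h := ContinuousMap.le_def.1 (C.Er_mono hle) x
  rw [C.Er_algebraMap, ContinuousMap.const_apply] at h
  linarith

theorem exists_clip_above (hP : P.Ok C) (hνΛ : (2 + P.l) / P.Λ ^ 2 ≤ P.ν) {s : Col M X}
    (h : s.Ok P C) :
    ∃ G' : Bool → Mˣ, (⟨s.act, s.ass, s.b, s.W, G'⟩ : Col M X).Ok P C ∧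
      (∀ i, (G' i : M) ≤ algebraMap ℝ M P.Λ) ∧
      P.pot C ⟨s.act, s.ass, s.b, s.W, G'⟩ ≤ P.pot C s := by
  choose G' h0 hle hΛ hD0 hD using fun i =>
    exists_cut_above (h.G_nonneg i) (P.g_pos.trans_le P.g_le)
  refine ⟨G', ⟨h.act_01, h.ass_01, h.act_b, h.W_mem, h0, fun x hx => ?_⟩, hΛ,
    Finset.sum_le_sum fun i _ => ?_⟩
  · rcases h.inv x hx with hW | hT
    · exact Or.inl hW
    · refine Or.inr (hT.trans ?_)
      have hs0 := sF_nonneg P.κ_pos P.κ_le (h.W_mem x).1 (h.W_mem x).2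
      have hm := gam2_mono (Er_unit_pos C (h0 true) x) (Er_unit_pos C (h0 false) x)
        (ContinuousMap.le_def.1 (C.Er_mono (hle true)) x)
        (ContinuousMap.le_def.1 (C.Er_mono (hle false)) x)
      exact sub_le_sub_left (mul_le_mul_of_nonneg_right hm hs0) _
  · set s' : Col M X := ⟨s.act, s.ass, s.b, s.W, G'⟩
    set D := (↑(G' i)⁻¹ : M) - ↑(s.G i)⁻¹ with hDdef
    have hA := Prm.mat_isSelfAdjoint (P := P) hP h.G_nonneg i
    have hm : P.mat C s' i = P.mat C s i + D := by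
      rw [hDdef]; simp only [Prm.mat, Prm.wt, s']; abel
    have h2 := Prm.tr_f_add_le (P := P) (C := C) hA (hD0 i)
    have h3 : C.tr D ≤ 1 / P.Λ ^ 2 * (C.tr (s.G i : M) - C.tr (G' i : M)) := by
      rw [← C.tr_sub, ← C.tr_smul]; exact C.tr_mono (hD i)
    have h4 : (2 + P.l) * C.tr D ≤ P.ν * (C.tr (s.G i : M) - C.tr (G' i : M)) := by
      calc (2 + P.l) * C.tr D
          ≤ (2 + P.l) * (1 / P.Λ ^ 2 * (C.tr (s.G i : M) - C.tr (G' i : M))) :=
            mul_le_mul_of_nonneg_left h3 (by linarith [P.l_pos])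
        _ = (2 + P.l) / P.Λ ^ 2 * (C.tr (s.G i : M) - C.tr (G' i : M)) := by ring
        _ ≤ P.ν * (C.tr (s.G i : M) - C.tr (G' i : M)) := by
            refine mul_le_mul_of_nonneg_right hνΛ ?_
            rw [← C.tr_sub]; exact C.tr_nonneg (sub_nonneg.2 (hle i))
    rw [hm]
    linarith

theorem exists_clip_below (hP : P.Ok C) (hlg : (2 + P.l) / P.b1 + P.ν ≤ P.l / P.g ^ 2)
    {s : Col M X} (h : s.Ok P C) (hGΛ : ∀ i, (s.G i : M) ≤ algebraMap ℝ M P.Λ) :
    ∃ (W' : C(X, ℝ)) (G' : Bool → Mˣ),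
      (⟨s.act, s.ass, s.b, W', G'⟩ : Col M X).Ok P C ∧
      P.Bounded (⟨s.act, s.ass, s.b, W', G'⟩ : Col M X) ∧
      P.pot C ⟨s.act, s.ass, s.b, W', G'⟩ ≤ P.pot C s := by
  choose G' hle hlo hhi hD using fun i =>
    exists_cut_below (h.G_nonneg i) P.g_pos P.g_le (hGΛ i)
  have hb1 := P.b1_pos
  set δ : Bool → C(X, ℝ) := fun i => C.Er ((G' i : M) - s.G i) with hδdef
  have hδ : ∀ i x, 0 ≤ δ i x := fun i x =>
    ContinuousMap.le_def.1 (C.Er_nonneg (sub_nonneg.2 (hle i))) x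
  have hδeq : ∀ i x, δ i x = C.Er (G' i : M) x - C.Er (s.G i : M) x := fun i x => by
    simp [hδdef, C.Er_sub]
  set q : C(X, ℝ) := (1 / (2 * P.b1)) • (δ true + δ false) with hqdef
  have hq : ∀ x, 0 ≤ q x := fun x => by
    simp only [hqdef, ContinuousMap.smul_apply, ContinuousMap.add_apply, smul_eq_mul]
    have := hδ true x
    have := hδ false x
    positivity
  set W' : C(X, ℝ) := ⟨fun x => min P.Wa (s.W x + q x), by fun_prop⟩ with hW'def
  have hW' : ∀ x, s.W x ≤ W' x ∧ W' x ≤ s.W x + q x := fun x =>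
    ⟨le_min (h.W_mem x).2 (le_add_of_nonneg_right (hq x)), min_le_right _ _⟩
  refine ⟨W', G', ⟨h.act_01, h.ass_01, h.act_b,
    fun x => ⟨(h.W_mem x).1.trans (hW' x).1, min_le_left _ _⟩,
    fun i => (h.G_nonneg i).trans (hle i), fun x hx => ?_⟩, fun i => ⟨hlo i, hhi i⟩, ?_⟩
  · rcases le_total P.Wa (s.W x + q x) with hc | hc
    · exact Or.inl (min_eq_left hc)
    rcases h.inv x hx with hW | hT
    · refine Or.inl (le_antisymm (min_le_left _ _) ?_)
      exact hW.symm.le.trans (hW' x).1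
    refine Or.inr ?_
    have e : W' x = s.W x + q x := min_eq_right hc
    show s.b x + 2 * P.b1 ≤
      TF P.κ (gam2 (C.Er (G' true : M) x) (C.Er (G' false : M) x)) (W' x)
    rw [e]
    have pT := Er_unit_pos C (h.G_nonneg true) x
    have pF := Er_unit_pos C (h.G_nonneg false) x
    have hΓ : 0 ≤ gam2 (C.Er (s.G true : M) x) (C.Er (s.G false : M) x) := (gam2_pos pT pF).le
    have hlip := gam2_lip pT pF (ContinuousMap.le_def.1 (C.Er_mono (hle true)) x)
      (ContinuousMap.le_def.1 (C.Er_mono (hle false)) x)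
    have hb := h.act_b x hx
    obtain ⟨-, hD0⟩ := le_DF P.κ_pos P.κ_le hΓ hb1 (h.W_mem x).1 (h.W_mem x).2 (by linarith)
    have htan := TF_tangent P.κ_pos hΓ (h.W_mem x).2 (hc : s.W x + q x ≤ 1 - 10000 * P.κ)
    rw [add_sub_cancel_left] at htan
    have hs0 := sF_nonneg P.κ_pos P.κ_le (add_nonneg (h.W_mem x).1 (hq x)) hc
    have hs1 := sF_le P.κ_pos P.κ_le (add_nonneg (h.W_mem x).1 (hq x)) hc
    have hgain : P.b1 * q x = (δ true x + δ false x) / 2 := by
      simp only [hqdef, ContinuousMap.smul_apply, ContinuousMap.add_apply, smul_eq_mul]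
      field_simp
    rw [← hδeq, ← hδeq] at hlip
    have h5 := mul_le_mul_of_nonneg_right hlip hs0
    have h6 : (2 * (δ true x + δ false x)) * sF P.κ (s.W x + q x)
        ≤ (2 * (δ true x + δ false x)) * (1 / 4) :=
      mul_le_mul_of_nonneg_left hs1 (by linarith [hδ true x, hδ false x])
    have h7 := mul_le_mul_of_nonneg_right hD0 (hq x)
    simp only [TF] at htan hT ⊢
    linarith
  · set s' : Col M X := ⟨s.act, s.ass, s.b, W', G'⟩
    have hw : P.wt s' ≤ P.wt s + q := ContinuousMap.le_def.2 fun x => by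
      rcases h.act_01 x with ha | ha <;> simp [Prm.wt, s', ha]
      · exact hq x
      · linarith [(hW' x).2]
    have key : ∀ i, C.tr (cfc (Scalar.f P.u2 P.sm P.l) (P.mat C s' i))
        + P.l / P.g ^ 2 * (C.tr (G' i : M) - C.tr (s.G i : M))
        ≤ C.tr (cfc (Scalar.f P.u2 P.sm P.l) (P.mat C s i)) + (2 + P.l) * C.ig q := by
      intro i
      set D := (↑(s.G i)⁻¹ : M) - ↑(G' i)⁻¹ with hDdef
      have hA := Prm.mat_isSelfAdjoint (P := P) hP h.G_nonneg i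
      have hd : 0 ≤ (G' i : M) - s.G i := sub_nonneg.2 (hle i)
      have hg := P.g_pos
      have hD0 : 0 ≤ D := le_trans (smul_nonneg (by positivity) hd) (hD i)
      have hq' : (0 : C(X, ℝ)) ≤ q := ContinuousMap.le_def.2 hq
      have hm : P.mat C s' i ≤ P.mat C s i - D + C.r q := by
        rw [show P.mat C s i - D + C.r q
          = (↑(G' i)⁻¹ : M) + algebraMap ℝ M P.β + sg i • P.y + C.r (P.wt s + q) by
            rw [hDdef, C.r_add]; simp only [Prm.mat]; abel]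
        exact add_le_add le_rfl (C.r_mono hw)
      have h1 := Prm.tr_f_mono (P := P) (C := C)
        ((hA.sub (IsSelfAdjoint.of_nonneg hD0)).add (C.r_isSelfAdjoint q)) hm
      have h2 := Prm.tr_f_sub_add_le (P := P) (C := C) hA hD0 (C.r_nonneg hq')
      have h3 : 1 / P.g ^ 2 * (C.tr (G' i : M) - C.tr (s.G i : M)) ≤ C.tr D := by
        rw [← C.tr_sub, ← C.tr_smul]; exact C.tr_mono (hD i)
      have h4 : P.l / P.g ^ 2 * (C.tr (G' i : M) - C.tr (s.G i : M)) ≤ P.l * C.tr D := by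
        calc P.l / P.g ^ 2 * (C.tr (G' i : M) - C.tr (s.G i : M))
            = P.l * (1 / P.g ^ 2 * (C.tr (G' i : M) - C.tr (s.G i : M))) := by ring
          _ ≤ P.l * C.tr D := mul_le_mul_of_nonneg_left h3 P.l_pos.le
      simp only [Core.ig]
      linarith
    have hqt : C.ig q = 1 / (2 * P.b1) * ((C.tr (G' true : M) - C.tr (s.G true : M))
        + (C.tr (G' false : M) - C.tr (s.G false : M))) := by
      rw [hqdef, C.ig_smul, C.ig_add, hδdef]
      simp only [← C.tr_sub]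
      rw [C.ig_Er (IsSelfAdjoint.of_nonneg (sub_nonneg.2 (hle true))),
        C.ig_Er (IsSelfAdjoint.of_nonneg (sub_nonneg.2 (hle false)))]
    have h5 : ∀ i, 0 ≤ C.tr (G' i : M) - C.tr (s.G i : M) := fun i => by
      rw [← C.tr_sub]; exact C.tr_nonneg (sub_nonneg.2 (hle i))
    have h6 := mul_le_mul_of_nonneg_right hlg (add_nonneg (h5 true) (h5 false))
    have h7 : 2 * ((2 + P.l) * C.ig q) = (2 + P.l) / P.b1 *
        ((C.tr (G' true : M) - C.tr (s.G true : M)) + (C.tr (G' false : M) - C.tr (s.G false : M))) := by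
      rw [hqt]; field_simp
    have kT := key true
    have kF := key false
    simp only [Prm.pot, Fintype.sum_bool]
    linarith

theorem exists_clip (hP : P.Ok C) (hνΛ : (2 + P.l) / P.Λ ^ 2 ≤ P.ν)
    (hlg : (2 + P.l) / P.b1 + P.ν ≤ P.l / P.g ^ 2) {s : Col M X} (h : s.Ok P C) :
    ∃ (W' : C(X, ℝ)) (G' : Bool → Mˣ),
      (⟨s.act, s.ass, s.b, W', G'⟩ : Col M X).Ok P C ∧
      P.Bounded (⟨s.act, s.ass, s.b, W', G'⟩ : Col M X) ∧
      P.pot C ⟨s.act, s.ass, s.b, W', G'⟩ ≤ P.pot C s := by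
  obtain ⟨G1, h1, h1Λ, h1p⟩ := exists_clip_above hP hνΛ h
  obtain ⟨W2, G2, h2, h2b, h2p⟩ := exists_clip_below hP hlg h1 h1Λ
  exact ⟨W2, G2, h2, h2b, h2p.trans h1p⟩

end Vale.Agent.P078.Tracial.Two
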