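import Vale.Agent.P078.Tracial.StepAux
import Vale.Agent.P078.Tracial.Cov

/-! The part of an element off the subalgebra, and its map. -/

namespace Vale.Agent.P078.Tracial.Core

set_option linter.unusedSectionVars false

variable {M X : Type*} [CStarAlgebra M] [PartialOrder M] [StarOrderedRing M]
variable [TopologicalSpace X] [CompactSpace X] [T2Space X] [TotallyDisconnectedSpace X]
variable (C : Core M X)

/-- The part of `G` off the subalgebra. -/
noncomputable def zG (G : M) : M := G - C.r (C.Er G)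

/-- The map of the part of `G` off the subalgebra. -/
noncomputable def Kz (G : M) (f : C(X, ℝ)) : C(X, ℝ) := C.K G f - C.Er G ^ 2 * f

theorem zG_isSelfAdjoint {G : M} (hG : IsSelfAdjoint G) : IsSelfAdjoint (C.zG G) :=
  hG.sub (C.r_isSelfAdjoint _)

theorem Er_zG (G : M) : C.Er (C.zG G) = 0 := by rw [zG, C.Er_sub, C.Er_r, sub_self]

theorem Kz_eq {G : M} (hG : IsSelfAdjoint G) (f : C(X, ℝ)) :
    C.Kz G f = C.Er (C.zG G * C.r f * C.zG G) := by
  simp only [Kz, K, zG, hG.star_eq, sub_mul, mul_sub, C.Er_sub, mul_assoc, ← C.r_mul]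
  rw [show G * C.r (f * C.Er G) = G * C.r (f * C.Er G) * 1 by rw [mul_one]]
  rw [mul_one, C.Er_mul_r, C.Er_r_mul]
  simp only [C.Er_r]
  ring

end Vale.Agent.P078.Tracial.Core
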