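import Vale.Agent.P078.Tracial.Four.Cov
import Vale.Agent.P078.Tracial.Two.Kz

/-! The covariance lemma with two resolvents for each colour. -/

namespace Vale.Agent.P078.Tracial.Core

set_option linter.unusedSectionVars false

open Filter Topology ComplexOrder

variable {M X : Type*} [CStarAlgebra M] [PartialOrder M] [StarOrderedRing M]
variable [TopologicalSpace X] [CompactSpace X] [T2Space X] [TotallyDisconnectedSpace X]
variable (C : Core M X)

/-- The data of one step with two resolvents for each colour. -/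
structure StepData2 (M X : Type*) [TopologicalSpace X] (r : ℕ) where
  act : Fin r → C(X, ℝ)
  U : C(X, ℝ)
  μ : Fin r → C(X, ℝ)
  m : Fin r → C(X, ℝ)
  n : Fin r → Bool → C(X, ℝ)
  G : Fin r → Bool → M
  W : Fin r → Bool → M

/-- Validity and a uniform bound. -/
structure StepData2.Ok {r : ℕ} (d : StepData2 M X r) (N : ℝ) : Prop where
  act_01 : ∀ c x, d.act c x = 0 ∨ d.act c x = 1
  U_01 : ∀ x, d.U x = 0 ∨ d.U x = 1
  act_le : ∀ c x, d.act c x ≤ d.U x
  μ_act : ∀ c, d.μ c * d.act c = d.μ c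
  m_act : ∀ c, d.m c * d.act c = d.m c
  n_act : ∀ c i, d.n c i * d.act c = d.n c i
  bdd_col : ∀ c, ‖d.μ c‖ ≤ N ∧ ‖d.m c‖ ≤ N
  bdd : ∀ c i, ‖d.n c i‖ ≤ N ∧ ‖d.G c i‖ ≤ N ∧ ‖d.W c i‖ ≤ N
  G_nonneg : ∀ c i, 0 ≤ d.G c i
  W_nonneg : ∀ c i, 0 ≤ d.W c i

/-- The linear constraint. -/
noncomputable def constr2 {r : ℕ} (d : StepData2 M X r) (u : Fin r → C(X, ℝ)) : C(X, ℝ) :=
  ∑ c, (d.m c * (d.μ c * u c) - ∑ i, d.n c i * C.K (d.G c i) (d.μ c * u c))

/-- The loss form of colour `c` and sign `i`. -/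
noncomputable def lossB2 {r : ℕ} (d : StepData2 M X r) (c : Fin r) (i : Bool) (v : C(X, ℝ)) : ℝ :=
  C.tr (C.r (d.μ c * v) * d.G c i * C.r (d.μ c * v) * d.W c i)

section Two

variable {r : ℕ} {d : StepData2 M X r} {N T : ℝ} {n : ℕ}

/-- The data of one sign. -/
def StepData2.side (d : StepData2 M X r) (i : Bool) : StepData M X r :=
  ⟨d.act, d.U, d.μ, d.m, fun c => d.n c i, fun c => d.G c i, fun c => d.W c i⟩

theorem StepData2.Ok.side (hd : d.Ok N) (i : Bool) : (d.side i).Ok N where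
  act_01 := hd.act_01
  U_01 := hd.U_01
  act_le := hd.act_le
  μ_act := hd.μ_act
  m_act := hd.m_act
  n_act c := hd.n_act c i
  bdd c := ⟨(hd.bdd_col c).1, (hd.bdd_col c).2, (hd.bdd c i).1, (hd.bdd c i).2.1, (hd.bdd c i).2.2⟩
  G_nonneg c := hd.G_nonneg c i
  W_nonneg c := hd.W_nonneg c i

/-- The activity as an operator. -/
noncomputable def act2V (d : StepData2 M X r) : Module.End ℝ (Fin r → C(X, ℝ)) :=
  blockV fun c => mulOp (d.act c)

/-- One column of the constraint. -/
noncomputable def colL2 (d : StepData2 M X r) (c : Fin r) : Module.End ℝ C(X, ℝ) :=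
  mulOp (d.m c) * mulOp (d.μ c) - ∑ i, mulOp (d.n c i) * C.Kop (d.G c i) * mulOp (d.μ c)

/-- One row of its adjoint. -/
noncomputable def rowL2 (d : StepData2 M X r) (c : Fin r) : Module.End ℝ C(X, ℝ) :=
  mulOp (d.μ c) * mulOp (d.m c) - ∑ i, mulOp (d.μ c) * C.Kop (d.G c i) * mulOp (d.n c i)

lemma colL2_apply (c : Fin r) (f : C(X, ℝ)) :
    C.colL2 d c f = d.m c * (d.μ c * f) - ∑ i, d.n c i * C.K (d.G c i) (d.μ c * f) := by
  simp [colL2]

lemma rowL2_apply (c : Fin r) (f : C(X, ℝ)) :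
    C.rowL2 d c f = d.μ c * (d.m c * f) - ∑ i, d.μ c * C.K (d.G c i) (d.n c i * f) := by
  simp [rowL2]

lemma colL2_mem (c : Fin r) : C.colL2 d c ∈ C.alg :=
  C.alg.sub_mem (C.alg.mul_mem (C.mulOp_mem_alg _) (C.mulOp_mem_alg _))
    (C.alg.sum_mem fun _ _ =>
      C.alg.mul_mem (C.alg.mul_mem (C.mulOp_mem_alg _) (C.Kop_mem_alg _)) (C.mulOp_mem_alg _))

lemma rowL2_mem (c : Fin r) : C.rowL2 d c ∈ C.alg :=
  C.alg.sub_mem (C.alg.mul_mem (C.mulOp_mem_alg _) (C.mulOp_mem_alg _))
    (C.alg.sum_mem fun _ _ =>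
      C.alg.mul_mem (C.alg.mul_mem (C.mulOp_mem_alg _) (C.Kop_mem_alg _)) (C.mulOp_mem_alg _))

/-- The constraint as a linear map. -/
noncomputable def constr2L (d : StepData2 M X r) : (Fin r → C(X, ℝ)) →ₗ[ℝ] C(X, ℝ) :=
  ∑ c, C.colL2 d c ∘ₗ LinearMap.proj c

lemma constr2L_apply (u : Fin r → C(X, ℝ)) : C.constr2L d u = C.constr2 d u := by
  simp [constr2L, constr2, colL2_apply]

/-- Its adjoint. -/
noncomputable def adj2L (d : StepData2 M X r) : C(X, ℝ) →ₗ[ℝ] (Fin r → C(X, ℝ)) :=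
  LinearMap.pi (C.rowL2 d)

lemma adjoint_constr2L (hd : d.Ok N) (u : Fin r → C(X, ℝ)) (f : C(X, ℝ)) :
    C.ig (C.constr2L d u * f) = C.ipV u (C.adj2L d f) := by
  simp only [constr2L, LinearMap.coe_sum, Finset.sum_apply, LinearMap.comp_apply,
    LinearMap.coe_proj, Function.eval, Finset.sum_mul, ← igL_apply, map_sum, ipV_apply, adj2L,
    LinearMap.pi_apply]
  refine Finset.sum_congr rfl fun c _ => ?_
  simp only [colL2_apply, rowL2_apply, sub_mul, mul_sub, map_sub, igL_apply, Finset.sum_mul,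
    Finset.mul_sum, C.ig_sum]
  rw [show d.m c * (d.μ c * u c) * f = u c * (d.μ c * (d.m c * f)) by ring]
  simp only [← igL_apply, map_sub, map_sum]
  congr 1
  refine Finset.sum_congr rfl fun i _ => ?_
  simp only [igL_apply]
  have h := C.cov_ig_K_symm (IsSelfAdjoint.of_nonneg (hd.G_nonneg c i)) (d.μ c * u c) (d.n c i * f)
  rw [show d.n c i * C.K (d.G c i) (d.μ c * u c) * f
      = C.K (d.G c i) (d.μ c * u c) * (d.n c i * f) by ring,
    ← h, mul_assoc, mul_left_comm (d.μ c) (u c)]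

lemma constr2L_bound (hd : d.Ok N) (hN : 0 ≤ N) (u : Fin r → C(X, ℝ)) :
    C.ig (C.constr2L d u * C.constr2L d u) ≤ 6 * r * (N ^ 4 + N ^ 8) * C.ipV u u := by
  set a : Fin r → C(X, ℝ) := fun c => d.m c * (d.μ c * u c)
  set b : Fin r → Bool → C(X, ℝ) := fun c i => d.n c i * C.K (d.G c i) (d.μ c * u c)
  have e : C.constr2L d u = ∑ c, (a c - (b c true + b c false)) := by
    simp [constr2L, colL2_apply, a, b, Fintype.sum_bool]
  have h1 : C.ig (C.constr2L d u * C.constr2L d u) ≤ r * ∑ c,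
      (3 * (C.ig (a c * a c) + C.ig (b c true * b c true) + C.ig (b c false * b c false))) := by
    rw [e]
    simp only [← igL_apply, ← map_add]
    rw [show (r : ℝ) * ∑ c, 3 * C.igL (a c * a c + b c true * b c true + b c false * b c false)
        = C.igL ((r : ℝ) • ∑ c, (3 : ℝ) • (a c * a c + b c true * b c true + b c false * b c false))
      by simp only [map_smul, map_sum, smul_eq_mul]]
    refine C.cov_ig_mono fun x => ?_
    have := sq_sum_le_card_mul_sum_sq (s := Finset.univ)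
      (f := fun c => a c x - (b c true x + b c false x))
    simp only [sq, Finset.card_univ, Fintype.card_fin] at this
    simp only [ContinuousMap.mul_apply, ContinuousMap.smul_apply, ContinuousMap.sum_apply,
      ContinuousMap.sub_apply, ContinuousMap.add_apply, smul_eq_mul]
    refine this.trans (mul_le_mul_of_nonneg_left (Finset.sum_le_sum fun c _ => ?_)
      (Nat.cast_nonneg r))
    nlinarith [sq_nonneg (a c x + b c true x), sq_nonneg (a c x + b c false x),
      sq_nonneg (b c true x - b c false x)]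
  refine h1.trans ?_
  simp only [ipV_apply, Finset.mul_sum]
  refine Finset.sum_le_sum fun c _ => ?_
  obtain ⟨hμ, hm⟩ := hd.bdd_col c
  have h5 := C.cov_sq_mul_le hμ (u c)
  have h7 : 0 ≤ C.ig (d.μ c * u c * (d.μ c * u c)) := C.cov_ig_nonneg fun x => mul_self_nonneg _
  have h0 : 0 ≤ C.ig (u c * u c) := C.cov_ig_nonneg fun x => mul_self_nonneg _
  have ha : C.ig (a c * a c) ≤ N ^ 4 * C.ig (u c * u c) :=
    ((C.cov_sq_mul_le hm (d.μ c * u c)).trans
      (mul_le_mul_of_nonneg_left h5 (sq_nonneg N))).trans_eq (by ring)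
  have hb : ∀ i, C.ig (b c i * b c i) ≤ N ^ 8 * C.ig (u c * u c) := fun i => by
    obtain ⟨hn, hG, -⟩ := hd.bdd c i
    refine ((C.cov_sq_mul_le hn (C.K (d.G c i) (d.μ c * u c))).trans (mul_le_mul_of_nonneg_left
      ((C.cov_sq_K_le (IsSelfAdjoint.of_nonneg (hd.G_nonneg c i)) (d.μ c * u c)).trans
        (mul_le_mul (pow_le_pow_left₀ (norm_nonneg _) hG 4) h5 h7 (pow_nonneg hN 4)))
      (sq_nonneg N))).trans_eq (by ring)
  have hr : (0 : ℝ) ≤ r := Nat.cast_nonneg r
  have := mul_le_mul_of_nonneg_left (add_le_add (add_le_add ha (hb true)) (hb false)) hr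
  have : 0 ≤ (r : ℝ) * (N ^ 4 * C.ig (u c * u c)) := by positivity
  linarith

/-- A crude uniform bound. -/
lemma adj2L_constr2L_norm (hd : d.Ok N) (hN : 0 ≤ N) (u : Fin r → C(X, ℝ)) :
    ‖C.adj2L d (C.constr2L d u)‖ ≤ r * (N ^ 2 + 2 * ‖C.E‖ * N ^ 4) ^ 2 * ‖u‖ := by
  set L := N ^ 2 + 2 * ‖C.E‖ * N ^ 4
  have hE := norm_nonneg C.E
  have hL : 0 ≤ L := by positivity
  have key : ∀ c f, ‖C.colL2 d c f‖ ≤ L * ‖f‖ ∧ ‖C.rowL2 d c f‖ ≤ L * ‖f‖ := by
    intro c f
    obtain ⟨hμ, hm⟩ := hd.bdd_col c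
    have hK : ∀ i g, ‖C.K (d.G c i) g‖ ≤ ‖C.E‖ * N ^ 2 * ‖g‖ := fun i g =>
      (C.cov_norm_K_le _ g).trans (by gcongr; exact (hd.bdd c i).2.1)
    have hmul : ∀ (g h : C(X, ℝ)) (b : ℝ), ‖g‖ ≤ N → ‖h‖ ≤ b → ‖g * h‖ ≤ N * b :=
      fun g h b hg hh => (norm_mul_le g h).trans (mul_le_mul hg hh (norm_nonneg _) hN)
    rw [colL2_apply, rowL2_apply, Fintype.sum_bool, Fintype.sum_bool]
    constructor
    · refine (norm_sub_le _ _).trans ((add_le_add (hmul _ _ _ hm (hmul _ _ _ hμ le_rfl))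
        ((norm_add_le _ _).trans (add_le_add
          (hmul _ _ _ (hd.bdd c true).1 ((hK true _).trans
            (mul_le_mul_of_nonneg_left (hmul _ _ _ hμ le_rfl) (by positivity))))
          (hmul _ _ _ (hd.bdd c false).1 ((hK false _).trans
            (mul_le_mul_of_nonneg_left (hmul _ _ _ hμ le_rfl) (by positivity))))))).trans
        (le_of_eq ?_))
      ring
    · refine (norm_sub_le _ _).trans ((add_le_add (hmul _ _ _ hμ (hmul _ _ _ hm le_rfl))
        ((norm_add_le _ _).trans (add_le_add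
          (hmul _ _ _ hμ ((hK true _).trans
            (mul_le_mul_of_nonneg_left (hmul _ _ _ (hd.bdd c true).1 le_rfl) (by positivity))))
          (hmul _ _ _ hμ ((hK false _).trans
            (mul_le_mul_of_nonneg_left (hmul _ _ _ (hd.bdd c false).1 le_rfl)
              (by positivity))))))).trans (le_of_eq ?_))
      ring
  refine (pi_norm_le_iff_of_nonneg (by positivity)).2 fun c => ((key c _).2).trans ?_
  have h1 : ‖C.constr2L d u‖ ≤ r * (L * ‖u‖) := by
    simp only [constr2L, LinearMap.coe_sum, Finset.sum_apply, LinearMap.comp_apply,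
      LinearMap.coe_proj, Function.eval]
    refine (norm_sum_le _ _).trans ((Finset.sum_le_sum fun c _ => ((key c _).1).trans
      (mul_le_mul_of_nonneg_left (norm_le_pi_norm u c) hL)).trans (le_of_eq ?_))
    simp
  exact (mul_le_mul_of_nonneg_left h1 hL).trans (le_of_eq (by ring))

/-- The normalised square of the constraint. -/
noncomputable def cov2X (d : StepData2 M X r) (T : ℝ) : Module.End ℝ (Fin r → C(X, ℝ)) :=
  T⁻¹ • (C.adj2L d ∘ₗ C.constr2L d)

/-- The normalised square on the single copy. -/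
noncomputable def cov2X' (d : StepData2 M X r) (T : ℝ) : Module.End ℝ C(X, ℝ) :=
  T⁻¹ • (C.constr2L d ∘ₗ C.adj2L d)

/-- The approximate projection to the kernel. -/
noncomputable def cov2Y (d : StepData2 M X r) (T : ℝ) (n : ℕ) :
    Module.End ℝ (Fin r → C(X, ℝ)) := (1 - C.cov2X d T) ^ n

lemma isPosContr_cov2X (hd : d.Ok N) (hN : 0 ≤ N) (hT0 : 0 < T)
    (hT : 6 * r * (N ^ 4 + N ^ 8) ≤ T) : CovForm.IsPosContr (C.ipV (r := r)) (C.cov2X d T) := by
  have e : ∀ u v, C.ipV u (C.cov2X d T v) = T⁻¹ * C.ig (C.constr2L d u * C.constr2L d v) := by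
    intro u v
    rw [cov2X, LinearMap.smul_apply, map_smul, smul_eq_mul, LinearMap.comp_apply,
      ← C.adjoint_constr2L hd]
  refine ⟨fun u v => ?_, fun v => ?_, fun v => ?_⟩
  · rw [C.isSemi_ipV.symm, e, e, mul_comm (C.constr2L d v)]
  · rw [e]
    exact mul_nonneg (by positivity) (C.cov_ig_nonneg fun y => mul_self_nonneg _)
  · rw [e, inv_mul_le_iff₀ hT0]
    exact (C.constr2L_bound hd hN v).trans (mul_le_mul_of_nonneg_right hT (C.isSemi_ipV.nonneg v))

lemma U_mul_act2 (hd : d.Ok N) (c : Fin r) : d.U * d.act c = d.act c :=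
  U_mul_act (hd.side true) c

lemma constr2L_act (hd : d.Ok N) (u : Fin r → C(X, ℝ)) :
    C.constr2L d (act2V d u) = C.constr2L d u := by
  simp only [constr2L, LinearMap.comp_apply, LinearMap.coe_sum, Finset.sum_apply,
    LinearMap.coe_proj, Function.eval, act2V, blockV_apply, colL2_apply, mulOp_apply]
  exact Finset.sum_congr rfl fun c _ => by rw [← mul_assoc (d.μ c), hd.μ_act]

lemma act_adj2L (hd : d.Ok N) (f : C(X, ℝ)) : act2V d (C.adj2L d f) = C.adj2L d f := by
  funext c
  show d.act c * C.rowL2 d c f = C.rowL2 d c f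
  simp only [rowL2_apply, mul_sub, Finset.mul_sum, ← mul_assoc, mul_comm (d.act c) (d.μ c),
    hd.μ_act]

lemma U_mul_constr2L (hd : d.Ok N) (u : Fin r → C(X, ℝ)) :
    d.U * C.constr2L d u = C.constr2L d u := by
  have hm : ∀ c, d.U * d.m c = d.m c := fun c => U_mul_m (hd.side true) c
  have hn : ∀ c i, d.U * d.n c i = d.n c i := fun c i => U_mul_n (hd.side i) c
  simp only [constr2L, LinearMap.coe_sum, Finset.sum_apply, LinearMap.comp_apply,
    LinearMap.coe_proj, Function.eval, colL2_apply, Finset.mul_sum, mul_sub, ← mul_assoc, hm, hn]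

lemma adj2L_U_mul (hd : d.Ok N) (f : C(X, ℝ)) : C.adj2L d (d.U * f) = C.adj2L d f := by
  have hm : ∀ c, d.m c * d.U = d.m c := fun c => by
    rw [mul_comm]; exact U_mul_m (hd.side true) c
  have hn : ∀ c i, d.n c i * d.U = d.n c i := fun c i => by
    rw [mul_comm]; exact U_mul_n (hd.side i) c
  funext c
  show C.rowL2 d c (d.U * f) = C.rowL2 d c f
  simp only [rowL2_apply, ← mul_assoc (d.m c), hm, ← mul_assoc (d.n c _), hn]

lemma act_cov2X (hd : d.Ok N) :
    act2V d * C.cov2X d T = C.cov2X d T ∧ C.cov2X d T * act2V d = C.cov2X d T :=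
  ⟨LinearMap.ext fun u => by
    simp only [cov2X, Module.End.mul_apply, LinearMap.smul_apply, LinearMap.comp_apply, map_smul,
      C.act_adj2L hd],
  LinearMap.ext fun u => by
    simp only [cov2X, Module.End.mul_apply, LinearMap.smul_apply, LinearMap.comp_apply,
      C.constr2L_act hd]⟩

/-- What is used of the approximate projection. -/
structure ApproxProj (A y : Module.End ℝ (Fin r → C(X, ℝ))) (u : ℝ) : Prop where
  good : C.Good y
  symm : ∀ v w, C.ipV (y v) w = C.ipV v (y w)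
  nrm_le : ∀ v, CovForm.nrm C.ipV (y v) ≤ CovForm.nrm C.ipV v
  comm : Commute A y
  defect : ∀ ε : ℝ, 0 < ε → ∀ᶠ π : DiscreteQuotient X in atBot, C.diagV π (1 - y * y) ≤ u + ε

lemma good_cov2Y : C.Good (C.cov2Y d T n) := by
  refine (C.good_one.sub C (Good.smul C (fun a b => ?_) _)).pow C n
  have e : entry (C.adj2L d ∘ₗ C.constr2L d) a b = C.rowL2 d a * C.colL2 d b :=
    LinearMap.ext fun f => by simp [entry, adj2L, constr2L, Pi.single_apply, apply_ite]
  rw [e]; exact C.alg.mul_mem (C.rowL2_mem a) (C.colL2_mem b)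

/-- The defect of the approximate projection has diagonal at most the integral of `U`. -/
lemma eventually_defect2 (hd : d.Ok N) {ε : ℝ} (hε : 0 < ε) :
    ∀ᶠ π : DiscreteQuotient X in atBot,
      C.diagV π (1 - C.cov2Y d T n * C.cov2Y d T n) ≤ C.ig d.U + ε := by
  set z' := 1 - C.cov2X' d T with hz'
  set S := ∑ i ∈ Finset.range (2 * n), z' ^ i with hS
  set Q := (T⁻¹ • S) ∘ₗ C.constr2L d with hQ
  have inter : ∀ (i : ℕ) f,
      ((1 - C.cov2X d T) ^ i) (C.adj2L d f) = C.adj2L d ((z' ^ i) f) := by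
    intro i
    induction i with
    | zero => intro f; rfl
    | succ i ih =>
      intro f
      rw [pow_succ, pow_succ, Module.End.mul_apply, Module.End.mul_apply,
        show (1 - C.cov2X d T) (C.adj2L d f) = C.adj2L d (z' f) by simp [hz', cov2X, cov2X'], ih]
  have eh : 1 - C.cov2Y d T n * C.cov2Y d T n = C.adj2L d ∘ₗ Q := by
    rw [cov2Y, ← pow_add, ← two_mul, ← geom_sum_mul_neg, sub_sub_cancel]
    refine LinearMap.ext fun u => ?_
    conv_lhs => rw [Module.End.mul_apply, cov2X, LinearMap.smul_apply, LinearMap.comp_apply,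
      map_smul, LinearMap.coe_sum, Finset.sum_apply]
    rw [hQ, LinearMap.comp_apply, LinearMap.comp_apply, LinearMap.smul_apply, map_smul, hS,
      LinearMap.coe_sum, Finset.sum_apply, map_sum]
    congr 1
    exact Finset.sum_congr rfl fun i _ => inter i _
  have hx'mem : C.cov2X' d T ∈ C.alg := by
    have : C.constr2L d ∘ₗ C.adj2L d = ∑ c, C.colL2 d c * C.rowL2 d c :=
      LinearMap.ext fun f => by simp [constr2L, adj2L]
    rw [cov2X', this]
    exact C.alg.smul_mem
      (C.alg.sum_mem fun c _ => C.alg.mul_mem (C.colL2_mem c) (C.rowL2_mem c)) _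
  have hYmem : T⁻¹ • S ∈ C.alg := C.alg.smul_mem (C.alg.sum_mem fun i _ =>
    C.alg.pow_mem (C.alg.sub_mem C.alg.one_mem hx'mem) i) _
  have l4 := (C.tendsto_diagV_rect (C.adj2L d) Q (fun c => by
    simpa [adj2L, LinearMap.proj_pi] using C.rowL2_mem c) (fun c => by
    have : Q ∘ₗ LinearMap.single ℝ (fun _ : Fin r => C(X, ℝ)) c = (T⁻¹ • S) * C.colL2 d c :=
      LinearMap.ext fun f => by simp [hQ, constr2L, Pi.single_apply, apply_ite]
    rw [this]; exact C.alg.mul_mem hYmem (C.colL2_mem c))).eventually (Iio_mem_nhds hε)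
  filter_upwards [l4] with π h4
  have hx's : ∀ f g, C.ig (C.cov2X' d T f * g) = C.ig (f * C.cov2X' d T g) := fun f g => by
    simp only [cov2X', LinearMap.smul_apply, LinearMap.comp_apply, smul_mul_assoc, mul_smul_comm,
      ← igL_apply, map_smul]
    congr 1
    rw [igL_apply, igL_apply, C.adjoint_constr2L hd, mul_comm f (C.constr2L d _),
      C.adjoint_constr2L hd, C.isSemi_ipV.symm]
  have eH2 : Q ∘ₗ C.adj2L d = 1 - z' ^ (2 * n) := by
    rw [← geom_sum_mul_neg z', hz', sub_sub_cancel, hQ]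
    exact LinearMap.ext fun f => by simp [cov2X', hS, hz']
  have e3 : C.diag π (Q ∘ₗ C.adj2L d) ≤ C.ig d.U := by
    have hz's : ∀ f g, C.ig ((z' ^ n) f * g) = C.ig (f * (z' ^ n) g) := fun f g =>
      CovForm.symm_pow (ip := (LinearMap.mul ℝ C(X, ℝ)).compr₂ C.igL) (fun u v => by
        simp [hz']
        rw [← C.igL_apply (u * (v - _)), mul_sub, map_sub, igL_apply, igL_apply, hx's u v]) n f g
    rw [diag_apply]
    have hsum : C.ig d.U = ∑ i : π, C.ig (d.U * cellFn π i) := by
      simp only [← igL_apply, ← map_sum, ← Finset.mul_sum, cov_sum_cellFn, mul_one]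
    rw [hsum]
    refine Finset.sum_le_sum fun i _ => ?_
    set f := cellFn π i
    have k1 : (Q ∘ₗ C.adj2L d) (d.U * f) = (Q ∘ₗ C.adj2L d) f := by
      rw [LinearMap.comp_apply, C.adj2L_U_mul hd]; rfl
    have k2 : d.U * (Q ∘ₗ C.adj2L d) f = (Q ∘ₗ C.adj2L d) f := by
      rw [eH2, ← mul_neg_geom_sum z', hz', sub_sub_cancel, Module.End.mul_apply, cov2X',
        LinearMap.smul_apply, LinearMap.comp_apply, mul_smul_comm, C.U_mul_constr2L hd]
    rw [show f * (Q ∘ₗ C.adj2L d) f = (d.U * f) * (Q ∘ₗ C.adj2L d) (d.U * f) by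
      rw [k1, mul_assoc, mul_left_comm, k2]]
    rw [eH2, LinearMap.sub_apply, Module.End.one_apply, mul_sub, ← igL_apply, map_sub,
      igL_apply, igL_apply, two_mul n, pow_add, Module.End.mul_apply, ← hz's]
    have h0 := C.cov_ig_nonneg (f := (z' ^ n) (d.U * f) * (z' ^ n) (d.U * f))
      fun t => mul_self_nonneg _
    have : d.U * f * (d.U * f) = d.U * f := by
      rw [mul_mul_mul_comm, cov_cellFn_sq]
      congr 1
      ext t; rcases hd.U_01 t with h | h <;> simp [h]
    rw [this]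
    linarith
  rw [eh]
  linarith

lemma approxProj_cov2Y (hd : d.Ok N) (hN : 0 ≤ N) (hT0 : 0 < T)
    (hT : 6 * r * (N ^ 4 + N ^ 8) ≤ T) :
    C.ApproxProj (act2V d) (C.cov2Y d T n) (C.ig d.U) where
  good := C.good_cov2Y
  symm := CovForm.symm_pow (C.isPosContr_cov2X hd hN hT0 hT).compl.symm n
  nrm_le := (C.isPosContr_cov2X hd hN hT0 hT).compl.nrm_pow_le C.isSemi_ipV n
  comm := ((Commute.one_right _).sub_right (by
    show act2V d * C.cov2X d T = C.cov2X d T * act2V d
    rw [(C.act_cov2X hd).1, (C.act_cov2X hd).2])).pow_right n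
  defect _ hε := C.eventually_defect2 hd hε

/-- The residual of the constraint. -/
lemma residual2_le (hd : d.Ok N) (hN : 0 ≤ N) (hT0 : 0 < T) (hT : 6 * r * (N ^ 4 + N ^ 8) ≤ T)
    (π : DiscreteQuotient X) :
    ∑ c, ∑ i : π, C.ig (C.constr2 d ((C.cov2Y d T n * act2V d) (unitVec π c i)) ^ 2) ≤
      T / (n + 1) * r := by
  rw [← C.diagV_one (r := r) π, diagV_eq, Finset.mul_sum]
  refine Finset.sum_le_sum fun c _ => ?_
  rw [Finset.mul_sum]
  refine Finset.sum_le_sum fun i _ => ?_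
  set v := act2V d (unitVec π c i) with hv
  have h5 := (C.isPosContr_cov2X hd hN hT0 hT).small C.isSemi_ipV n v
  rw [cov2X, LinearMap.smul_apply, map_smul, smul_eq_mul, LinearMap.comp_apply,
    ← C.adjoint_constr2L hd] at h5
  have h6 : C.ipV v v ≤ C.ipV (Pi.single c (cellFn π i)) (Pi.single c (cellFn π i)) := by
    simp only [hv, ← unitVec_eq, ipV_apply, act2V, blockV_apply, mulOp_apply]
    refine Finset.sum_le_sum fun b _ => C.cov_ig_mono fun t => ?_
    simp only [ContinuousMap.mul_apply]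
    rcases hd.act_01 b t with h | h
    · rw [h, zero_mul, zero_mul]; exact mul_self_nonneg _
    · rw [h, one_mul]
  rw [sq, ← constr2L_apply, Module.End.one_apply,
    show (C.cov2Y d T n * act2V d) (unitVec π c i) = C.cov2Y d T n v from rfl]
  rw [div_mul_eq_mul_div, le_div_iff₀ (by positivity)]
  have h7 := mul_le_mul_of_nonneg_left (h5.trans h6) hT0.le
  rw [← mul_assoc T, mul_comm T ((n : ℝ) + 1), mul_assoc, ← mul_assoc T,
    mul_inv_cancel₀ hT0.ne', one_mul, mul_comm ((n : ℝ) + 1)] at h7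
  exact h7

/-- The supremum norm of the projection. -/
lemma cov2Y_act_norm (hd : d.Ok N) (hN : 0 ≤ N) (hT0 : 0 < T) (u : Fin r → C(X, ℝ)) :
    ‖(C.cov2Y d T n * act2V d) u‖ ≤
      (1 + T⁻¹ * (r * (N ^ 2 + 2 * ‖C.E‖ * N ^ 4) ^ 2)) ^ n * ‖u‖ := by
  set cS := T⁻¹ * (r * (N ^ 2 + 2 * ‖C.E‖ * N ^ 4) ^ 2) with hcS
  have hcS0 : 0 ≤ cS := by positivity
  have hx1 : ∀ v, ‖(1 - C.cov2X d T) v‖ ≤ (1 + cS) * ‖v‖ := fun v => by
    refine (norm_sub_le v (C.cov2X d T v)).trans ?_
    rw [cov2X, LinearMap.smul_apply, norm_smul, Real.norm_of_nonneg (by positivity), add_mul,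
      one_mul, hcS, mul_assoc]
    exact add_le_add le_rfl (mul_le_mul_of_nonneg_left (C.adj2L_constr2L_norm hd hN v)
      (by positivity))
  have hA1 : ‖act2V d u‖ ≤ ‖u‖ := (pi_norm_le_iff_of_nonneg (norm_nonneg u)).2 fun c => by
    refine ((norm_mul_le _ _).trans (mul_le_of_le_one_left (norm_nonneg _) ?_)).trans
      (norm_le_pi_norm u c)
    refine (ContinuousMap.norm_le _ zero_le_one).2 fun t => ?_
    rcases hd.act_01 c t with h | h <;> simp [h]
  have hy1 : ∀ (j : ℕ) v, ‖((1 - C.cov2X d T) ^ j) v‖ ≤ (1 + cS) ^ j * ‖v‖ := by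
    intro j
    induction j with
    | zero => simp
    | succ j ih =>
      intro v
      rw [pow_succ', Module.End.mul_apply, pow_succ', mul_assoc]
      exact (hx1 _).trans (mul_le_mul_of_nonneg_left (ih v) (by positivity))
  exact (hy1 n (act2V d u)).trans (mul_le_mul_of_nonneg_left hA1 (by positivity))

section Proj

variable {A y : Module.End ℝ (Fin r → C(X, ℝ))} {U : ℝ}

lemma ApproxProj.posContr (hy : C.ApproxProj A y U) :
    CovForm.IsPosContr (C.ipV (r := r)) (1 - y * y) := by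
  refine CovForm.IsPosContr.compl ⟨fun u v => ?_, fun v => ?_, fun v => ?_⟩
  · simp only [Module.End.mul_apply]; rw [hy.symm, hy.symm]
  · simp only [Module.End.mul_apply]; rw [← hy.symm]; exact C.isSemi_ipV.nonneg _
  · simp only [Module.End.mul_apply]; rw [← hy.symm]
    exact (Real.sqrt_le_sqrt_iff (C.isSemi_ipV.nonneg _)).1 (hy.nrm_le v)

/-- Sums over the projected unit vectors are diagonals. -/
lemma proj_sum_eq (hd : d.Ok N) (hy : C.ApproxProj (act2V d) y U) (π : DiscreteQuotient X)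
    {Q : Module.End ℝ (Fin r → C(X, ℝ))} (hQ : act2V d * Q * act2V d = Q) :
    ∑ c, ∑ i : π, C.ipV ((y * act2V d) (unitVec π c i)) (Q ((y * act2V d) (unitVec π c i)))
      = C.diagV π (y * Q * y) := by
  set A := act2V d with hA
  have e : A * (y * Q * y) * A = y * Q * y := by
    calc A * (y * Q * y) * A = (A * y) * Q * (y * A) := by simp only [mul_assoc]
      _ = (y * A) * Q * (A * y) := by rw [hy.comm.eq]
      _ = y * ((A * Q * A) * y) := by simp only [mul_assoc]
      _ = _ := by rw [hQ, mul_assoc]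
  rw [← e, diagV_eq]
  refine Finset.sum_congr rfl fun c _ => Finset.sum_congr rfl fun i _ => ?_
  simp only [unitVec_eq, Module.End.mul_apply]
  rw [hy.symm]
  simp only [ipV_apply, hA, act2V, blockV_apply, mulOp_apply]
  exact Finset.sum_congr rfl fun b _ => by congr 1; ring

lemma eventually_loss2 (hd : d.Ok N) (hN : 0 ≤ N) (hy : C.ApproxProj (act2V d) y U) (s : Bool)
    {ε : ℝ} (hε : 0 < ε) : ∀ᶠ π : DiscreteQuotient X in atBot,
      ∑ c, ∑ i : π, ∑ c', C.lossB2 d c' s ((y * act2V d) (unitVec π c i) c') ≤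
        (∑ c, C.ig (d.μ c ^ 2 * d.act c * C.Er (d.G c s) * C.Er (d.W c s))) + ε := by
  have hs := hd.side s
  set B := C.lossV (d.side s)
  obtain ⟨k, hk⟩ := CovForm.exists_small_step (δ := ε / (24 * (N ^ 4 * r + 1))) (by positivity)
  set Rt := 1 - CovForm.rootSeq (y * y) k with hRt
  set D := CovForm.rootSeq (y * y) (k + 1) - CovForm.rootSeq (y * y) k with hD
  have gy : C.Good y := hy.good
  have gR : C.Good Rt := C.good_one.sub C (C.good_rootSeq (gy.mul C gy) k)
  have l1 := (C.tendsto_diagV_lossV hs).eventually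
    (Iio_mem_nhds (lt_add_of_pos_right _ (show 0 < ε / 4 by positivity)))
  have l2 := (C.tendsto_diagV_comm gy (C.good_lossV (d := d.side s) |>.mul C gy)).eventually
    (Iio_mem_nhds (show 0 < ε / 4 by positivity))
  have l3 := (C.tendsto_diagV_comm gR (C.good_lossV (d := d.side s) |>.mul C gR)).eventually
    (Iio_mem_nhds (show 0 < ε / 4 by positivity))
  filter_upwards [l1, l2, l3] with π h1 h2 h3
  have hyy : ∀ u v, C.ipV ((y * y) u) v = C.ipV u ((y * y) v) := fun u v => by
    simp only [Module.End.mul_apply]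
    rw [hy.symm, hy.symm]
  have nrmy : ∀ v, CovForm.nrm C.ipV ((y * y) v) ≤ CovForm.nrm C.ipV v := fun v => by
    rw [Module.End.mul_apply]; exact (hy.nrm_le _).trans (hy.nrm_le _)
  have hABA : act2V d * B * act2V d = B := by
    rw [show act2V d = actV (d.side s) from rfl, C.act_lossV hs, C.lossV_act hs]
  have e1 : ∑ c, ∑ i : π, ∑ c', C.lossB2 d c' s ((y * act2V d) (unitVec π c i) c') =
      C.diagV π (y * (B * y)) := by
    rw [← mul_assoc, ← C.proj_sum_eq hd hy π hABA]
    simp only [B, C.ipV_lossV hs]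
    rfl
  have e2 : C.diagV π (B * y * y) = C.diagV π B - C.diagV π (B * Rt * Rt) +
      2 * C.diagV π (B * D) := by
    have : B * y * y = B - B * Rt * Rt + (2 : ℝ) • (B * D) := by
      rw [mul_assoc B Rt Rt, hRt, CovForm.rootSeq_square, mul_add, mul_smul_comm, mul_sub,
        mul_one, mul_assoc]
      simp only [hD]
      abel
    rw [this, map_add, map_sub, map_smul, smul_eq_mul]
  have e3 : 0 ≤ C.diagV π (Rt * (B * Rt)) := by
    rw [diagV_eq]
    refine Finset.sum_nonneg fun a _ => Finset.sum_nonneg fun i _ => ?_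
    have hRs : ∀ u v, C.ipV (Rt u) v = C.ipV u (Rt v) := fun u v => by
      have := CovForm.rootSeq_symm hyy k u v
      simp only [hRt, LinearMap.sub_apply, Module.End.one_apply, map_sub, this]
    rw [Module.End.mul_apply, Module.End.mul_apply, ← hRs, C.ipV_lossV hs]
    exact Finset.sum_nonneg fun c _ => C.lossB_nonneg hs c _
  set δ := ε / (24 * (N ^ 4 * r + 1)) with hδ
  have e4 : C.diagV π (B * D) ≤ 2 * N ^ 4 * δ * r := by
    rw [← C.diagV_one (r := r) π, diagV_eq, diagV_eq, Finset.mul_sum]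
    refine Finset.sum_le_sum fun a _ => ?_
    rw [Finset.mul_sum]
    refine Finset.sum_le_sum fun i _ => ?_
    set v := (Pi.single a (cellFn π i) : Fin r → C(X, ℝ))
    rw [Module.End.mul_apply, ← C.lossV_symm hs, Module.End.one_apply,
      ← CovForm.nrm_sq C.isSemi_ipV v]
    refine ((le_abs_self _).trans (CovForm.abs_le_nrm C.isSemi_ipV _ _)).trans ?_
    refine (mul_le_mul (C.lossV_bound hs hN v) ((CovForm.nrm_step_le C.isSemi_ipV nrmy k v).trans
      (mul_le_mul_of_nonneg_right hk.le (CovForm.nrm_nonneg v))) (CovForm.nrm_nonneg _)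
      (mul_nonneg (by positivity) (CovForm.nrm_nonneg v))).trans (le_of_eq ?_)
    ring
  have e5 : 2 * N ^ 4 * δ * r ≤ ε / 12 := by
    rw [hδ, ← mul_div_assoc, div_mul_eq_mul_div, div_le_iff₀ (by positivity)]
    nlinarith
  rw [e1]
  change C.diagV π B < (∑ c, C.ig (d.μ c ^ 2 * d.act c * C.Er (d.G c s) * C.Er (d.W c s)))
    + ε / 4 at h1
  linarith

/-- The weight operators and their basic properties. -/
lemma act_mass_act (hd : d.Ok N) (w : Fin r → C(X, ℝ)) :
    act2V d * (blockV fun c => mulOp (w c * d.act c)) * act2V d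
      = blockV fun c => mulOp (w c * d.act c) :=
  LinearMap.ext fun u => funext fun c => by
    simp only [act2V, Module.End.mul_apply, blockV_apply, mulOp_apply]
    rw [show d.act c * (w c * d.act c * (d.act c * u c))
      = w c * (d.act c * d.act c * d.act c) * u c by ring,
      show d.act c * d.act c = d.act c from act_sq (hd.side true) c,
      show d.act c * d.act c = d.act c from act_sq (hd.side true) c]

lemma mass_sum_eq (hd : d.Ok N) (hy : C.ApproxProj (act2V d) y U) (w : Fin r → C(X, ℝ))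
    (π : DiscreteQuotient X) :
    ∑ c, ∑ i : π, ∑ c', C.ig (w c' * (y * act2V d) (unitVec π c i) c' ^ 2)
      = C.diagV π (y * (blockV fun c => mulOp (w c * d.act c)) * y) := by
  rw [← C.proj_sum_eq hd hy π (act_mass_act hd w)]
  simp only [ipV_apply, blockV_apply, mulOp_apply]
  refine Finset.sum_congr rfl fun c _ => Finset.sum_congr rfl fun i _ =>
    Finset.sum_congr rfl fun c' _ => ?_
  congr 1
  have e : d.act c' * (y * act2V d) (unitVec π c i) c' = (y * act2V d) (unitVec π c i) c' := by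
    have h1 : act2V d * (y * act2V d) = y * act2V d := by
      rw [← mul_assoc, hy.comm.eq, mul_assoc,
        show act2V d * act2V d = act2V d from actV_sq (hd.side true)]
    exact congrFun (LinearMap.congr_fun h1 _) c'
  linear_combination (w c' * -(y * act2V d) (unitVec π c i) c') * e

lemma diag_conj_nonneg (hy : C.ApproxProj A y U) (π : DiscreteQuotient X) (s : Fin r → C(X, ℝ)) :
    0 ≤ C.diagV π ((blockV fun c => mulOp (s c)) * (1 - y * y) * blockV fun c => mulOp (s c)) := by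
  set S := blockV fun c => mulOp (s c) with hS
  rw [diagV_eq]
  refine Finset.sum_nonneg fun a _ => Finset.sum_nonneg fun i _ => ?_
  set v := (Pi.single a (cellFn π i) : Fin r → C(X, ℝ))
  have hsym : C.ipV v (S ((1 - y * y) (S v))) = C.ipV (S v) ((1 - y * y) (S v)) := by
    simp only [ipV_apply, hS, blockV_apply, mulOp_apply]
    exact Finset.sum_congr rfl fun c _ => by congr 1; ring
  rw [Module.End.mul_apply, Module.End.mul_apply, hsym]
  exact (ApproxProj.posContr C hy).nonneg _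

lemma eventually_mass2 (hd : d.Ok N) (hy : C.ApproxProj (act2V d) y U) (w : Fin r → C(X, ℝ))
    (hw : ∀ c x, 0 ≤ w c x ∧ w c x ≤ 1) {ε : ℝ} (hε : 0 < ε) :
    ∀ᶠ π : DiscreteQuotient X in atBot, (∑ c, C.ig (w c * d.act c)) - U - ε ≤
      ∑ c, ∑ i : π, ∑ c', C.ig (w c' * (y * act2V d) (unitVec π c i) c' ^ 2) := by
  set B := blockV fun c => mulOp (w c * d.act c) with hB
  set s : Fin r → C(X, ℝ) := fun c =>
    ⟨fun x => √(1 - w c x * d.act c x), by fun_prop⟩ with hs
  set S := blockV fun c => mulOp (s c) with hS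
  have hss : S * S = (1 : Module.End ℝ (Fin r → C(X, ℝ))) - B := by
    refine LinearMap.ext fun u => funext fun c => ?_
    ext x
    have h1 : 0 ≤ 1 - w c x * d.act c x := by
      rcases hd.act_01 c x with h' | h' <;> rw [h'] <;> linarith [(hw c x).1, (hw c x).2]
    simp only [hS, hB, hs, Module.End.mul_apply, blockV_apply, mulOp_apply, LinearMap.sub_apply,
      Module.End.one_apply, Pi.sub_apply, ContinuousMap.mul_apply, ContinuousMap.sub_apply,
      ContinuousMap.coe_mk]
    rw [← mul_assoc, Real.mul_self_sqrt h1]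
    ring
  have gB : C.Good B := C.good_blockV fun c => C.mulOp_mem_alg _
  have gS : C.Good S := C.good_blockV fun c => C.mulOp_mem_alg _
  have gh : C.Good (1 - y * y) := C.good_one.sub C (hy.good.mul C hy.good)
  have l1 := (C.tendsto_diagV_comm hy.good (gB.mul C hy.good)).eventually
    (Ioi_mem_nhds (show -(ε / 4) < 0 by linarith))
  have l2 := (C.tendsto_diagV_comm gS (gS.mul C gh)).eventually
    (Ioi_mem_nhds (show -(ε / 4) < 0 by linarith))
  filter_upwards [l1, l2, hy.defect (ε / 4) (by linarith)] with π h1 h2 h3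
  have e1 := C.mass_sum_eq hd hy w π
  rw [← hB, mul_assoc y B y] at e1
  have e2 : B * y * y = B - (1 - y * y) + S * S * (1 - y * y) := by
    rw [hss, sub_mul, one_mul, mul_sub, mul_one, mul_assoc]
    abel
  have e2' := congrArg (C.diagV π) e2
  rw [map_add, map_sub (C.diagV π) B] at e2'
  have e3 := C.diag_conj_nonneg hy π s
  rw [← hS] at e3
  have e4 : C.diagV π B = ∑ c, C.ig (w c * d.act c) := by
    rw [hB, diagV_blockV]; simp only [diag_mulOp]
  rw [← mul_assoc S S (1 - y * y)] at h2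
  linarith

lemma eventually_mass2_le (hd : d.Ok N) (hy : C.ApproxProj (act2V d) y U) (w : Fin r → C(X, ℝ))
    (hw : ∀ c x, 0 ≤ w c x) {ε : ℝ} (hε : 0 < ε) :
    ∀ᶠ π : DiscreteQuotient X in atBot,
      ∑ c, ∑ i : π, ∑ c', C.ig (w c' * (y * act2V d) (unitVec π c i) c' ^ 2)
        ≤ (∑ c, C.ig (w c * d.act c)) + ε := by
  set B := blockV fun c => mulOp (w c * d.act c) with hB
  set s : Fin r → C(X, ℝ) := fun c =>
    ⟨fun x => √(w c x * d.act c x), by fun_prop⟩ with hs
  set S := blockV fun c => mulOp (s c) with hS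
  have hss : S * S = B := by
    refine LinearMap.ext fun u => funext fun c => ?_
    ext x
    have h1 : 0 ≤ w c x * d.act c x := by
      rcases hd.act_01 c x with h' | h' <;> rw [h'] <;> linarith [hw c x]
    simp only [hS, hB, hs, Module.End.mul_apply, blockV_apply, mulOp_apply,
      ContinuousMap.mul_apply, ContinuousMap.coe_mk]
    rw [← mul_assoc, Real.mul_self_sqrt h1]
  have gB : C.Good B := C.good_blockV fun c => C.mulOp_mem_alg _
  have gS : C.Good S := C.good_blockV fun c => C.mulOp_mem_alg _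
  have gh : C.Good (1 - y * y) := C.good_one.sub C (hy.good.mul C hy.good)
  have l1 := (C.tendsto_diagV_comm hy.good (gB.mul C hy.good)).eventually
    (Iio_mem_nhds (show 0 < ε / 4 by linarith))
  have l2 := (C.tendsto_diagV_comm gS (gS.mul C gh)).eventually
    (Ioi_mem_nhds (show -(ε / 4) < 0 by linarith))
  filter_upwards [l1, l2] with π h1 h2
  have e1 := C.mass_sum_eq hd hy w π
  rw [← hB, mul_assoc y B y] at e1
  have e2 : B * y * y = B - S * S * (1 - y * y) := by
    rw [hss, mul_sub, mul_one, mul_assoc]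
    abel
  have e2' := congrArg (C.diagV π) e2
  rw [map_sub (C.diagV π) B] at e2'
  have e3 := C.diag_conj_nonneg hy π s
  rw [← hS] at e3
  have e4 : C.diagV π B = ∑ c, C.ig (w c * d.act c) := by
    rw [hB, diagV_blockV]; simp only [diag_mulOp]
  rw [← mul_assoc S S (1 - y * y)] at h2
  linarith

/-- The map off the subalgebra as an operator. -/
noncomputable def KzOp (G : M) : Module.End ℝ C(X, ℝ) := C.Kop G - mulOp (C.Er G ^ 2)

lemma eventually_cross2 (hd : d.Ok N) (hy : C.ApproxProj (act2V d) y U) {ω : ℝ} (hω : 0 < ω)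
    (q : Fin r → C(X, ℝ)) (hq : ∀ c, q c * d.act c = q c) (s : Bool) {ε : ℝ} (hε : 0 < ε) :
    ∀ᶠ π : DiscreteQuotient X in atBot,
      (∑ c, ∑ i : π, ∑ c', C.ig (q c' * (y * act2V d) (unitVec π c i) c'
          * C.Kz (d.G c' s) (d.μ c' * (y * act2V d) (unitVec π c i) c')))
        ≤ ω * U + 1 / (4 * ω) * (∑ c, ∑ i : π, C.ig (q c ^ 2
            * C.Kz (d.G c s) (d.μ c * cellFn π i) ^ 2)) + ε := by
  set A := act2V d with hA
  set h := 1 - y * y with hh
  set B := blockV fun c => mulOp (q c) * C.KzOp (d.G c s) * mulOp (d.μ c) with hB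
  have hKz : ∀ c f, C.KzOp (d.G c s) f = C.Kz (d.G c s) f := fun c f => by
    simp [KzOp, Kz]
  have hABA : A * B * A = B := by
    refine LinearMap.ext fun u => funext fun c => ?_
    simp only [hA, hB, act2V, Module.End.mul_apply, blockV_apply, mulOp_apply]
    rw [show d.μ c * (d.act c * u c) = d.μ c * u c by rw [← mul_assoc, hd.μ_act], ← mul_assoc,
      mul_comm (d.act c), hq]
  have gy : C.Good y := hy.good
  have gB : C.Good B := C.good_blockV fun c =>
    C.alg.mul_mem (C.alg.mul_mem (C.mulOp_mem_alg _)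
      (C.alg.sub_mem (C.Kop_mem_alg _) (C.mulOp_mem_alg _))) (C.mulOp_mem_alg _)
  have hlim : ∀ c, Tendsto (fun π => C.diag π (mulOp (q c) * C.KzOp (d.G c s) * mulOp (d.μ c)))
      atBot (𝓝 0) := fun c => by
    have h1 := (C.tendsto_diag_cross (q c) (d.μ c) (hd.G_nonneg c s)).sub_const
      (C.ig (q c * d.μ c * C.Er (d.G c s) ^ 2))
    rw [sub_self] at h1
    refine h1.congr fun π => ?_
    rw [KzOp, mul_sub, sub_mul, map_sub,
      show (mulOp (q c) * mulOp (C.Er (d.G c s) ^ 2) * mulOp (d.μ c) : Module.End ℝ C(X, ℝ))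
        = mulOp (q c * d.μ c * C.Er (d.G c s) ^ 2) from LinearMap.ext fun f => by
          simp only [Module.End.mul_apply, mulOp_apply]; ring,
      diag_mulOp]
  have l1 := (C.tendsto_diagV_comm (gy.mul C gB) gy).eventually
    (Iio_mem_nhds (show 0 < ε / 4 by positivity))
  have l2 := (tendsto_finsetSum (Finset.univ : Finset (Fin r)) fun c _ => hlim c).eventually
    (Iio_mem_nhds (lt_add_of_pos_right _ (show 0 < ε / 4 by positivity)))
  filter_upwards [l1, l2, hy.defect (ε / (4 * (ω + 1))) (by positivity)] with π h1 h2 h3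
  simp only [Finset.sum_const_zero, zero_add] at h2
  have e1 : ∑ c, ∑ i : π, ∑ c', C.ig (q c' * (y * A) (unitVec π c i) c'
      * C.Kz (d.G c' s) (d.μ c' * (y * A) (unitVec π c i) c')) = C.diagV π (y * B * y) := by
    rw [← C.proj_sum_eq hd hy π hABA]
    simp only [ipV_apply, hA, hB, blockV_apply, Module.End.mul_apply, mulOp_apply, hKz]
    refine Finset.sum_congr rfl fun c _ => Finset.sum_congr rfl fun i _ =>
      Finset.sum_congr rfl fun c' _ => ?_
    congr 1; ring
  have e2 : y * (y * B) = B - h * B := by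
    rw [← mul_assoc, show y * y = 1 - h by rw [hh, sub_sub_cancel], sub_mul, one_mul]
  have e3 : C.diagV π B = ∑ c, C.diag π (mulOp (q c) * C.KzOp (d.G c s) * mulOp (d.μ c)) := by
    rw [hB, diagV_blockV]
  have e4 : -C.diagV π (h * B) ≤ ω * C.diagV π h + 1 / (4 * ω) * (∑ c, ∑ i : π, C.ig (q c ^ 2
      * C.Kz (d.G c s) (d.μ c * cellFn π i) ^ 2)) := by
    rw [diagV_eq, diagV_eq, Finset.mul_sum, Finset.mul_sum, ← Finset.sum_neg_distrib,
      ← Finset.sum_add_distrib]
    refine Finset.sum_le_sum fun a _ => ?_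
    rw [Finset.mul_sum, Finset.mul_sum, ← Finset.sum_neg_distrib, ← Finset.sum_add_distrib]
    refine Finset.sum_le_sum fun i _ => ?_
    set v := (Pi.single a (cellFn π i) : Fin r → C(X, ℝ)) with hv
    have hc := ApproxProj.posContr C hy
    rw [← hh] at hc
    have k1 : C.ipV (B v) (B v) = C.ig (q a ^ 2
        * C.Kz (d.G a s) (d.μ a * cellFn π i) ^ 2) := by
      rw [ipV_apply, Finset.sum_eq_single a]
      · simp only [hB, hv, blockV_apply, Pi.single_eq_same, Module.End.mul_apply, mulOp_apply,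
          hKz]
        congr 1; ring
      · intro b _ hb
        simp only [hB, hv, blockV_apply, Pi.single_eq_of_ne hb, map_zero, mul_zero, C.ig_zero]
      · simp
    rw [Module.End.mul_apply, ← hc.symm, ← k1]
    have k2 := hc.sq_le C.isSemi_ipV v
    have k3 := C.isSemi_ipV.nonneg ((2 * ω) • h v + B v)
    simp only [map_add, map_smul, LinearMap.add_apply, LinearMap.smul_apply, smul_eq_mul,
      C.isSemi_ipV.symm (B v) (h v)] at k3
    have k4 : -C.ipV (h v) (B v) ≤
        ω * C.ipV (h v) (h v) + 1 / (4 * ω) * C.ipV (B v) (B v) := by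
      rw [div_mul_eq_mul_div, one_mul, ← sub_nonneg]
      have : ω * C.ipV (h v) (h v) + C.ipV (B v) (B v) / (4 * ω) - -C.ipV (h v) (B v) =
          (2 * ω * (2 * ω * C.ipV (h v) (h v) + C.ipV (h v) (B v))
            + (2 * ω * C.ipV (h v) (B v) + C.ipV (B v) (B v))) / (4 * ω) := by
        field_simp; ring
      rw [this]; positivity
    have k5 := mul_le_mul_of_nonneg_left k2 hω.le
    linarith
  have e5 : ω * (ε / (4 * (ω + 1))) ≤ ε / 4 := by
    rw [mul_div_assoc', div_le_div_iff₀ (by positivity) (by norm_num)]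
    nlinarith
  have e6 := mul_le_mul_of_nonneg_left h3 hω.le
  rw [mul_add] at e6
  rw [e2, map_sub, e3] at h1
  rw [e1]
  linarith

end Proj

end Two

theorem exists_cov2 (r : ℕ) (ε N ω : ℝ) (hε : 0 < ε) (hω : 0 < ω) :
    ∃ Cst : ℝ, 0 ≤ Cst ∧ ∀ (d : StepData2 M X r), d.Ok N →
      ∀ (w w' : Fin r → C(X, ℝ)) (q : Fin r → Bool → C(X, ℝ)),
        (∀ c x, 0 ≤ w c x ∧ w c x ≤ 1) → (∀ c x, 0 ≤ w' c x) →
        (∀ c i, ‖q c i‖ ≤ N) → (∀ c i, q c i * d.act c = q c i) →
      ∃ P : (Fin r → C(X, ℝ)) →ₗ[ℝ] (Fin r → C(X, ℝ)),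
        (∀ u c, d.act c * P u c = P u c) ∧
        (∀ u, ‖P u‖ ≤ Cst * ‖u‖) ∧
        ∃ π₀ : DiscreteQuotient X, ∀ π ≤ π₀,
          (∑ c, ∑ j : π, ∑ c', ∑ i, C.lossB2 d c' i (P (unitVec π c j) c'))
              ≤ (∑ c, ∑ i, C.ig (d.μ c ^ 2 * d.act c * C.Er (d.G c i) * C.Er (d.W c i))) + ε ∧
          (∑ c, C.ig (w c * d.act c)) - C.ig d.U - ε
              ≤ (∑ c, ∑ j : π, ∑ c', C.ig (w c' * P (unitVec π c j) c' ^ 2)) ∧
          (∑ c, ∑ j : π, ∑ c', C.ig (w' c' * P (unitVec π c j) c' ^ 2))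
              ≤ (∑ c, C.ig (w' c * d.act c)) + ε ∧
          (∑ c, ∑ j : π, ∑ c', ∑ i, C.ig (q c' i * P (unitVec π c j) c'
              * C.Kz (d.G c' i) (d.μ c' * P (unitVec π c j) c')))
              ≤ 2 * ω * C.ig d.U + 1 / (4 * ω) * (∑ c, ∑ i, ∑ j : π, C.ig (q c i ^ 2
                  * C.Kz (d.G c i) (d.μ c * cellFn π j) ^ 2)) + ε ∧
          (∑ c, ∑ j : π, C.ig (C.constr2 d (P (unitVec π c j)) ^ 2)) ≤ ε := by
  set M₀ := max N 0
  have hM₀ : 0 ≤ M₀ := le_max_right _ _
  set T : ℝ := 6 * r * (M₀ ^ 4 + M₀ ^ 8) + 1 with hT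
  have hT0 : 0 < T := by positivity
  have hT1 : 6 * r * (M₀ ^ 4 + M₀ ^ 8) ≤ T := by linarith
  obtain ⟨n, hn⟩ := exists_nat_gt (T * r / ε)
  rw [div_lt_iff₀ hε] at hn
  refine ⟨(1 + T⁻¹ * (r * (M₀ ^ 2 + 2 * ‖C.E‖ * M₀ ^ 4) ^ 2)) ^ n, by positivity,
    fun d hd₀ w w' q hw hw' _ hq => ?_⟩
  have hd : d.Ok M₀ := { hd₀ with
    bdd_col := fun c => ⟨(hd₀.bdd_col c).1.trans (le_max_left _ _),
      (hd₀.bdd_col c).2.trans (le_max_left _ _)⟩
    bdd := fun c i => ⟨(hd₀.bdd c i).1.trans (le_max_left _ _),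
      (hd₀.bdd c i).2.1.trans (le_max_left _ _), (hd₀.bdd c i).2.2.trans (le_max_left _ _)⟩ }
  have hy := C.approxProj_cov2Y (n := n) hd hM₀ hT0 hT1
  have hε2 : 0 < ε / 2 := by positivity
  obtain ⟨π₀, hπ₀⟩ := eventually_atBot.1
    ((((C.eventually_loss2 hd hM₀ hy true hε2).and (C.eventually_loss2 hd hM₀ hy false hε2)).and
      ((C.eventually_mass2 hd hy w hw hε).and (C.eventually_mass2_le hd hy w' hw' hε))).and
      ((C.eventually_cross2 hd hy hω (fun c => q c true) (fun c => hq c true) true hε2).and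
        (C.eventually_cross2 hd hy hω (fun c => q c false) (fun c => hq c false) false hε2)))
  refine ⟨C.cov2Y d T n * act2V d, fun u c => ?_, C.cov2Y_act_norm hd hM₀ hT0, π₀,
    fun π hπ => ?_⟩
  · have e : act2V d * (C.cov2Y d T n * act2V d) = C.cov2Y d T n * act2V d := by
      rw [← mul_assoc, hy.comm.eq, mul_assoc,
        show act2V d * act2V d = act2V d from actV_sq (hd.side true)]
    exact congrFun (LinearMap.congr_fun e u) c
  obtain ⟨⟨⟨h1, h1'⟩, h2, h3⟩, h4, h4'⟩ := hπ₀ π hπ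
  refine ⟨?_, h2, h3, ?_, (C.residual2_le hd hM₀ hT0 hT1 π).trans ?_⟩
  · simp only [Fintype.sum_bool, Finset.sum_add_distrib]
    linarith
  · simp only [Fintype.sum_bool, Finset.sum_add_distrib, mul_add]
    linarith
  · rw [div_mul_eq_mul_div, div_le_iff₀ (by positivity)]
    nlinarith


end Vale.Agent.P078.Tracial.Core
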