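import Vale.Agent.P078.Tracial.Two.Profile

/-! The scalar inequalities at a point with small excess. -/

namespace Vale.Agent.P078.Tracial.Two

/-- An active point in the window with small excesses `Pa`, `Pb`. -/
structure GoodPt (κ w a b Pa Pb : ℝ) : Prop where
  κ_pos : 0 < κ
  κ_le : 10000 * κ ≤ 1 / 100
  w_pos : 0 < w
  w_le : w ≤ 1 - 10000 * κ
  a_pos : 0 < a
  b_pos : 0 < b
  Pa_nonneg : 0 ≤ Pa
  Pb_nonneg : 0 ≤ Pb
  sum_le : Pa + Pb ≤ κ / 10
  a_low : 1 ≤ a * (xi κ w + Pa)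
  b_low : 1 ≤ b * (xi κ w + Pb)
  T_pos : 0 < TF κ (gam2 a b) w

namespace GoodPt

variable {κ w a b Pa Pb : ℝ}

theorem swap (h : GoodPt κ w a b Pa Pb) : GoodPt κ w b a Pb Pa where
  κ_pos := h.κ_pos
  κ_le := h.κ_le
  w_pos := h.w_pos
  w_le := h.w_le
  a_pos := h.b_pos
  b_pos := h.a_pos
  Pa_nonneg := h.Pb_nonneg
  Pb_nonneg := h.Pa_nonneg
  sum_le := by linarith [h.sum_le]
  a_low := h.b_low
  b_low := h.a_low
  T_pos := by
    have e : gam2 b a = gam2 a b := by unfold gam2; ring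
    rw [e]
    exact h.T_pos

private theorem xi_eq (h : GoodPt κ w a b Pa Pb) : xi κ w = 1 - w :=
  max_eq_left (by linarith [h.w_le])

private theorem xpos (h : GoodPt κ w a b Pa Pb) : 0 < xi κ w := by
  rw [h.xi_eq]; linarith [h.w_le, h.κ_pos]

private theorem xi_le_one (h : GoodPt κ w a b Pa Pb) : xi κ w ≤ 1 := by
  rw [h.xi_eq]; linarith [h.w_pos]

private theorem uF_pos (h : GoodPt κ w a b Pa Pb) : 0 < uF κ w := div_pos h.κ_pos h.xpos

private theorem uF_mul (h : GoodPt κ w a b Pa Pb) : uF κ w * xi κ w = κ :=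
  div_mul_cancel₀ _ h.xpos.ne'

private theorem uF_le (h : GoodPt κ w a b Pa Pb) : uF κ w ≤ 1 / 10000 := by
  unfold uF
  rw [div_le_iff₀ h.xpos, h.xi_eq]
  linarith [h.w_le]

private theorem kappa_le_uF (h : GoodPt κ w a b Pa Pb) : κ ≤ uF κ w := by
  nlinarith [h.uF_mul, h.xi_le_one, h.uF_pos]

private theorem sqrt_uF_le (h : GoodPt κ w a b Pa Pb) : √(uF κ w) ≤ 1 / 100 :=
  Real.sqrt_le_iff.2 ⟨by norm_num, by linarith [h.uF_le]⟩

private theorem sqrt_uF_eq (h : GoodPt κ w a b Pa Pb) :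
    √(uF κ w) * √(xi κ w) = √κ := by
  rw [← Real.sqrt_mul h.uF_pos.le, h.uF_mul]

private theorem gam2_pos' (h : GoodPt κ w a b Pa Pb) : 0 < gam2 a b := by
  have := h.a_pos
  have := h.b_pos
  unfold gam2
  positivity

private theorem gam2_mul (h : GoodPt κ w a b Pa Pb) : gam2 a b * (a + b) = 2 * a * b := by
  have := h.a_pos
  have := h.b_pos
  unfold gam2
  field_simp

private theorem hF_bounds (h : GoodPt κ w a b Pa Pb) :
    0 ≤ hF κ w ∧ hF κ w ≤ 2 * κ * w := by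
  have hx := Real.sqrt_pos.2 h.xpos
  have hx1 : √(xi κ w) ≤ 1 := Real.sqrt_le_one.2 h.xi_le_one
  have hsq := Real.mul_self_sqrt h.xpos.le
  have hκ := h.κ_pos
  have hw := h.w_pos
  have e : hF κ w = κ * w + 100 * (κ * √(uF κ w) * (1 - √(xi κ w))) := by
    unfold hF
    rw [← h.sqrt_uF_eq]
    field_simp
  have h1 : 1 - √(xi κ w) ≤ w := by nlinarith [h.xi_eq]
  have h2 : κ * √(uF κ w) * (1 - √(xi κ w)) ≤ κ * (1 / 100) * w :=
    mul_le_mul (mul_le_mul_of_nonneg_left h.sqrt_uF_le hκ.le) h1 (by linarith) (by positivity)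
  have h3 : 0 ≤ κ * √(uF κ w) * (1 - √(xi κ w)) :=
    mul_nonneg (mul_nonneg hκ.le (Real.sqrt_nonneg _)) (by linarith)
  exact ⟨by nlinarith, by linarith⟩

private theorem h1_bounds (h : GoodPt κ w a b Pa Pb) :
    0 ≤ h1 κ w ∧ xi κ w * h1 κ w ≤ κ * (xi κ w + 1 / 2) ∧ h1 κ w ≤ 2 * uF κ w := by
  have hx := Real.sqrt_pos.2 h.xpos
  have hx0 := h.xpos
  have hκ := h.κ_pos
  have e : xi κ w * h1 κ w = κ * (xi κ w + 50 * √(uF κ w)) := by
    unfold h1
    rw [← h.sqrt_uF_eq]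
    field_simp
  have h2 : xi κ w * h1 κ w ≤ κ * (xi κ w + 1 / 2) := by
    rw [e]
    exact mul_le_mul_of_nonneg_left (by linarith [h.sqrt_uF_le]) hκ.le
  refine ⟨by unfold h1; positivity, h2, le_of_mul_le_mul_left (h2.trans ?_) hx0⟩
  nlinarith [h.uF_mul, h.xi_le_one]

private theorem sF_lower (h : GoodPt κ w a b Pa Pb) :
    (1 - 2 * uF κ w) * (w * xi κ w) ≤ sF κ w := by
  unfold sF
  rw [← h.xi_eq]
  linear_combination h.hF_bounds.2 - (2 * w) * h.uF_mul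

private theorem sF_pos (h : GoodPt κ w a b Pa Pb) : 0 < sF κ w :=
  (mul_pos (by linarith [h.uF_le]) (mul_pos h.w_pos h.xpos)).trans_le h.sF_lower

/-- The bounds on the normalised harmonic mean. -/
private theorem q_bounds (h : GoodPt κ w a b Pa Pb) :
    1 - uF κ w / 20 ≤ gam2 a b * xi κ w ∧ gam2 a b * xi κ w * (1 - 2 * uF κ w) ≤ 1 ∧
      gam2 a b * xi κ w ≤ 1 + 21 / 10 * uF κ w := by
  have hu := h.uF_pos
  have hu1 := h.uF_le
  have hΓ := h.gam2_pos'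
  have hq : 0 < gam2 a b * xi κ w := mul_pos hΓ h.xpos
  have ha := h.a_pos
  have hb := h.b_pos
  have h1 : a + b ≤ a * b * (2 * xi κ w + κ / 10) := by
    have i1 : a ≤ a * b * (xi κ w + Pb) := by nlinarith [h.b_low]
    have i2 : b ≤ a * b * (xi κ w + Pa) := by nlinarith [h.a_low]
    nlinarith [h.sum_le, mul_pos ha hb]
  have h2 : 1 ≤ gam2 a b * (xi κ w + κ / 20) := by
    refine le_of_mul_le_mul_right ?_ (add_pos ha hb)
    linear_combination h1 - (xi κ w + κ / 20) * h.gam2_mul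
  have h3 : 1 ≤ gam2 a b * xi κ w * (1 + uF κ w / 20) := by
    linear_combination h2 - gam2 a b / 20 * h.uF_mul
  have h4 : gam2 a b * xi κ w * (1 - 2 * uF κ w) ≤ 1 := by
    refine le_of_mul_le_mul_left ?_ h.w_pos
    have hT : gam2 a b * sF κ w ≤ w := by have := h.T_pos; unfold TF at this; linarith
    linear_combination hT + gam2 a b * h.sF_lower
  refine ⟨?_, h4, ?_⟩
  · refine le_of_mul_le_mul_right ?_ (by linarith : 0 < 1 + uF κ w / 20)
    nlinarith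
  · refine le_of_mul_le_mul_right ?_ (by linarith : 0 < 1 - 2 * uF κ w)
    nlinarith

private theorem axi_le (h : GoodPt κ w a b Pa Pb) :
    a * xi κ w ≤ 1 + 21 / 5 * uF κ w := by
  have ha := h.a_pos
  have hb := h.b_pos
  have hu := h.uF_pos
  have h1 : 2 * a * b * xi κ w * (1 - 2 * uF κ w) ≤ a + b := by
    have := mul_le_mul_of_nonneg_right h.q_bounds.2.1 (add_nonneg ha.le hb.le)
    linear_combination this - xi κ w * (1 - 2 * uF κ w) * h.gam2_mul
  have hP : Pb ≤ κ / 10 := by linarith [h.Pa_nonneg, h.sum_le]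
  have h2 : a ≤ a * b * (xi κ w + κ / 10) := by
    nlinarith [h.b_low, mul_pos ha hb]
  have h3 : a * xi κ w * (1 - 41 / 10 * uF κ w) ≤ 1 := by
    refine le_of_mul_le_mul_left ?_ hb
    linear_combination h1 + h2 - a * b / 10 * h.uF_mul
  refine le_of_mul_le_mul_right (h3.trans ?_) (by linarith [h.uF_le] : 0 < 1 - 41 / 10 * uF κ w)
  nlinarith [h.uF_le]

theorem D_pos (h : GoodPt κ w a b Pa Pb) : 0 < DF κ (gam2 a b) w := by
  have := TF_le_mul_DF h.κ_pos h.κ_le h.gam2_pos'.le h.w_le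
  exact pos_of_mul_pos_right (h.T_pos.trans_le this) h.w_pos.le

theorem zeta_le (h : GoodPt κ w a b Pa Pb) : a * (xi κ w + Pa) - 1 ≤ thF κ w ^ 2 := by
  have hu := h.uF_pos
  unfold thF
  rw [Real.sq_sqrt (by positivity)]
  have hP : a * Pa ≤ a * xi κ w * (uF κ w / 10) := by
    have : Pa ≤ κ / 10 := by linarith [h.Pb_nonneg, h.sum_le]
    linear_combination (mul_le_mul_of_nonneg_left this h.a_pos.le) - a / 10 * h.uF_mul
  nlinarith [h.axi_le, h.uF_le]

theorem le_gam2 (h : GoodPt κ w a b Pa Pb) : a ≤ (1 + 7 * uF κ w) * gam2 a b := by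
  refine le_of_mul_le_mul_right ?_ h.xpos
  nlinarith [h.axi_le, h.q_bounds.1, h.uF_pos, h.uF_le]

theorem T_le (h : GoodPt κ w a b Pa Pb) :
    TF κ (gam2 a b) w ≤ 11 / 5 * w * uF κ w := by
  have hu := h.uF_pos
  have hw := h.w_pos
  have h1 : gam2 a b * hF κ w ≤ gam2 a b * xi κ w * (2 * w * uF κ w) := by
    linear_combination (mul_le_mul_of_nonneg_left h.hF_bounds.2 h.gam2_pos'.le)
      - 2 * w * gam2 a b * h.uF_mul
  have e : TF κ (gam2 a b) w = w * (1 - gam2 a b * xi κ w) + gam2 a b * hF κ w := by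
    unfold TF sF
    rw [← h.xi_eq]
    ring
  have h2 := mul_le_mul_of_nonneg_left h.q_bounds.1 hw.le
  have h3 := mul_le_mul_of_nonneg_right h.q_bounds.2.2 (by positivity : 0 ≤ 2 * w * uF κ w)
  rw [e]
  nlinarith [mul_pos hw hu, h.uF_le]

/-- The excess of the discriminant over the second order term of the profile. -/
private theorem E_le (h : GoodPt κ w a b Pa Pb) :
    xi κ w ^ 2 * (DF κ (gam2 a b) w - sF κ w * gam2 a b ^ 2) ≤ 3 * κ := by
  have hκ := h.κ_pos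
  have hw := h.w_pos
  have hx := h.xpos
  obtain ⟨hq0, -, hq1⟩ := h.q_bounds
  obtain ⟨hh0, hh⟩ := h.hF_bounds
  obtain ⟨hh1n, hh1, -⟩ := h.h1_bounds
  set q := gam2 a b * xi κ w with hq
  have e : xi κ w ^ 2 * (DF κ (gam2 a b) w - sF κ w * gam2 a b ^ 2)
      = (1 - q) * (xi κ w ^ 2 + q * w * xi κ w) + q * (xi κ w * h1 κ w) + q ^ 2 * hF κ w := by
    unfold DF s1 sF
    rw [hq, h.xi_eq]
    ring
  have hu := h.uF_le
  have hu0 := h.uF_pos
  have hq2 : q ≤ 1001 / 1000 := by linarith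
  have hqp : 0 ≤ q := by linarith
  have t1 : (1 - q) * (xi κ w ^ 2 + q * w * xi κ w) ≤ κ / 20 * (xi κ w + 1001 / 1000 * w) :=
    calc _ ≤ uF κ w / 20 * (xi κ w ^ 2 + q * w * xi κ w) :=
          mul_le_mul_of_nonneg_right (by linarith) (by positivity)
      _ = κ / 20 * (xi κ w + q * w) := by
          linear_combination ((xi κ w + q * w) / 20) * h.uF_mul
      _ ≤ _ := by gcongr
  have t2 : q * (xi κ w * h1 κ w) ≤ 1001 / 1000 * (κ * (xi κ w + 1 / 2)) :=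
    mul_le_mul hq2 hh1 (mul_nonneg hx.le hh1n) (by norm_num)
  have t3 : q ^ 2 * hF κ w ≤ (1001 / 1000) ^ 2 * (2 * κ * w) :=
    mul_le_mul (pow_le_pow_left₀ hqp hq2 2) hh hh0 (by norm_num)
  have : κ * xi κ w + κ * w = κ := by rw [h.xi_eq]; ring
  rw [e]
  nlinarith [mul_pos hκ hx, mul_pos hκ hw]

private theorem omF_pos' (h : GoodPt κ w a b Pa Pb) : 0 < omF κ w := by
  have := h.xpos
  have := h.w_pos
  have := h.κ_pos
  unfold omF
  positivity

private theorem om_E_le (h : GoodPt κ w a b Pa Pb) :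
    omF κ w * (DF κ (gam2 a b) w - sF κ w * gam2 a b ^ 2) ≤ 3 * (w * √(uF κ w)) := by
  have hx0 := h.xpos
  have hx := Real.sqrt_pos.2 hx0
  have hk := Real.sqrt_pos.2 h.κ_pos
  have hw := h.w_pos
  have e : omF κ w = w / (√κ * √(xi κ w)) * xi κ w ^ 2 := by
    unfold omF
    field_simp
    rw [Real.sq_sqrt hx0.le]
  rw [e, mul_assoc]
  refine (mul_le_mul_of_nonneg_left h.E_le (by positivity)).trans_eq ?_
  rw [show √(uF κ w) = √κ / √(xi κ w) from Real.sqrt_div' _ hx0.le]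
  field_simp
  rw [Real.sq_sqrt h.κ_pos.le]

private theorem om_h2_eq (h : GoodPt κ w a b Pa Pb) :
    omF κ w * (h2 κ w / 2) = 75 / 2 * (w * uF κ w) := by
  have := h.xpos
  have := Real.sqrt_pos.2 h.κ_pos
  have := Real.sqrt_pos.2 h.xpos
  unfold omF h2 uF
  field_simp

private theorem psiR_eq (h : GoodPt κ w a b Pa Pb) (ν V μ2 : ℝ) :
    psiR κ ν (DF κ (gam2 a b) w) V w a b μ2 =
      μ2 * (V / DF κ (gam2 a b) w * gam2 a b)
          * (DF κ (gam2 a b) w - sF κ w * gam2 a b ^ 2 + h2 κ w / 2)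
        - μ2 * ν * (a ^ 3 + b ^ 3) := by
  have hab : a + b ≠ 0 := (add_pos h.a_pos h.b_pos).ne'
  unfold psiR aR
  simp only [mul_assoc V, mul_div_right_comm V]
  generalize V / DF κ (gam2 a b) w = t
  unfold DF s2 gam2 gpart
  rw [show b + a = a + b from add_comm b a]
  field_simp
  ring

private theorem sum_aR_eq (h : GoodPt κ w a b Pa Pb) (ν V : ℝ) :
    V - a ^ 2 * aR κ ν (DF κ (gam2 a b) w) V w a b
        - b ^ 2 * aR κ ν (DF κ (gam2 a b) w) V w b a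
      = V / DF κ (gam2 a b) w * (DF κ (gam2 a b) w - sF κ w * gam2 a b ^ 2)
        - ν * (a ^ 2 + b ^ 2) := by
  have hab : a + b ≠ 0 := (add_pos h.a_pos h.b_pos).ne'
  have e : a ^ 2 * gpart a b + b ^ 2 * gpart b a = gam2 a b ^ 2 := by
    unfold gam2 gpart
    rw [show b + a = a + b from add_comm b a]
    field_simp
    ring
  unfold aR
  rw [mul_sub, div_mul_cancel₀ V h.D_pos.ne']
  linear_combination (-(V * sF κ w / DF κ (gam2 a b) w)) * e

variable {ν V μ2 : ℝ}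

private theorem mu2_facts (h : GoodPt κ w a b Pa Pb) (hV : 0 < V)
    (hμ : μ2 = omF κ w * DF κ (gam2 a b) w / (gam2 a b * V)) :
    0 < μ2 ∧ μ2 * (V / DF κ (gam2 a b) w * gam2 a b) = omF κ w := by
  have h1 := h.D_pos
  have h2 := h.gam2_pos'
  have h3 := h.omF_pos'
  subst hμ
  exact ⟨by positivity, by field_simp⟩

theorem psi_le_one (h : GoodPt κ w a b Pa Pb) (hν : 0 ≤ ν) (hV : 0 < V)
    (hμ : μ2 = omF κ w * DF κ (gam2 a b) w / (gam2 a b * V)) :
    psiR κ ν (DF κ (gam2 a b) w) V w a b μ2 ≤ 1 := by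
  obtain ⟨hm, hc⟩ := h.mu2_facts hV hμ
  have ha := h.a_pos
  have hb := h.b_pos
  have h0 : 0 ≤ μ2 * ν * (a ^ 3 + b ^ 3) := by positivity
  have hw1 : w ≤ 1 := by linarith [h.w_le, h.κ_pos]
  have hs := mul_le_mul hw1 h.sqrt_uF_le (Real.sqrt_nonneg _) zero_le_one
  have hu := mul_le_mul hw1 h.uF_le h.uF_pos.le zero_le_one
  rw [h.psiR_eq, hc, mul_add, h.om_h2_eq]
  linarith [h.om_E_le]

theorem main_le (h : GoodPt κ w a b Pa Pb) (hν : 0 ≤ ν) (hV : 0 < V)
    (hμ : μ2 = omF κ w * DF κ (gam2 a b) w / (gam2 a b * V)) :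
    -psiR κ ν (DF κ (gam2 a b) w) V w a b μ2
      + μ2 * ((1 + 7 * uF κ w) * gam2 a b)
        * (V - a ^ 2 * aR κ ν (DF κ (gam2 a b) w) V w a b
            - b ^ 2 * aR κ ν (DF κ (gam2 a b) w) V w b a)
      ≤ -35 * (w * uF κ w) := by
  obtain ⟨hm, hc⟩ := h.mu2_facts hV hμ
  rw [h.psiR_eq, hc, h.sum_aR_eq]
  set E := DF κ (gam2 a b) w - sF κ w * gam2 a b ^ 2
  set K := (1 + 7 * uF κ w) * gam2 a b
  have hu := h.uF_pos
  have h1 : a ^ 3 + b ^ 3 ≤ K * (a ^ 2 + b ^ 2) := by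
    have i1 := mul_le_mul_of_nonneg_right h.le_gam2 (sq_nonneg a)
    have e : gam2 b a = gam2 a b := by unfold gam2; ring
    have i2 := mul_le_mul_of_nonneg_right h.swap.le_gam2 (sq_nonneg b)
    rw [e] at i2
    linear_combination i1 + i2
  have h2 := mul_le_mul_of_nonneg_left h1 (mul_nonneg hm.le hν)
  have h3 : 7 * uF κ w * (omF κ w * E) ≤ 7 * uF κ w * (3 * (w * (1 / 100))) := by
    refine mul_le_mul_of_nonneg_left (h.om_E_le.trans ?_) (by positivity)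
    gcongr
    · exact h.w_pos.le
    · exact h.sqrt_uF_le
  have e1 : μ2 * K * (V / DF κ (gam2 a b) w * E - ν * (a ^ 2 + b ^ 2))
      = (1 + 7 * uF κ w) * (omF κ w * E) - μ2 * ν * (K * (a ^ 2 + b ^ 2)) := by
    rw [← hc]; ring
  rw [e1, mul_add, h.om_h2_eq]
  nlinarith [mul_pos h.w_pos hu]

theorem cross_le (h : GoodPt κ w a b Pa Pb) (hν : 0 ≤ ν) (hV : 0 < V)
    (hμ : μ2 = omF κ w * DF κ (gam2 a b) w / (gam2 a b * V)) :
    thF κ w * (μ2 * ((1 + 7 * uF κ w) * gam2 a b))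
        * (V - a ^ 2 * aR κ ν (DF κ (gam2 a b) w) V w a b
            - b ^ 2 * aR κ ν (DF κ (gam2 a b) w) V w b a)
      ≤ 10 * (w * uF κ w) := by
  obtain ⟨hm, hc⟩ := h.mu2_facts hV hμ
  rw [h.sum_aR_eq]
  set E := DF κ (gam2 a b) w - sF κ w * gam2 a b ^ 2
  set K := (1 + 7 * uF κ w) * gam2 a b
  have hu := h.uF_pos
  have hΓ := h.gam2_pos'
  have hw := h.w_pos
  have hθ : 0 ≤ thF κ w := Real.sqrt_nonneg _
  have h1 : 0 ≤ thF κ w * (μ2 * K) * (ν * (a ^ 2 + b ^ 2)) := by positivity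
  have e1 : thF κ w * (μ2 * K) * (V / DF κ (gam2 a b) w * E)
      = thF κ w * (1 + 7 * uF κ w) * (omF κ w * E) := by
    rw [← hc]; ring
  have e2 : thF κ w * √(uF κ w) = √6 * uF κ w := by
    unfold thF
    rw [Real.sqrt_mul (by norm_num), mul_assoc, Real.mul_self_sqrt hu.le]
  have h2 := mul_le_mul_of_nonneg_left h.om_E_le
    (by positivity : 0 ≤ thF κ w * (1 + 7 * uF κ w))
  have h6 : √6 ≤ (5 / 2 : ℝ) := Real.sqrt_le_iff.2 ⟨by norm_num, by norm_num⟩
  have h7 : thF κ w * (1 + 7 * uF κ w) * (3 * (w * √(uF κ w)))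
      ≤ 3 * (1001 / 1000) * (5 / 2) * (w * uF κ w) := by
    have : thF κ w * (1 + 7 * uF κ w) * (3 * (w * √(uF κ w)))
        = 3 * (1 + 7 * uF κ w) * √6 * (w * uF κ w) := by
      linear_combination (3 * (1 + 7 * uF κ w) * w) * e2
    rw [this]
    gcongr
    linarith [h.uF_le]
  rw [mul_sub, e1]
  nlinarith [mul_pos hw hu]

/-- The factor of the cross coefficient. -/
private theorem fac_bounds (h : GoodPt κ w a b Pa Pb) :
    0 ≤ s1 κ w + 2 * sF κ w * gam2 a b ∧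
      s1 κ w + 2 * sF κ w * gam2 a b ≤ 1001 / 1000 := by
  have hu := h.uF_le
  have hu0 := h.uF_pos
  have hw := h.w_pos
  have hx := h.xpos
  obtain ⟨hq0, -, hq1⟩ := h.q_bounds
  obtain ⟨hh0, hh⟩ := h.hF_bounds
  obtain ⟨hh1n, -, hh1⟩ := h.h1_bounds
  have hΓ := h.gam2_pos'
  have e : s1 κ w + 2 * sF κ w * gam2 a b
      = xi κ w + w * (2 * (gam2 a b * xi κ w) - 1) - h1 κ w - 2 * (gam2 a b * hF κ w) := by
    unfold s1 sF
    rw [h.xi_eq]
    ring
  have hw1 : w ≤ 1 := by linarith [h.w_le, h.κ_pos]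
  have t1 : w * (1 - uF κ w / 10) ≤ w * (2 * (gam2 a b * xi κ w) - 1) :=
    mul_le_mul_of_nonneg_left (by linarith) hw.le
  have t2 : w * (2 * (gam2 a b * xi κ w) - 1) ≤ w * (1 + 21 / 5 * uF κ w) :=
    mul_le_mul_of_nonneg_left (by linarith) hw.le
  have t3 : gam2 a b * hF κ w ≤ 1001 / 1000 * (2 * w * uF κ w) := by
    have h1 := mul_le_mul_of_nonneg_left hh hΓ.le
    have h2 := mul_le_mul_of_nonneg_right (show gam2 a b * xi κ w ≤ 1001 / 1000 by linarith)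
      (by positivity : 0 ≤ 2 * w * uF κ w)
    linear_combination h1 + h2 - 2 * w * gam2 a b * h.uF_mul
  have t4 := mul_nonneg hΓ.le hh0
  have hwu : w * uF κ w ≤ uF κ w := mul_le_of_le_one_left hu0.le hw1
  have hwu0 : 0 ≤ w * uF κ w := by positivity
  have hs : xi κ w + w = 1 := by rw [h.xi_eq]; ring
  rw [e]
  constructor <;> nlinarith

private theorem DF_le (h : GoodPt κ w a b Pa Pb) :
    DF κ (gam2 a b) w * xi κ w ≤ 5 := by
  have hu := h.uF_le
  have hu0 := h.uF_pos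
  obtain ⟨hh1n, -, hh1⟩ := h.h1_bounds
  have hq := h.q_bounds.2.2
  have hs1 : -s1 κ w ≤ 2 := by unfold s1; linarith [h.w_le, h.κ_pos]
  have h2 : gam2 a b * xi κ w * -s1 κ w ≤ 2 * 2 :=
    le_trans (mul_le_mul_of_nonneg_left hs1 (mul_nonneg h.gam2_pos'.le h.xpos.le))
      (mul_le_mul_of_nonneg_right (by linarith) (by norm_num))
  unfold DF
  linear_combination h2 + h.xi_le_one

private theorem pR_eq (h : GoodPt κ w a b Pa Pb) (ν D V : ℝ) :
    pR κ ν D V w a b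
      = V / D * gpart a b * (s1 κ w + 2 * sF κ w * gam2 a b) + 2 * a * ν := by
  have hab : a + b ≠ 0 := (add_pos h.a_pos h.b_pos).ne'
  unfold pR aR
  simp only [mul_assoc V, mul_div_right_comm V]
  generalize V / D = t
  unfold gpart gam2
  field_simp
  ring

private theorem om_th_eq (h : GoodPt κ w a b Pa Pb) :
    omF κ w * thF κ w = √6 * (w * xi κ w) := by
  have := Real.sqrt_pos.2 h.xpos
  have := Real.sqrt_pos.2 h.uF_pos
  have := Real.sqrt_pos.2 h.κ_pos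
  unfold omF thF
  rw [Real.sqrt_mul (by norm_num), ← h.sqrt_uF_eq]
  field_simp

private theorem X_mu_le (h : GoodPt κ w a b Pa Pb) (hV : 0 < V)
    (hμ : μ2 = omF κ w * DF κ (gam2 a b) w / (gam2 a b * V)) :
    V / DF κ (gam2 a b) w * gpart a b * μ2 * a * thF κ w ≤ 5 / 2 * (w * xi κ w) := by
  have ha := h.a_pos
  have hb := h.b_pos
  have hab := add_pos ha hb
  have hΓ := h.gam2_pos'
  have hD := h.D_pos
  have hwx := mul_nonneg h.w_pos.le h.xpos.le
  have e : gpart a b * a / gam2 a b = b / (a + b) := by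
    unfold gpart gam2
    field_simp
  have e1 : V / DF κ (gam2 a b) w * gpart a b * μ2 * a * thF κ w
      = b / (a + b) * (omF κ w * thF κ w) := by
    rw [hμ, ← e]
    field_simp
  rw [e1, h.om_th_eq]
  have h6 : √6 ≤ (5 / 2 : ℝ) := Real.sqrt_le_iff.2 ⟨by norm_num, by norm_num⟩
  calc b / (a + b) * (√6 * (w * xi κ w)) ≤ 1 * (√6 * (w * xi κ w)) := by
        refine mul_le_mul_of_nonneg_right ?_ (by positivity)
        exact (div_le_one hab).2 (by linarith)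
    _ ≤ _ := by rw [one_mul]; exact mul_le_mul_of_nonneg_right h6 hwx

/-- The part of the squared cross coefficient coming from the small weight. -/
private theorem nu_sq_le (h : GoodPt κ w a b Pa Pb) {l : ℝ} (hν : 0 ≤ ν) (hl : 0 < l)
    (hνl : ν ≤ l * κ ^ 3) (hV : 2 * l ≤ V)
    (hμ : μ2 = omF κ w * DF κ (gam2 a b) w / (gam2 a b * V)) :
    (2 * a * ν) ^ 2 * μ2 * a * thF κ w ≤ 8 * ν := by
  have hV0 : 0 < V := by linarith
  have hΓ := h.gam2_pos'
  have hx := h.xpos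
  have hκ := h.κ_pos
  have ha := h.a_pos
  have hD := h.D_pos
  have hDx := h.DF_le
  generalize DF κ (gam2 a b) w = D at hD hDx hμ
  have hνV : ν / V ≤ κ ^ 3 / 2 := by
    rw [div_le_iff₀ hV0]
    nlinarith [pow_pos hκ 3]
  have haΓ : a / gam2 a b ≤ 2 := by
    rw [div_le_iff₀ hΓ]
    nlinarith [h.le_gam2, h.uF_le]
  have hax : (a * xi κ w) ^ 2 ≤ 2 ^ 2 :=
    pow_le_pow_left₀ (by positivity) (by linarith [h.axi_le, h.uF_le]) 2
  have hw6 : √6 * (w * xi κ w) ≤ 5 / 2 * xi κ w := by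
    refine mul_le_mul (Real.sqrt_le_iff.2 ⟨by norm_num, by norm_num⟩) ?_
      (mul_nonneg h.w_pos.le hx.le) (by norm_num)
    exact mul_le_of_le_one_left hx.le (by linarith [h.w_le])
  have hk : κ ^ 3 ≤ κ * (1 / 10000) ^ 2 * xi κ w ^ 2 := by
    have h1 : κ ≤ 1 / 10000 * xi κ w := by
      have := mul_le_mul_of_nonneg_right h.uF_le hx.le
      rwa [h.uF_mul] at this
    calc κ ^ 3 = κ * κ ^ 2 := by ring
      _ ≤ κ * (1 / 10000 * xi κ w) ^ 2 :=
          mul_le_mul_of_nonneg_left (pow_le_pow_left₀ hκ.le h1 2) hκ.le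
      _ = _ := by ring
  have e : (2 * a * ν) ^ 2 * μ2 * a * thF κ w
      = 4 * ν * (ν / V * (a / gam2 a b) * (a * xi κ w) ^ 2 * (D * xi κ w)
          * (omF κ w * thF κ w) / xi κ w ^ 3) := by
    rw [hμ]
    field_simp
    ring
  have h1 : ν / V * (a / gam2 a b) * (a * xi κ w) ^ 2 ≤ κ ^ 3 / 2 * 2 * 2 ^ 2 :=
    mul_le_mul (mul_le_mul hνV haΓ (by positivity) (by positivity)) hax (by positivity)
      (by positivity)
  have h2 : ν / V * (a / gam2 a b) * (a * xi κ w) ^ 2 * (D * xi κ w) * (omF κ w * thF κ w)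
      ≤ κ ^ 3 / 2 * 2 * 2 ^ 2 * 5 * (5 / 2 * xi κ w) := by
    rw [h.om_th_eq]
    exact mul_le_mul (mul_le_mul h1 hDx (by positivity) (by positivity)) hw6
      (mul_nonneg (Real.sqrt_nonneg _) (mul_nonneg h.w_pos.le hx.le)) (by positivity)
  rw [e]
  refine (mul_le_mul_of_nonneg_left (b := ν / V * (a / gam2 a b) * (a * xi κ w) ^ 2
    * (D * xi κ w) * (omF κ w * thF κ w) / xi κ w ^ 3) (c := 2) ?_ (by positivity)).trans_eq
    (by ring)
  rw [div_le_iff₀ (by positivity)]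
  nlinarith [h.κ_le, pow_pos hx 3]

theorem p_sq_le (h : GoodPt κ w a b Pa Pb) {l : ℝ} (hν : 0 ≤ ν) (hl : 0 < l)
    (hνl : ν ≤ l * κ ^ 3) (hV : 2 * l ≤ V)
    (hμ : μ2 = omF κ w * DF κ (gam2 a b) w / (gam2 a b * V)) :
    pR κ ν (DF κ (gam2 a b) w) V w a b ^ 2 * μ2 * a * thF κ w
      ≤ 20 * aR κ ν (DF κ (gam2 a b) w) V w a b := by
  have hV0 : 0 < V := by linarith
  have hN := h.nu_sq_le hν hl hνl hV hμ
  have hX := h.X_mu_le hV0 hμ
  obtain ⟨hm, -⟩ := h.mu2_facts hV0 hμ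
  obtain ⟨hf0, hf1⟩ := h.fac_bounds
  have hu1 := h.uF_le
  have hg : 0 ≤ gpart a b := by unfold gpart; positivity
  have hX0 : 0 ≤ V / DF κ (gam2 a b) w * gpart a b := by
    have := h.D_pos; positivity
  have ea : aR κ ν (DF κ (gam2 a b) w) V w a b
      = V / DF κ (gam2 a b) w * gpart a b * sF κ w + ν := by
    unfold aR; ring
  have hθ : 0 ≤ thF κ w := Real.sqrt_nonneg _
  have hq0 : 0 ≤ μ2 * a * thF κ w := mul_nonneg (mul_nonneg hm.le h.a_pos.le) hθ
  have hs : w * xi κ w ≤ 1001 / 1000 * sF κ w := by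
    nlinarith [h.sF_lower, mul_pos h.w_pos h.xpos]
  rw [h.pR_eq, ea]
  generalize V / DF κ (gam2 a b) w * gpart a b = X at hX hX0
  generalize s1 κ w + 2 * sF κ w * gam2 a b = F at hf0 hf1
  have hA : (X * F) ^ 2 * (μ2 * a * thF κ w) ≤ 8 * (X * sF κ w) :=
    calc (X * F) ^ 2 * (μ2 * a * thF κ w) = F ^ 2 * X * (X * μ2 * a * thF κ w) := by ring
      _ ≤ (1001 / 1000) ^ 2 * X * (5 / 2 * (w * xi κ w)) :=
          mul_le_mul (mul_le_mul_of_nonneg_right (pow_le_pow_left₀ hf0 hf1 2) hX0) hX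
            (by nlinarith) (by positivity)
      _ ≤ (1001 / 1000) ^ 2 * X * (5 / 2 * (1001 / 1000 * sF κ w)) := by gcongr
      _ ≤ _ := by nlinarith [mul_nonneg hX0 h.sF_pos.le]
  have hsq : (X * F + 2 * a * ν) ^ 2 ≤ 2 * (X * F) ^ 2 + 2 * (2 * a * ν) ^ 2 := by
    nlinarith [sq_nonneg (X * F - 2 * a * ν)]
  have hmul := mul_le_mul_of_nonneg_right hsq hq0
  linarith [mul_nonneg hX0 h.sF_pos.le]

end GoodPt

end Vale.Agent.P078.Tracial.Two
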