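import Vale.Agent.P078.Tracial.Two.Defs
import Vale.Agent.P078.Tracial.Two.GoodPoint

/-! The pointwise facts at the active points with small excess. -/

namespace Vale.Agent.P078.Tracial.Two

set_option linter.unusedSectionVars false

open Filter Topology ComplexOrder
open Scalar (f f' continuous_f f_ge_posPart f_nonneg)

variable {M X : Type*} [CStarAlgebra M] [PartialOrder M] [StarOrderedRing M]
variable [TopologicalSpace X] [CompactSpace X] [T2Space X] [TotallyDisconnectedSpace X]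
variable {C : Core M X} {P : Prm M}

theorem gam2_comm (a b : ℝ) : gam2 a b = gam2 b a := by
  unfold gam2; rw [add_comm a b, mul_right_comm]

namespace Prm

theorem wt_apply (s : Col M X) (x : X) : P.wt s x = s.act x * s.W x + P.Wf * s.ass x := by
  simp [wt]

theorem good_01 {s : Col M X} (hs : s.Ok P C) (x : X) :
    P.good C s x = 0 ∨ P.good C s x = 1 := by
  simp only [good, ContinuousMap.mul_apply, ind_apply]
  rcases hs.act_01 x with h | h <;> split_ifs <;> simp [h]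

theorem good_spec {s : Col M X} (hs : s.Ok P C) {x : X} (h : P.good C s x = 1) :
    s.act x = 1 ∧ P.exc C s true x + P.exc C s false x ≤ P.κ / 10 := by
  simp only [good, ContinuousMap.mul_apply, ind_apply] at h
  split_ifs at h with hV
  · refine ⟨by simpa using h, ?_⟩
    have h2 := (P.exists_goodSet C s).choose_spec.2.2 hV
    exact le_of_lt h2
  · simp at h

theorem good_of_small {s : Col M X} {x : X} (ha : s.act x = 1)
    (he : P.exc C s true x + P.exc C s false x ≤ P.κ / 20) : P.good C s x = 1 := by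
  simp only [good, ContinuousMap.mul_apply, ha, one_mul]
  exact ind_mem _ ((P.exists_goodSet C s).choose_spec.2.1 he)

theorem μ_nonneg (s : Col M X) (hs : s.Ok P C) (x : X) : 0 ≤ P.μ C s x := by
  simp only [μ, ContinuousMap.mul_apply, ContinuousMap.coe_mk]
  refine mul_nonneg ?_ (Real.sqrt_nonneg _)
  rcases good_01 hs x with h | h <;> simp [h]

theorem good_mul_act {s : Col M X} (hs : s.Ok P C) (x : X) :
    P.good C s x * s.act x = P.good C s x := by
  simp only [good, ContinuousMap.mul_apply]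
  rcases hs.act_01 x with h | h <;> simp [h]

theorem μ_act {s : Col M X} (hs : s.Ok P C) : P.μ C s * s.act = P.μ C s := by
  ext x
  simp only [μ, ContinuousMap.mul_apply, ContinuousMap.coe_mk]
  rw [mul_right_comm, good_mul_act hs]

theorem gp_nonneg (s : Col M X) (i : Bool) (x : X) : 0 ≤ P.gp C s i x := by
  simp only [gp, ContinuousMap.coe_mk, gpart]
  positivity

theorem sc_nonneg {s : Col M X} (hs : s.Ok P C) (x : X) : 0 ≤ P.sc s x :=
  sF_nonneg P.κ_pos P.κ_le (hs.W_mem x).1 (hs.W_mem x).2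

theorem Vt_ge (s : Col M X) (x : X) : P.l ≤ P.Vt C s x := le_max_right _ _

theorem aFn_apply (s : Col M X) (i : Bool) (x : X) :
    P.aFn C s i x
      = s.act x * P.Vt C s x * P.sc s x * P.gp C s i x * (P.Dc C s x)⁻¹ + P.ν := by
  simp [aFn, iD]

theorem aFn_nonneg {s : Col M X} (hs : s.Ok P C) (i : Bool) : 0 ≤ P.aFn C s i := by
  refine ContinuousMap.le_def.2 fun x => ?_
  rw [aFn_apply, ContinuousMap.zero_apply]
  have h1 : 0 ≤ s.act x := by rcases hs.act_01 x with h | h <;> simp [h]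
  have h2 := P.l_pos.le.trans (Vt_ge (P := P) (C := C) s x)
  have h3 := sc_nonneg hs x
  have h4 := gp_nonneg (P := P) (C := C) s i x
  have h5 := P.Dc_pos C s x
  have h6 := P.ν_pos
  positivity

theorem zaz_nonneg {s : Col M X} (hs : s.Ok P C) (i : Bool) : 0 ≤ P.zaz C s i :=
  (C.zG_isSelfAdjoint (IsSelfAdjoint.of_nonneg (hs.G_nonneg i))).conjugate_nonneg
    (C.r_nonneg (aFn_nonneg hs i))

theorem exc_nonneg (s : Col M X) (i : Bool) (x : X) : 0 ≤ P.exc C s i x :=
  ContinuousMap.le_def.1 (C.Er_nonneg (cfc_nonneg fun _ _ => le_max_right _ _)) x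

/-- The diagonal of the inverse resolvent at an active point. -/
theorem Er_inv_le (hP : P.Ok C) {s : Col M X} (hs : s.Ok P C) (i : Bool) {x : X}
    (hx : s.act x = 1) :
    C.Er (↑(s.G i)⁻¹ : M) x ≤ 1 - s.W x + P.exc C s i x := by
  have hA := mat_isSelfAdjoint hP hs.G_nonneg i
  have h0 : P.mat C s i - algebraMap ℝ M P.u2
      ≤ cfc (fun t => max (t - P.u2) 0) (P.mat C s i) := by
    calc P.mat C s i - algebraMap ℝ M P.u2 = cfc (fun t : ℝ => t - P.u2) (P.mat C s i) := by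
          rw [cfc_sub _ _ _, cfc_id' ℝ _ hA, cfc_const _ _ hA]
      _ ≤ _ := cfc_mono fun t _ => le_max_left _ _
  have h1 := ContinuousMap.le_def.1 (C.Er_mono h0) x
  simp only [mat, C.Er_sub, C.Er_add, C.Er_algebraMap, C.Er_smul, hP.Er_y, C.Er_r, smul_zero,
    ContinuousMap.sub_apply, ContinuousMap.add_apply, ContinuousMap.const_apply,
    ContinuousMap.zero_apply, wt_apply, hx, one_mul, add_zero, u2] at h1
  have hWf : 0 ≤ P.Wf * s.ass x := by
    have : 0 ≤ P.Wf := by unfold Prm.Wf; linarith [P.κ_le]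
    rcases hs.ass_01 x with h | h <;> simp [h, this]
  simp only [exc]
  simp only [mat, u2] at h1 ⊢
  linarith

theorem one_le_γ_mul {s : Col M X} (hs : s.Ok P C) (hb : P.Bounded s) (i : Bool) (x : X) :
    1 ≤ P.γ C s i x * C.Er (↑(s.G i)⁻¹ : M) x := by
  have key : ∀ t : ℝ, 0 ≤ P.γ C s i x * (t * t) + 2 * t + C.Er (↑(s.G i)⁻¹ : M) x := fun t => by
    have hG := hs.G_nonneg i
    have h := ContinuousMap.le_def.1 (C.Er_nonneg (star_left_conjugate_nonneg hG
      (t • (1 : M) + ↑(s.G i)⁻¹))) x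
    have e : star (t • (1 : M) + ↑(s.G i)⁻¹) * (s.G i : M) * (t • 1 + ↑(s.G i)⁻¹)
        = (t * t) • (s.G i : M) + (2 * t) • 1 + ↑(s.G i)⁻¹ := by
      rw [star_add, star_smul, star_one, star_trivial,
        (IsSelfAdjoint.of_nonneg (Core.units_inv_nonneg hG)).star_eq]
      simp only [add_mul, mul_add, smul_mul_assoc, mul_smul_comm, one_mul, mul_one,
        Units.inv_mul, Units.mul_inv]
      module
    rw [e] at h
    simp only [C.Er_add, C.Er_smul, C.Er_one, ContinuousMap.add_apply, ContinuousMap.smul_apply,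
      ContinuousMap.one_apply, ContinuousMap.zero_apply, smul_eq_mul, mul_one] at h
    unfold γ
    linarith
  have := discrim_le_zero key
  rw [discrim] at this
  linarith

theorem goodPt (hP : P.Ok C) {s : Col M X} (hs : s.Ok P C) (hw : P.Window s) (hb : P.Bounded s)
    {x : X} (h : P.good C s x = 1) :
    GoodPt P.κ (s.W x) (P.γ C s true x) (P.γ C s false x) (P.exc C s true x)
      (P.exc C s false x) := by
  obtain ⟨ha, he⟩ := good_spec hs h
  obtain ⟨hT, hW0, -⟩ := window_bounds hs hw hb ha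
  have hWa : s.W x ≤ 1 - 10000 * P.κ := (hs.W_mem x).2
  have hγ : ∀ i, 0 < P.γ C s i x := fun i => P.g_pos.trans_le (γ_bounds hb i x).1
  have hlow : ∀ i, 1 ≤ P.γ C s i x * (xi P.κ (s.W x) + P.exc C s i x) := fun i => by
    refine (one_le_γ_mul hs hb i x).trans (mul_le_mul_of_nonneg_left ?_ (hγ i).le)
    have h1 := Er_inv_le hP hs i ha
    have h2 : 1 - s.W x ≤ xi P.κ (s.W x) := le_max_left _ _
    linarith
  refine ⟨P.κ_pos, P.κ_le, P.b1_pos.trans_le hW0, hWa, hγ true, hγ false, exc_nonneg _ _ _,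
    exc_nonneg _ _ _, he, hlow true, hlow false, ?_⟩
  have hΓ : P.Γc C s x = gam2 (P.γ C s true x) (P.γ C s false x) := by
    rw [← gc_eq hb, ← gc_eq hb]; rfl
  rw [← hΓ]
  linarith [hs.act_b x ha, P.b1_pos]

/-- The scalar data at a point of the good set. -/
theorem at_good (hP : P.Ok C) {s : Col M X} (hs : s.Ok P C) (hw : P.Window s) (hb : P.Bounded s)
    {x : X} (h : P.good C s x = 1) :
    P.Γc C s x = gam2 (P.γ C s true x) (P.γ C s false x) ∧
    P.Dc C s x = DF P.κ (gam2 (P.γ C s true x) (P.γ C s false x)) (s.W x) ∧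
    P.Vt C s x = P.V C s true x + P.V C s false x ∧ 2 * P.l ≤ P.Vt C s x ∧
    P.μ C s x * P.μ C s x = omF P.κ (s.W x) *
      DF P.κ (gam2 (P.γ C s true x) (P.γ C s false x)) (s.W x) /
      (gam2 (P.γ C s true x) (P.γ C s false x) * P.Vt C s x) ∧
    ∀ i, P.aFn C s i x = aR P.κ P.ν (DF P.κ (gam2 (P.γ C s true x) (P.γ C s false x)) (s.W x))
      (P.Vt C s x) (s.W x) (P.γ C s i x) (P.γ C s (!i) x) := by
  obtain ⟨ha, -⟩ := good_spec hs h
  have hg := goodPt hP hs hw hb h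
  have hΓ : P.Γc C s x = gam2 (P.γ C s true x) (P.γ C s false x) := by
    rw [← gc_eq hb, ← gc_eq hb]; rfl
  have hD := (window_bounds hs hw hb ha).2.2
  rw [hΓ] at hD
  have h1 := (V_bounds hP hs.G_nonneg true x).1
  have h2 := (V_bounds hP hs.G_nonneg false x).1
  have hV : P.Vt C s x = P.V C s true x + P.V C s false x :=
    max_eq_left (by linarith [P.l_pos])
  have hV2 : 2 * P.l ≤ P.Vt C s x := by linarith
  refine ⟨hΓ, hD, hV, hV2, ?_, fun i => ?_⟩
  · simp only [μ, ContinuousMap.mul_apply, ContinuousMap.coe_mk, h, one_mul, hΓ, hD]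
    refine Real.mul_self_sqrt (div_nonneg (mul_nonneg ?_ hg.D_pos.le)
      (mul_nonneg (gam2_pos hg.a_pos hg.b_pos).le (by linarith [P.l_pos])))
    have := hg.w_pos
    have := xi_pos P.κ_pos (s.W x)
    unfold omF
    positivity
  · rw [aFn_apply, ha, one_mul, hD, aR]
    simp only [sc, gp, ContinuousMap.coe_mk, gc_eq hb, div_eq_mul_inv]

theorem μ_of_not_good {s : Col M X} {x : X} (h : P.good C s x = 0) : P.μ C s x = 0 := by
  simp [μ, h]

theorem Ffn_apply (s : Col M X) (x : X) :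
    P.Ffn C s x = P.μ C s x * P.μ C s x * ((1 + 7 * P.uc s x) * P.Γc C s x) := by
  simp [Ffn]

theorem psi_apply {s : Col M X} (hb : P.Bounded s) (x : X) :
    P.psi C s x = psiR P.κ P.ν (P.Dc C s x) (P.Vt C s x) (s.W x) (P.γ C s true x)
      (P.γ C s false x) (P.μ C s x * P.μ C s x) := by
  rw [← gc_eq hb, ← gc_eq hb]; rfl

theorem psi_le_one (hP : P.Ok C) {s : Col M X} (hs : s.Ok P C) (hw : P.Window s)
    (hb : P.Bounded s) (x : X) : P.psi C s x ≤ 1 := by
  rw [psi_apply hb]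
  rcases good_01 hs x with h | h
  · simp [μ_of_not_good h, psiR]
  · obtain ⟨-, hD, -, hV2, hμ, -⟩ := at_good hP hs hw hb h
    rw [hD]
    exact (goodPt hP hs hw hb h).psi_le_one P.ν_pos.le (by linarith [P.l_pos]) hμ

theorem Γc_pos (s : Col M X) (x : X) : 0 < P.Γc C s x :=
  gam2_pos (P.gc_pos C s true x) (P.gc_pos C s false x)

theorem uc_nonneg (s : Col M X) (x : X) : 0 ≤ P.uc s x :=
  (div_pos P.κ_pos (xi_pos P.κ_pos _)).le

theorem Ffn_nonneg {s : Col M X} (hs : s.Ok P C) : 0 ≤ P.Ffn C s := by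
  refine ContinuousMap.le_def.2 fun x => ?_
  rw [Ffn_apply, ContinuousMap.zero_apply]
  have := Γc_pos (P := P) (C := C) s x
  have := uc_nonneg (P := P) s x
  exact mul_nonneg (mul_self_nonneg _) (by positivity)

theorem γ_le_Ffn (hP : P.Ok C) {s : Col M X} (hs : s.Ok P C) (hw : P.Window s)
    (hb : P.Bounded s) (i : Bool) (x : X) :
    P.μ C s x * P.μ C s x * P.γ C s i x ≤ P.Ffn C s x := by
  rw [Ffn_apply]
  rcases good_01 hs x with h | h
  · simp [μ_of_not_good h]
  · refine mul_le_mul_of_nonneg_left ?_ (mul_self_nonneg _)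
    have hg := goodPt hP hs hw hb h
    rw [(at_good hP hs hw hb h).1]
    cases i
    · rw [gam2_comm]; exact hg.swap.le_gam2
    · exact hg.le_gam2

theorem main_le (hP : P.Ok C) {s : Col M X} (hs : s.Ok P C) (hw : P.Window s) (hb : P.Bounded s)
    (x : X) :
    -P.psi C s x + P.Ffn C s x * ∑ i, (P.V C s i x - P.γ C s i x ^ 2 * P.aFn C s i x)
      ≤ -35 * (P.good C s x * s.W x * P.uc s x) := by
  rw [psi_apply hb, Ffn_apply]
  rcases good_01 hs x with h | h
  · simp [μ_of_not_good h, psiR, h]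
  · obtain ⟨hΓ, hD, hV, hV2, hμ, ha⟩ := at_good hP hs hw hb h
    have := (goodPt hP hs hw hb h).main_le P.ν_pos.le (V := P.Vt C s x)
      (by linarith [P.l_pos]) hμ
    rw [Fintype.sum_bool, ha, ha, hD, hΓ, h, one_mul]
    simp only [Bool.not_true, Bool.not_false, uc, ContinuousMap.coe_mk] at this ⊢
    refine le_trans (le_of_eq ?_) this
    rw [hV]; ring

theorem cross_le (hP : P.Ok C) {s : Col M X} (hs : s.Ok P C) (hw : P.Window s) (hb : P.Bounded s)
    (x : X) :
    P.θc s x * P.Ffn C s x * ∑ i, (P.V C s i x - P.γ C s i x ^ 2 * P.aFn C s i x)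
      ≤ 10 * (P.good C s x * s.W x * P.uc s x) := by
  rw [Ffn_apply]
  rcases good_01 hs x with h | h
  · simp [μ_of_not_good h, h]
  · obtain ⟨hΓ, hD, hV, hV2, hμ, ha⟩ := at_good hP hs hw hb h
    have := (goodPt hP hs hw hb h).cross_le P.ν_pos.le (V := P.Vt C s x)
      (by linarith [P.l_pos]) hμ
    rw [Fintype.sum_bool, ha, ha, hΓ, h, one_mul]
    simp only [Bool.not_true, Bool.not_false, uc, θc, ContinuousMap.coe_mk] at this ⊢
    refine le_trans (le_of_eq ?_) this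
    rw [hV]; ring

theorem zeta_le (hP : P.Ok C) {s : Col M X} (hs : s.Ok P C) (hw : P.Window s) (hb : P.Bounded s)
    (i : Bool) {x : X} (h : P.good C s x = 1) :
    C.Er (C.zG (s.G i : M) * (↑(s.G i)⁻¹ : M) * C.zG (s.G i : M)) x
      ≤ P.θc s x ^ 2 * P.γ C s i x := by
  have hg := goodPt hP hs hw hb h
  obtain ⟨ha, -⟩ := good_spec hs h
  have e : C.zG (s.G i : M) * (↑(s.G i)⁻¹ : M) * C.zG (s.G i : M)
      = (s.G i : M) - C.r (P.γ C s i) - C.r (P.γ C s i)
        + C.r (P.γ C s i) * (↑(s.G i)⁻¹ : M) * C.r (P.γ C s i) := by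
    simp only [Core.zG, γ, sub_mul, mul_sub, mul_assoc, Units.inv_mul, mul_one,
      Units.mul_inv_cancel_left]
    abel
  rw [e]
  simp only [C.Er_add, C.Er_sub, C.Er_r, C.Er_bimod, ContinuousMap.add_apply,
    ContinuousMap.sub_apply, ContinuousMap.mul_apply]
  have hγ : C.Er (s.G i : M) x = P.γ C s i x := rfl
  have hpos := P.g_pos.trans_le (γ_bounds (C := C) hb i x).1
  have h1 := Er_inv_le hP hs i ha
  have h2 : 1 - s.W x ≤ xi P.κ (s.W x) := le_max_left _ _
  have h3 : P.γ C s i x * (xi P.κ (s.W x) + P.exc C s i x) - 1 ≤ thF P.κ (s.W x) ^ 2 := by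
    cases i
    · exact hg.swap.zeta_le
    · exact hg.zeta_le
  have h4 : P.γ C s i x * C.Er (↑(s.G i)⁻¹ : M) x - 1 ≤ thF P.κ (s.W x) ^ 2 := by
    nlinarith [mul_le_mul_of_nonneg_left (h1.trans (by linarith : _ ≤ xi P.κ (s.W x)
      + P.exc C s i x)) hpos.le]
  rw [hγ]
  simp only [θc, ContinuousMap.coe_mk]
  nlinarith [mul_le_mul_of_nonneg_left h4 hpos.le]

theorem good_of_ne_zero {s : Col M X} (hs : s.Ok P C) {i : Bool} {x : X}
    (h : P.qFn C s i x ≠ 0 ∨ P.μ C s x ≠ 0) : P.good C s x = 1 := by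
  refine (good_01 hs x).resolve_left fun h0 => ?_
  simp [qFn, μ_of_not_good h0] at h

theorem qsq_le (hP : P.Ok C) {s : Col M X} (hs : s.Ok P C) (hw : P.Window s) (hb : P.Bounded s)
    (i : Bool) (x : X) :
    P.qFn C s i x ^ 2 * P.γ C s i x * P.θc s x ≤ 20 * P.aFn C s i x := by
  have ha0 : 0 ≤ P.aFn C s i x := ContinuousMap.le_def.1 (aFn_nonneg hs i) x
  rcases good_01 hs x with h | h
  · simp [qFn, μ_of_not_good h, ha0]
  · obtain ⟨-, hD, -, hV2, hμ, ha⟩ := at_good hP hs hw hb h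
    have hg := goodPt hP hs hw hb h
    have hνl : P.ν ≤ P.l * P.κ ^ 3 := P.ν_le
    have hp : P.qFn C s i x = P.μ C s x * pR P.κ P.ν
        (DF P.κ (gam2 (P.γ C s true x) (P.γ C s false x)) (s.W x))
        (P.Vt C s x) (s.W x) (P.γ C s i x) (P.γ C s (!i) x) := by
      rw [← hD, ← gc_eq hb, ← gc_eq hb]; rfl
    rw [hp, ha, show P.θc s x = thF P.κ (s.W x) from rfl]
    cases i
    · rw [gam2_comm] at hμ ⊢
      refine le_trans (le_of_eq ?_) (hg.swap.p_sq_le P.ν_pos.le P.l_pos hνl hV2 hμ)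
      simp only [Bool.not_false]
      ring
    · refine le_trans (le_of_eq ?_) (hg.p_sq_le P.ν_pos.le P.l_pos hνl hV2 hμ)
      simp only [Bool.not_true]
      ring

/-- The quantities bounded on the box of admissible values. -/
theorem exists_box_bound (P : Prm M) : ∃ N : ℝ, 0 ≤ N ∧ ∀ w a b V : ℝ, w ∈ Set.Icc 0 1 →
    a ∈ Set.Icc P.g P.Λ → b ∈ Set.Icc P.g P.Λ → V ∈ Set.Icc P.l 6 →
    let D := max (DF P.κ (gam2 a b) w) P.b1
    let m := √(omF P.κ w * D / (gam2 a b * V))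
    let F := m * m * ((1 + 7 * uF P.κ w) * gam2 a b)
    |m| ≤ N ∧ |D| ≤ N ∧ |F| ≤ N ∧ |thF P.κ w * F| ≤ N ∧ |sF P.κ w * gpart a b| ≤ N ∧
      |V * sF P.κ w * gpart a b / D + P.ν| ≤ N ∧ |m * pR P.κ P.ν D V w a b| ≤ N := by
  set K : Set (ℝ × ℝ × ℝ × ℝ) :=
    Set.Icc 0 1 ×ˢ Set.Icc P.g P.Λ ×ˢ Set.Icc P.g P.Λ ×ˢ Set.Icc P.l 6 with hK
  have hKc : IsCompact K := isCompact_Icc.prod (isCompact_Icc.prod (isCompact_Icc.prod isCompact_Icc))
  have hab : ∀ q ∈ K, q.2.1 + q.2.2.1 ≠ 0 := by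
    rintro ⟨w, a, b, V⟩ ⟨-, ⟨ha, -⟩, ⟨hb, -⟩, -⟩
    exact (add_pos (P.g_pos.trans_le ha) (P.g_pos.trans_le hb)).ne'
  have hgV : ∀ q ∈ K, gam2 q.2.1 q.2.2.1 * q.2.2.2 ≠ 0 := by
    rintro ⟨w, a, b, V⟩ ⟨-, ⟨ha, -⟩, ⟨hb, -⟩, ⟨hV, -⟩⟩
    exact (mul_pos (gam2_pos (P.g_pos.trans_le ha) (P.g_pos.trans_le hb))
      (P.l_pos.trans_le hV)).ne'
  have cw : ∀ f : ℝ → ℝ, Continuous f → ContinuousOn (fun q : ℝ × ℝ × ℝ × ℝ => f q.1) K :=
    fun f hf => (hf.comp continuous_fst).continuousOn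
  have c1 := cw _ (continuous_s1 P.κ_pos)
  have c2 := cw _ (continuous_sF P.κ_pos)
  have c3 := cw _ (continuous_omF P.κ)
  have c4 := cw _ (continuous_uF P.κ_pos)
  have c5 := cw _ (continuous_thF P.κ_pos)
  have ca : ContinuousOn (fun q : ℝ × ℝ × ℝ × ℝ => q.2.1) K := by fun_prop
  have cb : ContinuousOn (fun q : ℝ × ℝ × ℝ × ℝ => q.2.2.1) K := by fun_prop
  have cV : ContinuousOn (fun q : ℝ × ℝ × ℝ × ℝ => q.2.2.2) K := by fun_prop
  have cΓ : ContinuousOn (fun q : ℝ × ℝ × ℝ × ℝ => gam2 q.2.1 q.2.2.1) K := by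
    unfold gam2
    exact ((continuousOn_const.mul ca).mul cb).div (ca.add cb) hab
  have cg : ContinuousOn (fun q : ℝ × ℝ × ℝ × ℝ => gpart q.2.1 q.2.2.1) K := by
    unfold gpart
    exact (continuousOn_const.mul (cb.pow 2)).div ((ca.add cb).pow 2)
      fun q hq => pow_ne_zero 2 (hab q hq)
  have cD : ContinuousOn (fun q : ℝ × ℝ × ℝ × ℝ =>
      max (DF P.κ (gam2 q.2.1 q.2.2.1) q.1) P.b1) K := by
    unfold DF
    exact ContinuousOn.sup (continuousOn_const.sub (cΓ.mul c1)) continuousOn_const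
  have hD : ∀ q : ℝ × ℝ × ℝ × ℝ, max (DF P.κ (gam2 q.2.1 q.2.2.1) q.1) P.b1 ≠ 0 :=
    fun q => (lt_max_of_lt_right P.b1_pos).ne'
  have cm := ((c3.mul cD).div (cΓ.mul cV) hgV).sqrt
  have cF := (cm.mul cm).mul ((continuousOn_const (c := (1 : ℝ))).add
    ((continuousOn_const (c := (7 : ℝ))).mul c4) |>.mul cΓ)
  have cA := ((cV.mul c2).mul cg).div cD (fun q _ => hD q) |>.add (continuousOn_const (c := P.ν))
  have cp : ContinuousOn (fun q : ℝ × ℝ × ℝ × ℝ => pR P.κ P.ν
      (max (DF P.κ (gam2 q.2.1 q.2.2.1) q.1) P.b1) q.2.2.2 q.1 q.2.1 q.2.2.1) K := by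
    unfold pR aR
    exact ((cV.div cD fun q _ => hD q).mul ((c1.mul cg).sub
      (((((continuousOn_const.mul c2).mul ca).mul (cb.pow 2)).mul (ca.sub cb)).div
        ((ca.add cb).pow 3) fun q hq => pow_ne_zero 3 (hab q hq)))).add
      ((continuousOn_const.mul ca).mul cA)
  obtain ⟨N, hN⟩ := hKc.exists_bound_of_continuousOn
    ((((((cm.abs).add cD.abs).add cF.abs).add (c5.mul cF).abs).add (c2.mul cg).abs).add cA.abs
      |>.add (cm.mul cp).abs)
  refine ⟨max N 0, le_max_right _ _, fun w a b V hw ha hb hV => ?_⟩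
  have h := (le_abs_self _).trans (hN (w, a, b, V) ⟨hw, ha, hb, hV⟩) |>.trans (le_max_left N 0)
  simp only [Pi.mul_apply, Pi.add_apply, Pi.div_apply] at h
  intro D m F
  refine ⟨?_, ?_, ?_, ?_, ?_, ?_, ?_⟩ <;> refine le_trans ?_ h <;>
    linarith [abs_nonneg m, abs_nonneg D, abs_nonneg F, abs_nonneg (thF P.κ w * F),
      abs_nonneg (sF P.κ w * gpart a b), abs_nonneg (V * sF P.κ w * gpart a b / D + P.ν),
      abs_nonneg (m * pR P.κ P.ν D V w a b)]

/-- The uniform bound on the coefficients. -/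
theorem exists_bound (hP : P.Ok C) :
    ∃ N : ℝ, 0 ≤ N ∧ ∀ s : Col M X, s.Ok P C → P.Window s → P.Bounded s →
      ‖P.μ C s‖ ≤ N ∧ ‖s.act * P.Dc C s‖ ≤ N ∧ ‖P.Ffn C s‖ ≤ N ∧ ‖P.θc s * P.Ffn C s‖ ≤ N ∧
      ∀ i, ‖s.act * P.sc s * P.gp C s i‖ ≤ N ∧ ‖(s.G i : M)‖ ≤ N ∧ ‖P.zaz C s i‖ ≤ N ∧
        ‖P.qFn C s i‖ ≤ N := by
  obtain ⟨N0, hN0, hbox⟩ := exists_box_bound P
  have hΛ : 0 ≤ P.Λ := P.g_pos.le.trans P.g_le
  refine ⟨N0 + P.Λ + 2 * P.Λ * (N0 + P.ν) * (2 * P.Λ), by have := P.ν_pos; positivity,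
    fun s hs hw hb => ?_⟩
  have hνp := P.ν_pos
  have hNN : N0 ≤ N0 + P.Λ + 2 * P.Λ * (N0 + P.ν) * (2 * P.Λ) := by
    nlinarith [mul_nonneg (mul_nonneg hΛ (by linarith : 0 ≤ N0 + P.ν)) hΛ]
  have hW : ∀ x, s.W x ∈ Set.Icc (0 : ℝ) 1 := fun x =>
    ⟨(hs.W_mem x).1, (hs.W_mem x).2.trans (by unfold Prm.Wa; linarith [P.κ_pos])⟩
  have hc : ∀ i x, P.gc C s i x ∈ Set.Icc P.g P.Λ := fun i x =>
    ⟨le_max_right _ _, max_le (γ_bounds hb i x).2 P.g_le⟩
  have hV : ∀ x, P.Vt C s x ∈ Set.Icc P.l 6 := fun x =>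
    ⟨Vt_ge s x, max_le (by linarith [(V_bounds hP hs.G_nonneg true x).2,
      (V_bounds hP hs.G_nonneg false x).2]) (by linarith [P.l_le])⟩
  have hB := fun (i : Bool) (x : X) =>
    hbox (s.W x) (P.gc C s i x) (P.gc C s (!i) x) (P.Vt C s x) (hW x) (hc i x) (hc (!i) x) (hV x)
  have hg1 : ∀ x, |P.good C s x| ≤ 1 := fun x => by
    rcases good_01 hs x with h | h <;> simp [h]
  have ha1 : ∀ x, |s.act x| ≤ 1 := fun x => by
    rcases hs.act_01 x with h | h <;> simp [h]
  have hsym : ∀ i x, gam2 (P.gc C s i x) (P.gc C s (!i) x) = P.Γc C s x := fun i x => by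
    cases i
    · exact gam2_comm _ _
    · rfl
  have le1 : ∀ {p t : ℝ}, |p| ≤ 1 → |t| ≤ N0 → |p * t| ≤ N0 := fun {p t} hp ht => by
    rw [abs_mul]; exact (mul_le_of_le_one_left (abs_nonneg t) hp).trans ht
  have hDc : ∀ i x, max (DF P.κ (gam2 (P.gc C s i x) (P.gc C s (!i) x)) (s.W x)) P.b1
      = P.Dc C s x := fun i x => by rw [hsym]; rfl
  have hmu : ∀ i x, P.μ C s x = P.good C s x * √(omF P.κ (s.W x)
      * max (DF P.κ (gam2 (P.gc C s i x) (P.gc C s (!i) x)) (s.W x)) P.b1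
      / (gam2 (P.gc C s i x) (P.gc C s (!i) x) * P.Vt C s x)) := fun i x => by
    rw [hDc, hsym]; rfl
  have hFN : ∀ x, |P.Ffn C s x| ≤ N0 ∧ |P.θc s x * P.Ffn C s x| ≤ N0 := fun x => by
    rw [Ffn_apply]
    rcases good_01 hs x with h | h
    · simp [μ_of_not_good h, hN0]
    · obtain ⟨-, -, h3, h4, -⟩ := hB true x
      rw [hmu true x, h, one_mul, ← hsym true x]
      exact ⟨h3, h4⟩
  refine ⟨?_, ?_, ?_, ?_, fun i => ⟨?_, ?_, ?_, ?_⟩⟩
  · refine (Tracial.norm_le_of_abs hN0 fun x => ?_).trans hNN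
    rw [hmu true x]
    exact le1 (hg1 x) (hB true x).1
  · refine (Tracial.norm_le_of_abs hN0 fun x => ?_).trans hNN
    rw [ContinuousMap.mul_apply, ← hDc true x]
    exact le1 (ha1 x) (hB true x).2.1
  · exact (Tracial.norm_le_of_abs hN0 fun x => (hFN x).1).trans hNN
  · exact (Tracial.norm_le_of_abs hN0 fun x => (hFN x).2).trans hNN
  · refine (Tracial.norm_le_of_abs hN0 fun x => ?_).trans hNN
    rw [ContinuousMap.mul_apply, ContinuousMap.mul_apply, mul_assoc]
    exact le1 (ha1 x) (hB i x).2.2.2.2.1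
  · refine (Core.norm_le_of_nonneg_le hΛ (hs.G_nonneg i) (hb i).2).trans ?_
    nlinarith [mul_nonneg (mul_nonneg hΛ (by linarith : 0 ≤ N0 + P.ν)) hΛ]
  · have hGn := Core.norm_le_of_nonneg_le hΛ (hs.G_nonneg i) (hb i).2
    have hz : ‖C.zG (s.G i : M)‖ ≤ 2 * P.Λ := by
      refine (norm_sub_le _ _).trans ?_
      have h1 := (C.norm_r_le _).trans (C.norm_Er_le (IsSelfAdjoint.of_nonneg (hs.G_nonneg i)))
      linarith
    have ha : ‖C.r (P.aFn C s i)‖ ≤ N0 + P.ν := by
      refine (C.norm_r_le _).trans (Tracial.norm_le_of_abs (by linarith) fun x => ?_)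
      rw [aFn_apply]
      rcases hs.act_01 x with h | h
      · simp [h, abs_of_pos hνp, hN0]
      · have h5 := (hB i x).2.2.2.2.2.1
        rw [hDc] at h5
        refine le_trans (le_of_eq ?_) (h5.trans (by linarith))
        rw [h, one_mul, div_eq_mul_inv]; rfl
    refine le_trans ?_ (le_add_of_nonneg_left (by linarith : 0 ≤ N0 + P.Λ))
    refine (norm_mul_le _ _).trans (mul_le_mul ?_ hz (norm_nonneg _) (by positivity))
    exact (norm_mul_le _ _).trans (mul_le_mul hz ha (norm_nonneg _) (by positivity))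
  · refine (Tracial.norm_le_of_abs hN0 fun x => ?_).trans hNN
    rw [qFn, ContinuousMap.mul_apply, hmu i x, mul_assoc]
    refine le1 (hg1 x) ?_
    have h7 := (hB i x).2.2.2.2.2.2
    rw [show P.pFn C s i x = pR P.κ P.ν
      (max (DF P.κ (gam2 (P.gc C s i x) (P.gc C s (!i) x)) (s.W x)) P.b1) (P.Vt C s x) (s.W x)
      (P.gc C s i x) (P.gc C s (!i) x) by rw [hDc]; rfl]
    exact h7

theorem ig_exc_le (hP : P.Ok C) {s : Col M X} (hs : s.Ok P C) :
    2 * (C.ig (P.exc C s true) + C.ig (P.exc C s false)) ≤ P.pot C s := by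
  have h : ∀ i, 2 * C.ig (P.exc C s i)
      ≤ C.tr (cfc (f P.u2 P.sm P.l) (P.mat C s i)) + P.ν * C.tr (s.G i : M) := fun i => by
    have hcf : Continuous fun t : ℝ => max (t - P.u2) 0 := by fun_prop
    have h1 : cfc (fun t : ℝ => 2 * max (t - P.u2) 0) (P.mat C s i)
        ≤ cfc (f P.u2 P.sm P.l) (P.mat C s i) :=
      cfc_mono (fun t ht => f_ge_posPart P.l_pos.le (spectrum_nonneg_of_nonneg (mat_nonneg hP hs i) ht))
        (by fun_prop) continuous_f.continuousOn
    rw [cfc_const_mul (2 : ℝ) _ _ hcf.continuousOn] at h1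
    have h2 := C.tr_mono h1
    rw [C.tr_smul] at h2
    simp only [exc]
    rw [C.ig_Er IsSelfAdjoint.cfc]
    linarith [mul_nonneg P.ν_pos.le (C.tr_nonneg (hs.G_nonneg i))]
  rw [pot, Fintype.sum_bool]
  linarith [h true, h false]

/-- The active points with small excess carry the budget. -/
theorem budget (hP : P.Ok C) {r : ℕ} {s : Config2 M X r} (hs : StateOk P C s)
    (hw : ∀ c, P.Window (col s c)) (hb : ∀ c, P.Bounded (col s c)) :
    P.S * C.ig s.U ≤ 11 / 5 * (∑ c, C.ig (P.good C (col s c) * s.W c * P.uc (col s c)))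
      + 30 / P.κ * P.Psi C s := by
  have hκ := P.κ_pos
  have hpt : ∀ c, C.ig (s.b c) ≤ 11 / 5 * C.ig (P.good C (col s c) * s.W c * P.uc (col s c))
      + 30 / P.κ * P.pot C (col s c) := fun c => by
    have hc := hs.col c
    have h1 : s.b c ≤ (11 / 5 : ℝ) • (P.good C (col s c) * s.W c * P.uc (col s c))
        + (20 / P.κ) • (P.exc C (col s c) true + P.exc C (col s c) false) := by
      refine ContinuousMap.le_def.2 fun x => ?_
      simp only [ContinuousMap.add_apply, ContinuousMap.smul_apply, ContinuousMap.mul_apply,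
        smul_eq_mul]
      have e0 : 0 ≤ P.exc C (col s c) true x + P.exc C (col s c) false x :=
        add_nonneg (exc_nonneg _ _ _) (exc_nonneg _ _ _)
      have e1 : 0 ≤ 20 / P.κ * (P.exc C (col s c) true x + P.exc C (col s c) false x) := by
        positivity
      have hwu : 0 ≤ s.W c x * P.uc (col s c) x :=
        mul_nonneg (hs.W_mem c x).1 (uc_nonneg _ _)
      have hg0 : 0 ≤ P.good C (col s c) x := by
        rcases good_01 hc x with h | h <;> simp [h]
      rcases hs.act_01 c x with ha | ha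
      · have := hs.b_drop c x ha
        nlinarith [mul_nonneg hg0 hwu]
      obtain ⟨hT, -, -⟩ := window_bounds hc (hw c) (hb c) (x := x) ha
      rcases good_01 hc x with h | h
      · have hbig : P.κ / 20 < P.exc C (col s c) true x + P.exc C (col s c) false x := by
          by_contra hle
          exact absurd ((good_of_small (s := col s c) ha (not_lt.1 hle)).symm.trans h) one_ne_zero
        have h2 : 1 ≤ 20 / P.κ * (P.exc C (col s c) true x + P.exc C (col s c) false x) := by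
          rw [div_mul_eq_mul_div, le_div_iff₀ hκ]; linarith
        have h3 := TF_le hκ P.κ_le (Γc_pos (P := P) (C := C) (col s c) x).le
          (hc.W_mem x).1 (hc.W_mem x).2
        have h4 : s.W c x ≤ 1 := (hs.W_mem c x).2.trans (by unfold Prm.Wa; linarith)
        simp only [col] at hT h3 ⊢
        simp only [col] at h h2
        rw [h]
        linarith [P.b1_pos]
      · have h3 := (goodPt hP hc (hw c) (hb c) h).T_le
        rw [(at_good hP hc (hw c) (hb c) h).1] at hT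
        simp only [col, uc, ContinuousMap.coe_mk] at hT h3 e1 h ⊢
        rw [h]
        linarith [P.b1_pos]
    have h2 := C.ig_mono h1
    rw [C.ig_add, C.ig_smul, C.ig_smul, C.ig_add] at h2
    have h3 := ig_exc_le hP hc
    have h4 := mul_le_mul_of_nonneg_left h3 (by positivity : (0 : ℝ) ≤ 10 / P.κ)
    have h5 : 10 / P.κ * P.pot C (col s c) ≤ 30 / P.κ * P.pot C (col s c) := by
      refine mul_le_mul_of_nonneg_right ?_ (pot_nonneg hP hc)
      gcongr; norm_num
    have e : 10 / P.κ * (2 * (C.ig (P.exc C (col s c) true) + C.ig (P.exc C (col s c) false)))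
        = 20 / P.κ * (C.ig (P.exc C (col s c) true) + C.ig (P.exc C (col s c) false)) := by ring
    linarith
  have h := Finset.sum_le_sum fun c (_ : c ∈ Finset.univ) => hpt c
  rw [← C.ig_sum, hs.b_sum, C.ig_smul, Finset.sum_add_distrib, ← Finset.mul_sum,
    ← Finset.mul_sum] at h
  exact h

end Prm

end Vale.Agent.P078.Tracial.Two
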