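import Vale.Agent.P078.Tracial.Two.Stationary
import Vale.Agent.P078.Tracial.Two.Facts

/-! The decomposition of the second order change along the expectation. -/

namespace Vale.Agent.P078.Tracial.Two

set_option linter.unusedSectionVars false

open Filter Topology ComplexOrder

variable {M X : Type*} [CStarAlgebra M] [PartialOrder M] [StarOrderedRing M]
variable [TopologicalSpace X] [CompactSpace X] [T2Space X] [TotallyDisconnectedSpace X]
variable {C : Core M X} {P : Prm M}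

/-- The resolvent conjugate of a function split along the expectation. -/
lemma conj_r_eq {G : M} (a : C(X, ℝ)) :
    G * C.r a * G = C.r (C.Er G ^ 2 * a) + C.r (C.Er G * a) * C.zG G
      + C.zG G * C.r (C.Er G * a) + C.zG G * C.r a * C.zG G := by
  rw [show C.zG G * C.r (C.Er G * a) = C.zG G * (C.r a * C.r (C.Er G)) by
      rw [← C.r_mul, mul_comm a],
    show C.Er G ^ 2 * a = C.Er G * a * C.Er G by ring, C.r_mul (C.Er G * a),
    C.r_mul (C.Er G) a, show C.zG G = G - C.r (C.Er G) from rfl]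
  noncomm_ring

/-- The expectation of the resolvent conjugate. -/
lemma Er_conj_r {G : M} (a : C(X, ℝ)) :
    C.Er (G * C.r a * G) = C.Er G ^ 2 * a + C.Er (C.zG G * C.r a * C.zG G) := by
  rw [conj_r_eq, C.Er_add, C.Er_add, C.Er_add, C.Er_r, C.Er_r_mul, C.Er_mul_r, C.Er_zG]
  ring

lemma Kz_eq_add (G : M) (k : C(X, ℝ)) : C.K G k = C.Er G ^ 2 * k + C.Kz G k := by
  simp [Core.Kz]

/-- The trace of the resolvent conjugate against a cell. -/
lemma tr_conj_r {G : M} (hG : IsSelfAdjoint G) (a k : C(X, ℝ)) :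
    C.tr (G * C.r a * G * (C.r k * G * C.r k)) =
      C.ig (C.Er G ^ 3 * a * (k * k) + (2 : ℝ) • (C.Er G * a * k * C.Kz G k))
        + C.tr (C.r k * G * C.r k * (C.zG G * C.r a * C.zG G)) := by
  have hz := C.zG_isSelfAdjoint hG
  have hGk : IsSelfAdjoint (C.r k * G * C.r k) := hG.conjugate_self (C.r_isSelfAdjoint k)
  have e1 : C.tr (C.r (C.Er G ^ 2 * a) * (C.r k * G * C.r k)) =
      C.ig (C.Er G ^ 3 * a * (k * k)) := by
    rw [C.tr_r_mul _ hGk, C.Er_bimod]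
    congr 1; ring
  set w := C.Er G * a
  have z1 : ∀ f : C(X, ℝ), C.tr (C.r f * C.zG G) = 0 := fun f => by
    rw [C.tr_r_mul _ hz, C.Er_zG, mul_zero, C.ig_zero]
  have z2 : C.tr (C.r (k * w) * (C.zG G * C.r k * C.zG G)) = C.ig (w * k * C.Kz G k) := by
    rw [C.tr_r_mul _ ((C.r_isSelfAdjoint k).conjugate_self hz), ← C.Kz_eq hG, mul_comm k w]
  have e2 : C.tr (C.r w * C.zG G * (C.r k * G * C.r k)) = C.ig (w * k * C.Kz G k) := by
    rw [show C.r w * C.zG G * (C.r k * G * C.r k) =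
      C.r w * C.zG G * C.r (k * C.Er G * k) + C.r w * C.zG G * C.r k * C.zG G * C.r k by
        simp only [C.r_mul, w, show C.zG G = G - C.r (C.Er G) from rfl]
        noncomm_ring, C.tr_add]
    rw [C.tr_cycle, ← C.r_mul, z1, zero_add, C.tr_cycle (C.r w * C.zG G * C.r k) (C.zG G) (C.r k),
      ← z2]
    simp only [C.r_mul, mul_assoc]
  have e3 : C.tr (C.zG G * C.r w * (C.r k * G * C.r k)) = C.ig (w * k * C.Kz G k) := by
    rw [C.tr_comm, show C.r k * G * C.r k * (C.zG G * C.r w) =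
      C.r (k * C.Er G * k) * C.zG G * C.r w + C.r k * C.zG G * C.r k * C.zG G * C.r w by
        simp only [C.r_mul, w, show C.zG G = G - C.r (C.Er G) from rfl]
        noncomm_ring, C.tr_add]
    rw [C.tr_cycle, ← C.r_mul, z1, zero_add, C.tr_cycle (C.r k * C.zG G * C.r k) (C.zG G) (C.r w),
      ← z2, mul_comm k w]
    simp only [C.r_mul, mul_assoc]
  rw [conj_r_eq, add_mul, add_mul, add_mul, C.tr_add, C.tr_add, C.tr_add, e1, e2, e3,
    C.tr_comm (C.zG G * C.r a * C.zG G), C.ig_add, C.ig_smul]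
  ring

/-- The linearised second order change of the harmonic mean. -/
lemma dgam2_le {a b : ℝ} (ha : 0 < a) (hb : 0 < b) (k za zb : ℝ) :
    dgam2 a b (a ^ 2 * k + za) (b ^ 2 * k + zb) ≤
      -(2 * a ^ 2 * b ^ 2 * (a - b) ^ 2 * (k * k)) / (a + b) ^ 3
        - 4 * a * b ^ 2 * (a - b) / (a + b) ^ 3 * k * za
        - 4 * b * a ^ 2 * (b - a) / (a + b) ^ 3 * k * zb := by
  have h : (0 : ℝ) < (a + b) ^ 3 := by positivity
  have key : -(2 * (b * (a ^ 2 * k + za) - a * (b ^ 2 * k + zb)) ^ 2) ≤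
      -(2 * a ^ 2 * b ^ 2 * (a - b) ^ 2 * (k * k)) - 4 * a * b ^ 2 * (a - b) * k * za
        - 4 * b * a ^ 2 * (b - a) * k * zb := by
    nlinarith [sq_nonneg (b * za - a * zb)]
  unfold dgam2
  rw [div_le_iff₀ h]
  refine key.trans (le_of_eq ?_)
  field_simp

lemma norm_conj_le {s : Col M X} (hs : s.Ok P C) (hb : P.Bounded s) (i : Bool) {k : C(X, ℝ)}
    {B : ℝ} (hB : ‖k‖ ≤ B) : ‖C.r k * (s.G i : M) * C.r k‖ ≤ B * P.Λ * B := by
  have hB0 : 0 ≤ B := (norm_nonneg _).trans hB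
  have hΛ : 0 ≤ P.Λ := P.g_pos.le.trans P.g_le
  have hG : ‖(s.G i : M)‖ ≤ P.Λ := Core.norm_le_of_nonneg_le hΛ (hs.G_nonneg i) (hb i).2
  have hr : ‖C.r k‖ ≤ B := (C.norm_r_le k).trans hB
  exact (norm_mul_le _ _).trans (mul_le_mul ((norm_mul_le _ _).trans
    (mul_le_mul hr hG (norm_nonneg _) hB0)) hr (norm_nonneg _) (mul_nonneg hB0 hΛ))

/-- Stationarity applied to twice an element. -/
lemma exists_stationary_half (hP : P.Ok C) (R : ℝ) :
    ∃ Cst : ℝ, 0 ≤ Cst ∧ ∃ t0 : ℝ, 0 < t0 ∧ ∀ s : Col M X, s.Ok P C → P.Window s →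
      P.Bounded s → ∀ (i : Bool) (Z : M), IsSelfAdjoint Z → ‖Z‖ ≤ R →
      ∀ t ζ : ℝ, 0 < t → t ≤ t0 → P.ColMin C s ζ →
      C.tr (P.dmat C s i * Z)
        ≤ C.tr ((s.G i : M) * C.r (P.aFn C s i) * (s.G i : M) * Z) + (ζ / t + Cst * t) / 2 := by
  obtain ⟨Cst, hC, t0, ht0, h⟩ := exists_stationary hP (2 * R)
  refine ⟨Cst, hC, t0, ht0, fun s hs hw hb i Z hZ hn t ζ ht htt hm => ?_⟩
  have h2 := h s hs hw hb i ((2 : ℝ) • Z) ((IsSelfAdjoint.all _).smul hZ)
    (by rw [norm_smul, Real.norm_ofNat]; linarith) t ζ ht htt hm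
  rw [mul_smul_comm, mul_smul_comm, C.tr_smul, C.tr_smul] at h2
  linarith

/-- The second order change is at most the decomposed quadratic form. -/
theorem exists_second_le (hP : P.Ok C) (B : ℝ) :
    ∃ Cst : ℝ, 0 ≤ Cst ∧ ∃ t0 : ℝ, 0 < t0 ∧ ∀ s : Col M X, s.Ok P C → P.Window s →
      P.Bounded s → ∀ t ζ : ℝ, 0 < t → t ≤ t0 → P.ColMin C s ζ →
      ∀ v : C(X, ℝ), ‖P.μ C s * v‖ ≤ B →
      P.second C s (P.μ C s * v) ≤ P.quad1 C s v + ζ / t + Cst * t := by
  obtain ⟨Cst, hC, t0, ht0, h⟩ := exists_stationary_half hP (B * P.Λ * B)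
  refine ⟨Cst, hC, t0, ht0, fun s hs hw hb t ζ ht htt hm v hv => ?_⟩
  set k := P.μ C s * v with hk
  have hloss : ∀ i, P.loss C s i k ≤
      C.ig (P.γ C s i ^ 3 * P.aFn C s i * (k * k)
          + (2 : ℝ) • (P.γ C s i * P.aFn C s i * k * C.Kz (s.G i : M) k))
        + C.tr (C.r k * (s.G i : M) * C.r k * P.zaz C s i) + (ζ / t + Cst * t) / 2 := by
    intro i
    have hG := IsSelfAdjoint.of_nonneg (hs.G_nonneg i)
    have h1 := h s hs hw hb i _ (hG.conjugate_self (C.r_isSelfAdjoint k))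
      (norm_conj_le hs hb i hv) t ζ ht htt hm
    rw [tr_conj_r hG] at h1
    rw [Prm.loss, C.tr_comm]
    exact h1
  set c := s.act * P.Vt C s * P.iD C s
  have hpt : ∀ x, (c * ((1 / 2 : ℝ) • (P.Γc C s * P.s2c s * (k * k))
        + P.s1c s * k * P.dΓ C s k + P.sc s * P.d2Γ C s k)) x
      + ∑ i, (P.γ C s i ^ 3 * P.aFn C s i * (k * k)
          + (2 : ℝ) • (P.γ C s i * P.aFn C s i * k * C.Kz (s.G i : M) k)) x
      ≤ -(P.psi C s * (v * v)) x + ∑ i, (P.qFn C s i * v * C.Kz (s.G i : M) k) x := by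
    intro x
    rcases hs.act_01 x with hx | hx
    · have hμ : P.μ C s x = 0 := by
        have := congrArg (fun f : C(X, ℝ) => f x) (Prm.μ_act (P := P) (C := C) hs)
        simpa [hx] using this.symm
      simp [c, hx, hk, hμ, Prm.psi, psiR, Prm.qFn]
    have hK : ∀ i, C.K (s.G i : M) k x =
        P.γ C s i x ^ 2 * k x + C.Kz (s.G i : M) k x := fun i => by
      rw [Kz_eq_add]; rfl
    have hsc : 0 ≤ P.sc s x := sF_nonneg P.κ_pos P.κ_le (hs.W_mem x).1 (hs.W_mem x).2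
    have hc : 0 ≤ c x := by
      simp only [c, hx, ContinuousMap.mul_apply, Prm.iD, ContinuousMap.coe_mk, one_mul]
      exact mul_nonneg (P.l_pos.le.trans (le_max_right _ _)) (inv_nonneg.2 (P.Dc_pos C s x).le)
    have hd2 := dgam2_le (P.gc_pos C s true x) (P.gc_pos C s false x) (k x)
      (C.Kz (s.G true : M) k x) (C.Kz (s.G false : M) k x)
    have hab := P.gc_sum_ne C s true false x
    rw [Prm.gc_eq hb, Prm.gc_eq hb] at hd2 hab
    have hd3 := mul_le_mul_of_nonneg_left (mul_le_mul_of_nonneg_left hd2 hsc) hc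
    set rest := c x * (((1 / 2 : ℝ) • (P.Γc C s * P.s2c s * (k * k))
        + P.s1c s * k * P.dΓ C s k) x)
      + ∑ i, (P.γ C s i ^ 3 * P.aFn C s i * (k * k)
          + (2 : ℝ) • (P.γ C s i * P.aFn C s i * k * C.Kz (s.G i : M) k)) x with hrest
    refine le_trans (le_of_eq ?_) ((add_le_add_left hd3 rest).trans (le_of_eq ?_))
    · simp only [hrest, Prm.d2Γ, Prm.gc_eq hb, hK, ContinuousMap.add_apply, ContinuousMap.mul_apply,
        ContinuousMap.coe_mk]
      ring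
    · simp only [hrest, c, Prm.dΓ, Prm.psi, Prm.qFn, Prm.pFn, Prm.aFn, Prm.sc, Prm.s1c, Prm.s2c,
        Prm.Γc, Prm.gp, Prm.iD, Prm.gc_eq hb, hK, hx, Fintype.sum_bool, Bool.not_true,
        Bool.not_false, ContinuousMap.add_apply, ContinuousMap.mul_apply, ContinuousMap.pow_apply,
        ContinuousMap.smul_apply, ContinuousMap.coe_mk, ContinuousMap.const_apply, smul_eq_mul,
        psiR, pR, aR, gpart, gam2]
      rw [show k x = P.μ C s x * v x from rfl]
      rw [show P.γ C s false x + P.γ C s true x = P.γ C s true x + P.γ C s false x from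
        add_comm _ _]
      field_simp
      ring
  have h1 := C.ig_mono (f := c * ((1 / 2 : ℝ) • (P.Γc C s * P.s2c s * (k * k))
        + P.s1c s * k * P.dΓ C s k + P.sc s * P.d2Γ C s k)
      + ∑ i, (P.γ C s i ^ 3 * P.aFn C s i * (k * k)
          + (2 : ℝ) • (P.γ C s i * P.aFn C s i * k * C.Kz (s.G i : M) k)))
    (g := -(P.psi C s * (v * v)) + ∑ i, P.qFn C s i * v * C.Kz (s.G i : M) k)
    (ContinuousMap.le_def.2 fun x => by simpa using hpt x)
  simp only [C.ig_add, C.ig_neg, C.ig_sum] at h1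
  have hl := Finset.sum_le_sum fun i (_ : i ∈ (Finset.univ : Finset Bool)) => hloss i
  simp only [Prm.second, Prm.quad1, ← hk, Fintype.sum_bool, C.ig_add] at h1 hl ⊢
  linarith

/-- The diagonal of the loss operators at an approximate minimiser. -/
theorem exists_zaz_le (hP : P.Ok C) (B : ℝ) :
    ∃ Cst : ℝ, 0 ≤ Cst ∧ ∃ t0 : ℝ, 0 < t0 ∧ ∀ s : Col M X, s.Ok P C → P.Window s →
      P.Bounded s → ∀ t ζ : ℝ, 0 < t → t ≤ t0 → P.ColMin C s ζ →
      ∀ F : C(X, ℝ), ‖F‖ ≤ B →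
      C.ig (F * ∑ i, C.Er (P.zaz C s i))
        ≤ C.ig (F * ∑ i, (P.V C s i - P.γ C s i ^ 2 * P.aFn C s i)) + ζ / t + Cst * t := by
  obtain ⟨Cst, hC, t0, ht0, h⟩ := exists_stationary_half hP B
  refine ⟨Cst, hC, t0, ht0, fun s hs hw hb t ζ ht htt hm F hF => ?_⟩
  have hi : ∀ i, C.ig (F * C.Er (P.zaz C s i)) ≤
      C.ig (F * (P.V C s i - P.γ C s i ^ 2 * P.aFn C s i)) + (ζ / t + Cst * t) / 2 := by
    intro i
    have hG := IsSelfAdjoint.of_nonneg (hs.G_nonneg i)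
    have h1 := h s hs hw hb i (-C.r F) (C.r_isSelfAdjoint F).neg
      (by rw [norm_neg]; exact (C.norm_r_le F).trans hF) t ζ ht htt hm
    rw [mul_neg, mul_neg, C.tr_neg, C.tr_neg, C.tr_comm, C.tr_comm _ (C.r F),
      C.tr_r_mul F (z := P.dmat C s i) IsSelfAdjoint.cfc, C.tr_r_mul F ((C.r_isSelfAdjoint _).conjugate_self hG),
      Er_conj_r] at h1
    simp only [Prm.zaz, Prm.V, Prm.γ, mul_sub, mul_add, C.ig_sub, C.ig_add] at h1 ⊢
    linarith
  have := Finset.sum_le_sum fun i (_ : i ∈ (Finset.univ : Finset Bool)) => hi i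
  simp only [Fintype.sum_bool, mul_add, C.ig_add] at this ⊢
  linarith

end Vale.Agent.P078.Tracial.Two
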