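import Vale.Agent.P078.Tracial.Two.Profile
import Vale.Agent.P078.Tracial.Two.Kz
import Vale.Agent.P078.Tracial.Clean

/-! The states and the potential of the one-shot argument with two signs. -/

namespace Vale.Agent.P078.Tracial.Two

set_option linter.unusedSectionVars false

open Filter Topology ComplexOrder
open Scalar (f f' continuous_f continuous_f' le_f' f'_le f_convex f_nonneg)

/-- The sign of an index. -/
def sg (i : Bool) : ℝ := if i then 1 else -1

/-- The parameters: the element, its bound, the budget and the barrier. -/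
structure Prm (M : Type*) where
  y : M
  β : ℝ
  S : ℝ
  sm : ℝ
  l : ℝ
  ν : ℝ
  g : ℝ
  Λ : ℝ
  β_pos : 0 < β
  β_le : β ≤ 1 / 10000
  S_ge : 30 ≤ S
  sm_pos : 0 < sm
  l_pos : 0 < l
  l_le : l ≤ 1
  ν_pos : 0 < ν
  ν_le : ν ≤ l * (6 * β ^ 2) ^ 3
  g_pos : 0 < g
  g_le : g ≤ Λ

/-- A colouring in progress. -/
structure Config2 (M X : Type*) [Monoid M] [TopologicalSpace X] (r : ℕ) where
  ass : Fin r → C(X, ℝ)
  act : Fin r → C(X, ℝ)
  b : Fin r → C(X, ℝ)
  W : Fin r → C(X, ℝ)
  G : Fin r → Bool → Mˣ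

/-- The data of one colour. -/
structure Col (M X : Type*) [Monoid M] [TopologicalSpace X] where
  act : C(X, ℝ)
  ass : C(X, ℝ)
  b : C(X, ℝ)
  W : C(X, ℝ)
  G : Bool → Mˣ

/-- The unassigned set. -/
noncomputable def Config2.U {M X : Type*} [Monoid M] [TopologicalSpace X] {r : ℕ}
    (s : Config2 M X r) : C(X, ℝ) := 1 - ∑ c, s.ass c

/-- One colour of a state. -/
def col {M X : Type*} [Monoid M] [TopologicalSpace X] {r : ℕ} (s : Config2 M X r) (c : Fin r) :
    Col M X :=
  ⟨s.act c, s.ass c, s.b c, s.W c, s.G c⟩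

namespace Prm

variable {M : Type*} (P : Prm M)

/-- The scale of the excess. -/
noncomputable def κ : ℝ := 6 * P.β ^ 2

/-- The lower margin of the budget. -/
noncomputable def b1 : ℝ := P.κ / 8

/-- The level of the barrier. -/
noncomputable def u2 : ℝ := 1 + P.β

/-- The cap of the weight. -/
noncomputable def Wa : ℝ := 1 - 10000 * P.κ

/-- The window of the weight. -/
noncomputable def Wm : ℝ := 1 - 15000 * P.κ

/-- The weight of an assigned colour. -/
noncomputable def Wf : ℝ := 1 - 20000 * P.κ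

theorem κ_pos : 0 < P.κ := by unfold κ; have := P.β_pos; positivity

theorem κ_le : 10000 * P.κ ≤ 1 / 100 := by
  unfold κ; nlinarith [P.β_pos, P.β_le, mul_le_mul P.β_le P.β_le P.β_pos.le (by norm_num)]

theorem b1_pos : 0 < P.b1 := by unfold b1; linarith [P.κ_pos]

end Prm

variable {M X : Type*} [CStarAlgebra M] [PartialOrder M] [StarOrderedRing M]
variable [TopologicalSpace X] [CompactSpace X] [T2Space X] [TotallyDisconnectedSpace X]

/-- The hypotheses on the element. -/
structure Prm.Ok (P : Prm M) (C : Core M X) : Prop where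
  y_sa : IsSelfAdjoint P.y
  Er_y : C.Er P.y = 0
  norm_y : ‖P.y‖ ≤ P.β

/-- The constraint on the weight of an active point. -/
def Prm.Inv (P : Prm M) (C : Core M X) (s : Col M X) : Prop :=
  ∀ x, s.act x = 1 → s.W x = P.Wa ∨
    s.b x + 2 * P.b1 ≤ TF P.κ (gam2 (C.Er (s.G true : M) x) (C.Er (s.G false : M) x)) (s.W x)

/-- Validity of the data of one colour. -/
structure Col.Ok (s : Col M X) (P : Prm M) (C : Core M X) : Prop where
  act_01 : ∀ x, s.act x = 0 ∨ s.act x = 1
  ass_01 : ∀ x, s.ass x = 0 ∨ s.ass x = 1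
  act_b : ∀ x, s.act x = 1 → -P.b1 ≤ s.b x
  W_mem : ∀ x, 0 ≤ s.W x ∧ s.W x ≤ P.Wa
  G_nonneg : ∀ i, 0 ≤ (s.G i : M)
  inv : P.Inv C s

/-- Validity of a state. -/
structure StateOk {r : ℕ} (P : Prm M) (C : Core M X) (s : Config2 M X r) : Prop where
  ass_01 : ∀ c x, s.ass c x = 0 ∨ s.ass c x = 1
  act_01 : ∀ c x, s.act c x = 0 ∨ s.act c x = 1
  U_01 : ∀ x, s.U x = 0 ∨ s.U x = 1
  act_le : ∀ c x, s.act c x ≤ s.U x
  b_sum : ∑ c, s.b c = P.S • s.U
  b_supp : ∀ c x, s.U x = 0 → s.b c x = 0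
  b_drop : ∀ c x, s.act c x = 0 → s.b c x ≤ 0
  b_act : ∀ c x, s.act c x = 1 → -P.b1 ≤ s.b c x
  W_mem : ∀ c x, 0 ≤ s.W c x ∧ s.W c x ≤ P.Wa
  G_nonneg : ∀ c i, 0 ≤ (s.G c i : M)
  inv : ∀ c, P.Inv C (col s c)

theorem StateOk.col {r : ℕ} {P : Prm M} {C : Core M X} {s : Config2 M X r} (h : StateOk P C s)
    (c : Fin r) : (Two.col s c).Ok P C :=
  ⟨h.act_01 c, h.ass_01 c, h.b_act c, h.W_mem c, h.G_nonneg c, h.inv c⟩

namespace Prm

variable (P : Prm M) (C : Core M X)

/-- The diagonal of one resolvent. -/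
noncomputable def γ (_P : Prm M) (C : Core M X) (s : Col M X) (i : Bool) : C(X, ℝ) :=
  C.Er (s.G i : M)

/-- The diagonal clamped from below. -/
noncomputable def gc (s : Col M X) (i : Bool) : C(X, ℝ) :=
  ⟨fun x => max (P.γ C s i x) P.g, by fun_prop⟩

theorem gc_pos (s : Col M X) (i : Bool) (x : X) : 0 < P.gc C s i x :=
  lt_max_of_lt_right P.g_pos

theorem gc_sum_ne (s : Col M X) (i j : Bool) (x : X) : P.gc C s i x + P.gc C s j x ≠ 0 :=
  (add_pos (P.gc_pos C s i x) (P.gc_pos C s j x)).ne'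

/-- The harmonic mean of the diagonals. -/
noncomputable def Γc (s : Col M X) : C(X, ℝ) :=
  ⟨fun x => gam2 (P.gc C s true x) (P.gc C s false x), by
    unfold gam2
    exact Continuous.div (by fun_prop) (by fun_prop) fun x => P.gc_sum_ne C s _ _ x⟩

/-- The derivative of the harmonic mean in one diagonal. -/
noncomputable def gp (s : Col M X) (i : Bool) : C(X, ℝ) :=
  ⟨fun x => gpart (P.gc C s i x) (P.gc C s (!i) x), by
    unfold gpart
    exact Continuous.div (by fun_prop) (by fun_prop) fun x =>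
      pow_ne_zero 2 (P.gc_sum_ne C s _ _ x)⟩

/-- The profile at the weight. -/
noncomputable def sc (s : Col M X) : C(X, ℝ) :=
  ⟨fun x => sF P.κ (s.W x), (continuous_sF P.κ_pos).comp (map_continuous s.W)⟩

/-- The derivative of the profile at the weight. -/
noncomputable def s1c (s : Col M X) : C(X, ℝ) :=
  ⟨fun x => s1 P.κ (s.W x), (continuous_s1 P.κ_pos).comp (map_continuous s.W)⟩

/-- The second derivative of the profile at the weight. -/
noncomputable def s2c (s : Col M X) : C(X, ℝ) :=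
  ⟨fun x => s2 P.κ (s.W x), (continuous_s2 P.κ_pos).comp (map_continuous s.W)⟩

/-- The scale `κ / ξ` at the weight. -/
noncomputable def uc (s : Col M X) : C(X, ℝ) :=
  ⟨fun x => uF P.κ (s.W x), (continuous_uF P.κ_pos).comp (map_continuous s.W)⟩

/-- The balancing factor at the weight. -/
noncomputable def θc (s : Col M X) : C(X, ℝ) :=
  ⟨fun x => thF P.κ (s.W x), (continuous_thF P.κ_pos).comp (map_continuous s.W)⟩

/-- The derivative of the level function, clamped from below. -/
noncomputable def Dc (s : Col M X) : C(X, ℝ) :=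
  ⟨fun x => max (DF P.κ (P.Γc C s x) (s.W x)) P.b1, by
    have h1 : Continuous fun x => s1 P.κ (s.W x) :=
      (continuous_s1 P.κ_pos).comp (map_continuous s.W)
    unfold DF
    exact (continuous_const.sub ((map_continuous _).mul h1)).max continuous_const⟩

theorem Dc_pos (s : Col M X) (x : X) : 0 < P.Dc C s x := lt_max_of_lt_right P.b1_pos

/-- The inverse of the derivative of the level function. -/
noncomputable def iD (s : Col M X) : C(X, ℝ) :=
  ⟨fun x => (P.Dc C s x)⁻¹, (map_continuous (P.Dc C s)).inv₀ fun x => (P.Dc_pos C s x).ne'⟩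

/-- The weight of one colour. -/
noncomputable def wt (s : Col M X) : C(X, ℝ) := s.act * s.W + P.Wf • s.ass

/-- The matrix of one colour and one sign. -/
noncomputable def mat (s : Col M X) (i : Bool) : M :=
  (↑(s.G i)⁻¹ : M) + algebraMap ℝ M P.β + sg i • P.y + C.r (P.wt s)

/-- The potential of one colour. -/
noncomputable def pot (s : Col M X) : ℝ :=
  ∑ i, (C.tr (cfc (f P.u2 P.sm P.l) (P.mat C s i)) + P.ν * C.tr (s.G i : M))

/-- The total potential. -/
noncomputable def Psi {r : ℕ} (s : Config2 M X r) : ℝ := ∑ c, P.pot C (col s c)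

/-- The derivative of the barrier at the matrix of one colour and one sign. -/
noncomputable def dmat (s : Col M X) (i : Bool) : M := cfc (f' P.u2 P.sm P.l) (P.mat C s i)

/-- The density of the derivative of the barrier. -/
noncomputable def V (s : Col M X) (i : Bool) : C(X, ℝ) := C.Er (P.dmat C s i)

/-- The total density, clamped from below. -/
noncomputable def Vt (s : Col M X) : C(X, ℝ) :=
  ⟨fun x => max (P.V C s true x + P.V C s false x) P.l, by fun_prop⟩

/-- The excess over the level. -/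
noncomputable def exc (s : Col M X) (i : Bool) : C(X, ℝ) :=
  C.Er (cfc (fun t => max (t - P.u2) 0) (P.mat C s i))

/-- The density of the stationary operator. -/
noncomputable def aFn (s : Col M X) (i : Bool) : C(X, ℝ) :=
  s.act * P.Vt C s * P.sc s * P.gp C s i * P.iD C s + ContinuousMap.const X P.ν

/-- The loss operator. -/
noncomputable def zaz (s : Col M X) (i : Bool) : M :=
  C.zG (s.G i : M) * C.r (P.aFn C s i) * C.zG (s.G i : M)

theorem exists_goodSet (s : Col M X) : ∃ V : Set X, IsClopen V ∧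
    {x | P.exc C s true x + P.exc C s false x ≤ P.κ / 20} ⊆ V ∧
    V ⊆ {x | P.exc C s true x + P.exc C s false x < P.κ / 10} :=
  exists_clopen_of_closed_subset_open
    (isClosed_le (by fun_prop) continuous_const) (isOpen_lt (by fun_prop) continuous_const)
    (by intro x hx; simp only [Set.mem_ofPred_eq] at hx ⊢; linarith [P.κ_pos])

/-- The active points with small excess. -/
noncomputable def good (s : Col M X) : C(X, ℝ) :=
  s.act * ind _ (P.exists_goodSet C s).choose_spec.1

/-- The scale of the noise. -/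
noncomputable def μ (s : Col M X) : C(X, ℝ) :=
  P.good C s * ⟨fun x => √(omF P.κ (s.W x) * P.Dc C s x / (P.Γc C s x * P.Vt C s x)), by
    refine Real.continuous_sqrt.comp (Continuous.div ?_ (by fun_prop) fun x => ?_)
    · exact ((continuous_omF P.κ).comp (map_continuous s.W)).mul (map_continuous _)
    · have h1 := P.gc_pos C s true x
      have h2 := P.gc_pos C s false x
      have h3 : 0 < P.Γc C s x := by
        show 0 < gam2 (P.gc C s true x) (P.gc C s false x)
        unfold gam2; positivity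
      exact (mul_pos h3 (lt_max_of_lt_right P.l_pos)).ne'⟩

/-- The kernel of the coefficient of the cross term. -/
noncomputable def pFn (s : Col M X) (i : Bool) : C(X, ℝ) :=
  ⟨fun x => pR P.κ P.ν (P.Dc C s x) (P.Vt C s x) (s.W x) (P.gc C s i x) (P.gc C s (!i) x), by
    have h1 : Continuous fun x => s1 P.κ (s.W x) :=
      (continuous_s1 P.κ_pos).comp (map_continuous s.W)
    have h2 : Continuous fun x => sF P.κ (s.W x) :=
      (continuous_sF P.κ_pos).comp (map_continuous s.W)
    have h3 := fun x => (P.Dc_pos C s x).ne'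
    have h4 := fun x => P.gc_sum_ne C s i (!i) x
    have h6 := fun x (n : ℕ) => pow_ne_zero n (h4 x)
    unfold pR aR gpart
    fun_prop (disch := first | exact h3 | exact h4 | exact fun x => h6 x _)⟩

/-- The coefficient of the cross term. -/
noncomputable def qFn (s : Col M X) (i : Bool) : C(X, ℝ) := P.μ C s * P.pFn C s i

/-- The negated coefficient of the squared noise. -/
noncomputable def psi (s : Col M X) : C(X, ℝ) :=
  ⟨fun x => psiR P.κ P.ν (P.Dc C s x) (P.Vt C s x) (s.W x) (P.gc C s true x) (P.gc C s false x)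
      (P.μ C s x * P.μ C s x), by
    have h1 : Continuous fun x => s1 P.κ (s.W x) :=
      (continuous_s1 P.κ_pos).comp (map_continuous s.W)
    have h1' : Continuous fun x => s2 P.κ (s.W x) :=
      (continuous_s2 P.κ_pos).comp (map_continuous s.W)
    have h2 : Continuous fun x => sF P.κ (s.W x) :=
      (continuous_sF P.κ_pos).comp (map_continuous s.W)
    have h3 := fun x => (P.Dc_pos C s x).ne'
    have h4 := fun x => P.gc_sum_ne C s true false x
    have h5 := fun x => P.gc_sum_ne C s false true x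
    have h6 := fun x (n : ℕ) => pow_ne_zero n (h4 x)
    have h7 := fun x (n : ℕ) => pow_ne_zero n (h5 x)
    unfold psiR aR gpart gam2
    fun_prop (disch := first | exact h3 | exact h4 | exact h5 | exact fun x => h6 x _ | exact fun x => h7 x _)⟩

/-- The weight of the stationary limit. -/
noncomputable def Ffn (s : Col M X) : C(X, ℝ) :=
  P.μ C s * P.μ C s * ((1 + (7 : ℝ) • P.uc s) * P.Γc C s)

/-- The induced change of the harmonic mean. -/
noncomputable def dΓ (s : Col M X) (k : C(X, ℝ)) : C(X, ℝ) :=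
  ∑ i, P.gp C s i * C.K (s.G i : M) k

/-- The induced second order change of the harmonic mean. -/
noncomputable def d2Γ (s : Col M X) (k : C(X, ℝ)) : C(X, ℝ) :=
  ⟨fun x => dgam2 (P.gc C s true x) (P.gc C s false x) (C.K (s.G true : M) k x)
      (C.K (s.G false : M) k x), by
    have h4 := fun x => P.gc_sum_ne C s true false x
    unfold dgam2
    fun_prop (disch := exact fun x => pow_ne_zero _ (h4 x))⟩

/-- The direction of the budget. -/
noncomputable def dir (s : Col M X) (k h : C(X, ℝ)) : C(X, ℝ) :=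
  s.act * P.Dc C s * k - ∑ i, s.act * P.sc s * P.gp C s i * C.K (s.G i : M) k - s.act * h

/-- The linear part of the change of the potential of one colour. -/
noncomputable def lin (s : Col M X) (k h : C(X, ℝ)) : ℝ :=
  ∑ i, (C.tr (P.dmat C s i * (-C.r (s.act * P.iD C s * h)))
    + P.ν * C.tr ((s.G i : M) * C.r k * (s.G i : M)))

/-- The loss form of one colour and one sign. -/
noncomputable def loss (s : Col M X) (i : Bool) (k : C(X, ℝ)) : ℝ :=
  C.tr (C.r k * (s.G i : M) * C.r k * P.dmat C s i)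

/-- The second order change of the potential of one colour. -/
noncomputable def second (s : Col M X) (k : C(X, ℝ)) : ℝ :=
  (∑ i, P.loss C s i k) + C.ig (s.act * P.Vt C s * P.iD C s
    * ((1 / 2 : ℝ) • (P.Γc C s * P.s2c s * (k * k)) + P.s1c s * k * P.dΓ C s k
      + P.sc s * P.d2Γ C s k))

/-- The quadratic form after decomposition. -/
noncomputable def quad1 (s : Col M X) (v : C(X, ℝ)) : ℝ :=
  -C.ig (P.psi C s * (v * v)) + ∑ i, (C.tr (C.r (P.μ C s * v) * (s.G i : M) * C.r (P.μ C s * v)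
      * P.zaz C s i) + C.ig (P.qFn C s i * v * C.Kz (s.G i : M) (P.μ C s * v)))

/-- A colour whose active points are inside the window. -/
structure Window (s : Col M X) : Prop where
  low : ∀ x, s.act x = 1 → -P.b1 / 2 ≤ s.b x
  high : ∀ x, s.act x = 1 → s.W x ≤ P.Wm

/-- The resolvents lie between the two clipping levels. -/
def Bounded (s : Col M X) : Prop :=
  ∀ i, algebraMap ℝ M P.g ≤ (s.G i : M) ∧ (s.G i : M) ≤ algebraMap ℝ M P.Λ

/-- The colour is an approximate minimiser with its sets and budget fixed. -/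
def ColMin (s : Col M X) (ζ : ℝ) : Prop :=
  ∀ (W' : C(X, ℝ)) (G' : Bool → Mˣ), (⟨s.act, s.ass, s.b, W', G'⟩ : Col M X).Ok P C →
    P.pot C s ≤ P.pot C ⟨s.act, s.ass, s.b, W', G'⟩ + ζ

variable {P C}

theorem wt_nonneg {s : Col M X} (h : s.Ok P C) : 0 ≤ P.wt s := by
  refine ContinuousMap.le_def.2 fun x => ?_
  have hWf : 0 ≤ P.Wf := by unfold Prm.Wf; linarith [P.κ_le]
  have := (h.W_mem x).1
  rcases h.act_01 x with ha | ha <;> rcases h.ass_01 x with he | he <;>
    simp [wt, ha, he] <;> linarith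

theorem algebraMap_add_smul_nonneg (hP : P.Ok C) (i : Bool) :
    0 ≤ algebraMap ℝ M P.β + sg i • P.y := by
  have hsa : IsSelfAdjoint (sg i • P.y) := (IsSelfAdjoint.all _).smul hP.y_sa
  have hn : ‖sg i • P.y‖ ≤ P.β := by
    cases i <;> simpa [sg] using hP.norm_y
  have h1 := IsSelfAdjoint.neg_algebraMap_norm_le_self hsa
  have h2 : -algebraMap ℝ M P.β ≤ sg i • P.y :=
    (neg_le_neg (algebraMap_mono M hn)).trans h1
  exact neg_le_iff_add_nonneg'.1 h2

theorem mat_nonneg (hP : P.Ok C) {s : Col M X} (h : s.Ok P C) (i : Bool) :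
    0 ≤ P.mat C s i := by
  refine add_nonneg ?_ (C.r_nonneg (wt_nonneg h))
  rw [add_assoc]
  exact add_nonneg (Core.units_inv_nonneg (h.G_nonneg i)) (algebraMap_add_smul_nonneg hP i)

theorem mat_isSelfAdjoint (hP : P.Ok C) {s : Col M X} (h : ∀ i, 0 ≤ (s.G i : M)) (i : Bool) :
    IsSelfAdjoint (P.mat C s i) := by
  exact (((IsSelfAdjoint.of_nonneg (Core.units_inv_nonneg (h i))).add
    (IsSelfAdjoint.algebraMap M (.all P.β))).add ((IsSelfAdjoint.all _).smul hP.y_sa)).add
    (C.r_isSelfAdjoint _)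

theorem tr_f'_mul_ge {A Z : M} (hA : IsSelfAdjoint A) (hZ : 0 ≤ Z) :
    P.l * C.tr Z ≤ C.tr (cfc (f' P.u2 P.sm P.l) A * Z) := by
  have h : algebraMap ℝ M P.l ≤ cfc (f' P.u2 P.sm P.l) A :=
    algebraMap_le_cfc _ _ _ (fun x _ => le_f' P.sm_pos x) (continuous_f' P.sm_pos).continuousOn hA
  have := C.tr_mul_nonneg (sub_nonneg.2 h) hZ
  rw [sub_mul, C.tr_sub, Algebra.algebraMap_eq_smul_one, smul_mul_assoc, one_mul, C.tr_smul]
    at this
  linarith

theorem tr_f'_mul_le {A Z : M} (hA : IsSelfAdjoint A) (hZ : 0 ≤ Z) :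
    C.tr (cfc (f' P.u2 P.sm P.l) A * Z) ≤ (2 + P.l) * C.tr Z := by
  have h : cfc (f' P.u2 P.sm P.l) A ≤ algebraMap ℝ M (2 + P.l) :=
    cfc_le_algebraMap _ _ _ (fun x _ => f'_le P.sm_pos x) (continuous_f' P.sm_pos).continuousOn hA
  have := C.tr_mul_nonneg (sub_nonneg.2 h) hZ
  rw [sub_mul, C.tr_sub, Algebra.algebraMap_eq_smul_one, smul_mul_assoc, one_mul, C.tr_smul]
    at this
  linarith

theorem tr_f_sub_add_le {A D E : M} (hA : IsSelfAdjoint A) (hD : 0 ≤ D) (hE : 0 ≤ E) :
    C.tr (cfc (f P.u2 P.sm P.l) (A - D + E))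
      ≤ C.tr (cfc (f P.u2 P.sm P.l) A) - P.l * C.tr D + (2 + P.l) * C.tr E := by
  have hA' : IsSelfAdjoint (A - D + E) :=
    (hA.sub (IsSelfAdjoint.of_nonneg hD)).add (IsSelfAdjoint.of_nonneg hE)
  have h := C.klein_lower continuous_f (continuous_f' (l := P.l) P.sm_pos)
    (f_convex (u := P.u2) (l := P.l) P.sm_pos) hA' hA
  rw [show A - (A - D + E) = D - E by abel, mul_sub, C.tr_sub] at h
  linarith [tr_f'_mul_ge (P := P) (C := C) hA' hD, tr_f'_mul_le (P := P) (C := C) hA' hE]

theorem tr_f_mono {A B : M} (hB : IsSelfAdjoint B) (h : A ≤ B) :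
    C.tr (cfc (f P.u2 P.sm P.l) A) ≤ C.tr (cfc (f P.u2 P.sm P.l) B) := by
  have h' := tr_f_sub_add_le (P := P) (C := C) hB (sub_nonneg.2 h) (le_refl (0 : M))
  rw [show B - (B - A) + 0 = A by abel, C.tr_zero, mul_zero, add_zero] at h'
  nlinarith [C.tr_nonneg (sub_nonneg.2 h), P.l_pos]

theorem tr_f_add_le {A E : M} (hA : IsSelfAdjoint A) (hE : 0 ≤ E) :
    C.tr (cfc (f P.u2 P.sm P.l) (A + E))
      ≤ C.tr (cfc (f P.u2 P.sm P.l) A) + (2 + P.l) * C.tr E := by
  have h' := tr_f_sub_add_le (P := P) (C := C) hA (le_refl (0 : M)) hE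
  rw [show A - 0 + E = A + E by abel, C.tr_zero, mul_zero, sub_zero] at h'
  exact h'

theorem pot_nonneg (hP : P.Ok C) {s : Col M X} (h : s.Ok P C) : 0 ≤ P.pot C s := by
  refine Finset.sum_nonneg fun i _ => add_nonneg (C.tr_nonneg (cfc_nonneg fun x hx => ?_))
    (mul_nonneg P.ν_pos.le (C.tr_nonneg (h.G_nonneg i)))
  exact f_nonneg P.l_pos.le (spectrum_nonneg_of_nonneg (mat_nonneg hP h i) hx)

theorem Psi_nonneg (hP : P.Ok C) {r : ℕ} {s : Config2 M X r} (hs : StateOk P C s) :
    0 ≤ P.Psi C s := by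
  exact Finset.sum_nonneg fun c _ => pot_nonneg hP (hs.col c)

/-- A smaller weight gives a smaller potential. -/
theorem pot_mono (hP : P.Ok C) {s s' : Col M X} (hG : ∀ i, 0 ≤ (s.G i : M)) (he : s'.G = s.G)
    (h : P.wt s' ≤ P.wt s) : P.pot C s' ≤ P.pot C s := by
  unfold pot
  rw [he]
  refine Finset.sum_le_sum fun i _ => ?_
  gcongr
  refine tr_f_mono (mat_isSelfAdjoint hP hG i) ?_
  unfold mat
  rw [he]
  gcongr
  exact C.r_mono h

theorem dmat_nonneg (s : Col M X) (i : Bool) : 0 ≤ P.dmat C s i := by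
  exact cfc_nonneg fun t _ => P.l_pos.le.trans (le_f' P.sm_pos t)

theorem norm_dmat_le (s : Col M X) (i : Bool) : ‖P.dmat C s i‖ ≤ 3 := by
  refine norm_cfc_le (by norm_num) fun t _ => ?_
  rw [Real.norm_of_nonneg (P.l_pos.le.trans (le_f' P.sm_pos t))]
  linarith [f'_le (u := P.u2) (l := P.l) P.sm_pos t, P.l_le]

theorem V_bounds (hP : P.Ok C) {s : Col M X} (h : ∀ i, 0 ≤ (s.G i : M)) (i : Bool) (x : X) :
    P.l ≤ P.V C s i x ∧ P.V C s i x ≤ 3 := by
  have hA := mat_isSelfAdjoint hP h i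
  have h1 : algebraMap ℝ M P.l ≤ P.dmat C s i :=
    algebraMap_le_cfc _ _ _ (fun t _ => le_f' P.sm_pos t) (continuous_f' P.sm_pos).continuousOn hA
  have h2 : P.dmat C s i ≤ algebraMap ℝ M 3 :=
    cfc_le_algebraMap _ _ _ (fun t _ => by linarith [f'_le (u := P.u2) (l := P.l) P.sm_pos t, P.l_le])
      (continuous_f' P.sm_pos).continuousOn hA
  have e1 := ContinuousMap.le_def.1 (C.Er_mono h1) x
  have e2 := ContinuousMap.le_def.1 (C.Er_mono h2) x
  rw [C.Er_algebraMap, ContinuousMap.const_apply] at e1 e2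
  exact ⟨e1, e2⟩

theorem γ_bounds {s : Col M X} (h : P.Bounded s) (i : Bool) (x : X) :
    P.g ≤ P.γ C s i x ∧ P.γ C s i x ≤ P.Λ := by
  have e1 := ContinuousMap.le_def.1 (C.Er_mono (h i).1) x
  have e2 := ContinuousMap.le_def.1 (C.Er_mono (h i).2) x
  rw [C.Er_algebraMap, ContinuousMap.const_apply] at e1 e2
  exact ⟨e1, e2⟩

theorem gc_eq {s : Col M X} (h : P.Bounded s) (i : Bool) : P.gc C s i = P.γ C s i := by
  exact ContinuousMap.ext fun x => max_eq_left (γ_bounds h i x).1

/-- At an active point in the window the level function is above the margin. -/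
theorem window_bounds {s : Col M X} (hs : s.Ok P C) (hw : P.Window s) (hb : P.Bounded s) {x : X}
    (hx : s.act x = 1) :
    s.b x + 2 * P.b1 ≤ TF P.κ (P.Γc C s x) (s.W x) ∧ P.b1 ≤ s.W x ∧
      P.Dc C s x = DF P.κ (P.Γc C s x) (s.W x) := by
  have hκ := P.κ_pos
  have hW := hs.W_mem x
  have he : ∀ i, P.gc C s i x = C.Er (s.G i : M) x := fun i => by rw [gc_eq hb]; rfl
  have hΓ : P.Γc C s x = gam2 (C.Er (s.G true : M) x) (C.Er (s.G false : M) x) := by
    rw [← he, ← he]; rfl
  have hne : s.W x ≠ P.Wa := by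
    have := hw.high x hx
    unfold Prm.Wm Prm.Wa at *
    intro h; linarith
  have hT := (hs.inv x hx).resolve_left hne
  rw [← hΓ] at hT
  have hb0 := hs.act_b x hx
  have hΓ0 : 0 ≤ P.Γc C s x := (gam2_pos (P.gc_pos C s true x) (P.gc_pos C s false x)).le
  obtain ⟨h1, h2⟩ := le_DF hκ P.κ_le hΓ0 P.b1_pos hW.1 hW.2 (by linarith)
  exact ⟨hT, h1, max_eq_left h2⟩

end Prm

end Vale.Agent.P078.Tracial.Two
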