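import Mathlib

/-! The scalar profile of the one-shot argument with two signs. -/

namespace Vale.Agent.P078.Tracial.Two

/-- The clamped complement of the weight. -/
noncomputable def xi (κ w : ℝ) : ℝ := max (1 - w) (10000 * κ)

/-- The scale `κ / ξ`. -/
noncomputable def uF (κ w : ℝ) : ℝ := κ / xi κ w

/-- The weight of the squared noise. -/
noncomputable def omF (κ w : ℝ) : ℝ := w * (xi κ w * √(xi κ w)) / √κ

/-- The balancing factor of the cross term. -/
noncomputable def thF (κ w : ℝ) : ℝ := √(6 * uF κ w)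

/-- The correction of the profile. -/
noncomputable def hF (κ w : ℝ) : ℝ := κ * w + 100 * (κ * √κ) * (1 / √(xi κ w) - 1)

/-- Its derivative. -/
noncomputable def h1 (κ w : ℝ) : ℝ := κ + 50 * (κ * √κ) / (xi κ w * √(xi κ w))

/-- Its second derivative. -/
noncomputable def h2 (κ w : ℝ) : ℝ := 75 * (κ * √κ) / (xi κ w ^ 2 * √(xi κ w))

/-- The profile. -/
noncomputable def sF (κ w : ℝ) : ℝ := w * (1 - w) - hF κ w

/-- Its derivative. -/
noncomputable def s1 (κ w : ℝ) : ℝ := 1 - 2 * w - h1 κ w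

/-- Its second derivative. -/
noncomputable def s2 (κ w : ℝ) : ℝ := -2 - h2 κ w

/-- The level function. -/
noncomputable def TF (κ Γ w : ℝ) : ℝ := w - Γ * sF κ w

/-- Its derivative in the weight. -/
noncomputable def DF (κ Γ w : ℝ) : ℝ := 1 - Γ * s1 κ w

/-- The harmonic mean of the two diagonals. -/
noncomputable def gam2 (a b : ℝ) : ℝ := 2 * a * b / (a + b)

/-- The derivative of the harmonic mean in the first variable. -/
noncomputable def gpart (a b : ℝ) : ℝ := 2 * b ^ 2 / (a + b) ^ 2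

/-- The first order change of the harmonic mean. -/
noncomputable def dgam (a b k l : ℝ) : ℝ := gpart a b * k + gpart b a * l

/-- The second order change of the harmonic mean. -/
noncomputable def dgam2 (a b k l : ℝ) : ℝ := -(2 * (b * k - a * l) ^ 2) / (a + b) ^ 3

/-- The density of the stationary operator of the first sign. -/
noncomputable def aR (κ ν D V w a b : ℝ) : ℝ := V * sF κ w * gpart a b / D + ν

/-- The negated coefficient of the squared noise after decomposition. -/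
noncomputable def psiR (κ ν D V w a b μ2 : ℝ) : ℝ :=
  μ2 * (V / D * (gam2 a b * (-s2 κ w / 2) - s1 κ w * gam2 a b ^ 2
      + 2 * sF κ w * a ^ 2 * b ^ 2 * (a - b) ^ 2 / (a + b) ^ 3)
    - (a ^ 3 * aR κ ν D V w a b + b ^ 3 * aR κ ν D V w b a))

/-- The coefficient of the cross term of the first sign. -/
noncomputable def pR (κ ν D V w a b : ℝ) : ℝ :=
  V / D * (s1 κ w * gpart a b - 4 * sF κ w * a * b ^ 2 * (a - b) / (a + b) ^ 3)
    + 2 * a * aR κ ν D V w a b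

variable {κ w a b : ℝ}

theorem xi_pos (hκ : 0 < κ) (w : ℝ) : 0 < xi κ w := by
  unfold xi
  exact lt_max_of_lt_right (by positivity)

theorem continuous_xi (κ : ℝ) : Continuous (xi κ) := by unfold xi; fun_prop

theorem continuous_uF (hκ : 0 < κ) : Continuous (uF κ) := by
  unfold uF
  exact continuous_const.div (continuous_xi κ) fun w => (xi_pos hκ w).ne'

theorem continuous_omF (κ : ℝ) : Continuous (omF κ) := by
  unfold omF
  have := continuous_xi κ
  fun_prop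

theorem continuous_thF (hκ : 0 < κ) : Continuous (thF κ) := by
  unfold thF
  have := continuous_uF hκ
  fun_prop

theorem thF_pos (hκ : 0 < κ) (w : ℝ) : 0 < thF κ w := by
  unfold thF uF
  have := xi_pos hκ w
  exact Real.sqrt_pos.2 (by positivity)

theorem continuous_sF (hκ : 0 < κ) : Continuous (sF κ) := by
  have h := continuous_xi κ
  have hx := xi_pos hκ
  unfold sF hF
  fun_prop (disch := exact fun w => (Real.sqrt_pos.2 (hx w)).ne')

theorem continuous_s1 (hκ : 0 < κ) : Continuous (s1 κ) := by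
  have h := continuous_xi κ
  have hx := xi_pos hκ
  unfold s1 Two.h1
  fun_prop (disch := exact fun w => (mul_pos (hx w) (Real.sqrt_pos.2 (hx w))).ne')

theorem continuous_s2 (hκ : 0 < κ) : Continuous (s2 κ) := by
  have h := continuous_xi κ
  have hx := xi_pos hκ
  unfold s2 h2
  fun_prop (disch := exact fun w => (mul_pos (pow_pos (hx w) 2) (Real.sqrt_pos.2 (hx w))).ne')

theorem xi_eq (h1 : w ≤ 1 - 10000 * κ) : xi κ w = 1 - w := by
  unfold xi
  exact max_eq_left (by linarith)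

theorem hF_bounds (hκ : 0 < κ) (hκ1 : 10000 * κ ≤ 1 / 100) (h0 : 0 ≤ w)
    (hw : w ≤ 1 - 10000 * κ) : 0 ≤ hF κ w ∧ hF κ w ≤ w * (2 * κ) := by
  have e := xi_eq (κ := κ) hw
  unfold hF
  rw [e]
  have hx : 0 < 1 - w := by linarith
  set q := √(1 - w) with hq
  have hq0 : 0 < q := Real.sqrt_pos.2 hx
  have hq2 : q ^ 2 = 1 - w := Real.sq_sqrt hx.le
  set r := √κ with hr
  have hr0 : 0 < r := Real.sqrt_pos.2 hκ
  have hr2 : r ^ 2 = κ := Real.sq_sqrt hκ.le
  have hrq : 100 * r ≤ q := by nlinarith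
  have hq1 : q ≤ 1 := by nlinarith
  have hA : 0 ≤ 1 / q - 1 := by
    rw [sub_nonneg, le_div_iff₀ hq0]; linarith
  have hB : 1 / q - 1 ≤ w / q := by
    rw [div_sub_one hq0.ne', div_le_div_iff_of_pos_right hq0]; nlinarith
  constructor
  · have : 0 ≤ 100 * (κ * r) * (1 / q - 1) := by positivity
    nlinarith
  · have h : 100 * (κ * r) * (1 / q - 1) ≤ 100 * (κ * r) * (w / q) :=
      mul_le_mul_of_nonneg_left hB (by positivity)
    have h' : 100 * (κ * r) * (w / q) ≤ w * κ := by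
      have : 100 * r * (w / q) ≤ w := by
        rw [← mul_div_assoc, div_le_iff₀ hq0]; nlinarith
      nlinarith
    nlinarith

/-- The tangent of the profile lies above it. -/
theorem sF_tangent (hκ : 0 < κ) {w' : ℝ} (hw : w ≤ 1 - 10000 * κ)
    (hw' : w' ≤ 1 - 10000 * κ) : sF κ w' ≤ sF κ w + s1 κ w * (w' - w) := by
  have e := xi_eq (κ := κ) hw
  have e' := xi_eq (κ := κ) hw'
  unfold sF s1 hF Two.h1
  rw [e, e']
  have hx : 0 < 1 - w := by linarith
  have hx' : 0 < 1 - w' := by linarith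
  set p := √(1 - w) with hp
  set q := √(1 - w') with hq
  have hp0 : 0 < p := Real.sqrt_pos.2 hx
  have hq0 : 0 < q := Real.sqrt_pos.2 hx'
  have hp2 : p ^ 2 = 1 - w := Real.sq_sqrt hx.le
  have hq2 : q ^ 2 = 1 - w' := Real.sq_sqrt hx'.le
  have hd : w' - w = p ^ 2 - q ^ 2 := by linarith
  have key : 0 ≤ 1 / q - 1 / p - (p ^ 2 - q ^ 2) / (2 * (p ^ 2 * p)) := by
    have h : 1 / q - 1 / p - (p ^ 2 - q ^ 2) / (2 * (p ^ 2 * p))
        = (q - p) ^ 2 * (q + 2 * p) / (2 * p ^ 3 * q) := by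
      field_simp; ring
    rw [h]; positivity
  have hk : 0 ≤ 100 * (κ * √κ) := by positivity
  have h := mul_nonneg hk key
  have h2 : 50 * (κ * √κ) / ((1 - w) * p) * (w' - w)
      = 100 * (κ * √κ) * ((p ^ 2 - q ^ 2) / (2 * (p ^ 2 * p))) := by
    rw [hd, ← hp2]; field_simp; ring
  nlinarith [sq_nonneg (w' - w)]

theorem sF_nonneg (hκ : 0 < κ) (hκ1 : 10000 * κ ≤ 1 / 100) (h0 : 0 ≤ w)
    (h1 : w ≤ 1 - 10000 * κ) : 0 ≤ sF κ w := by
  have h := (hF_bounds hκ hκ1 h0 h1).2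
  unfold sF
  nlinarith [mul_nonneg h0 (by linarith : 0 ≤ 1 - w - 2 * κ)]

theorem sF_le (hκ : 0 < κ) (hκ1 : 10000 * κ ≤ 1 / 100) (h0 : 0 ≤ w)
    (h1 : w ≤ 1 - 10000 * κ) : sF κ w ≤ 1 / 4 := by
  have h := (hF_bounds hκ hκ1 h0 h1).1
  unfold sF
  nlinarith [sq_nonneg (w - 1 / 2)]

theorem TF_le (hκ : 0 < κ) (hκ1 : 10000 * κ ≤ 1 / 100) {Γ : ℝ} (hΓ : 0 ≤ Γ) (h0 : 0 ≤ w)
    (h1 : w ≤ 1 - 10000 * κ) : TF κ Γ w ≤ w := by
  have := mul_nonneg hΓ (sF_nonneg hκ hκ1 h0 h1)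
  unfold TF
  linarith

/-- The level function is convex in the weight. -/
theorem TF_tangent (hκ : 0 < κ) {Γ : ℝ} (hΓ : 0 ≤ Γ) {w' : ℝ} (h1 : w ≤ 1 - 10000 * κ)
    (h1' : w' ≤ 1 - 10000 * κ) : TF κ Γ w + DF κ Γ w * (w' - w) ≤ TF κ Γ w' := by
  have := mul_le_mul_of_nonneg_left (sF_tangent hκ h1 h1') hΓ
  unfold TF DF
  nlinarith

/-- The derivative is above the secant from the origin. -/
theorem TF_le_mul_DF (hκ : 0 < κ) (hκ1 : 10000 * κ ≤ 1 / 100) {Γ : ℝ} (hΓ : 0 ≤ Γ)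
    (h1 : w ≤ 1 - 10000 * κ) : TF κ Γ w ≤ w * DF κ Γ w := by
  have h0' : (0 : ℝ) ≤ 1 - 10000 * κ := by linarith
  have h := TF_tangent hκ hΓ h1 h0'
  have e : TF κ Γ 0 = 0 := by
    simp [TF, sF, hF, xi_eq h0']
  rw [e] at h
  linarith

theorem le_DF (hκ : 0 < κ) (hκ1 : 10000 * κ ≤ 1 / 100) {Γ c : ℝ} (hΓ : 0 ≤ Γ) (hc : 0 < c)
    (h0 : 0 ≤ w) (h1 : w ≤ 1 - 10000 * κ) (hT : c ≤ TF κ Γ w) : c ≤ w ∧ c ≤ DF κ Γ w := by
  have hw := TF_le hκ hκ1 hΓ h0 h1
  have hD := TF_le_mul_DF hκ hκ1 hΓ h1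
  refine ⟨hT.trans hw, ?_⟩
  have hD0 : 0 ≤ DF κ Γ w := by nlinarith
  nlinarith [mul_le_mul_of_nonneg_right (show w ≤ 1 by linarith) hD0]

theorem gam2_pos (ha : 0 < a) (hb : 0 < b) : 0 < gam2 a b := by
  unfold gam2
  positivity

theorem gam2_mono {a' b' : ℝ} (ha : 0 < a) (hb : 0 < b) (ha' : a ≤ a') (hb' : b ≤ b') :
    gam2 a b ≤ gam2 a' b' := by
  have ha0 := ha.trans_le ha'
  have hb0 := hb.trans_le hb'
  unfold gam2
  rw [div_le_div_iff₀ (by positivity) (by positivity)]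
  nlinarith [mul_nonneg (mul_nonneg ha.le ha0.le) (sub_nonneg.2 hb'),
    mul_nonneg (mul_nonneg hb.le hb0.le) (sub_nonneg.2 ha')]

theorem gam2_lip {a' b' : ℝ} (ha : 0 < a) (hb : 0 < b) (ha' : a ≤ a') (hb' : b ≤ b') :
    gam2 a' b' ≤ gam2 a b + 2 * ((a' - a) + (b' - b)) := by
  have ha0 := ha.trans_le ha'
  have hb0 := hb.trans_le hb'
  have e : gam2 a' b' - gam2 a b = 2 * (b' * b / ((a + b) * (a' + b'))) * (a' - a)
      + 2 * (a' * a / ((a + b) * (a' + b'))) * (b' - b) := by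
    unfold gam2; field_simp; ring
  have u : b' * b / ((a + b) * (a' + b')) ≤ 1 := by
    rw [div_le_one₀ (by positivity)]; nlinarith
  have v : a' * a / ((a + b) * (a' + b')) ≤ 1 := by
    rw [div_le_one₀ (by positivity)]; nlinarith
  nlinarith [mul_le_mul_of_nonneg_right u (sub_nonneg.2 ha'),
    mul_le_mul_of_nonneg_right v (sub_nonneg.2 hb')]

/-- The exact expansion of the harmonic mean. -/
theorem gam2_expand (k l : ℝ) (h : a + b ≠ 0) (h' : a + k + (b + l) ≠ 0) :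
    gam2 (a + k) (b + l) = gam2 a b + dgam a b k l
      - 2 * (b * k - a * l) ^ 2 / ((a + b) ^ 2 * (a + k + (b + l))) := by
  unfold gam2 dgam gpart
  rw [add_comm b a]
  field_simp
  ring

/-- Taylor bound of the inverse root. -/
theorem inv_sqrt_taylor {x : ℝ} (hx : |x| ≤ 1 / 2) :
    1 + x / 2 + 3 / 8 * x ^ 2 - |x| ^ 3 ≤ 1 / √(1 - x) := by
  have hx' := abs_le.1 hx
  have h1x : 0 < 1 - x := by linarith
  rw [le_div_iff₀ (Real.sqrt_pos.2 h1x)]
  have h0 : 0 ≤ 1 + x / 2 + 3 / 8 * x ^ 2 - |x| ^ 3 := by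
    have : |x| ^ 3 ≤ (1 / 2) ^ 3 := pow_le_pow_left₀ (abs_nonneg x) hx 3
    nlinarith [sq_nonneg x]
  rw [← Real.sqrt_sq h0, ← Real.sqrt_mul (sq_nonneg _)]
  refine Real.sqrt_le_one.2 ?_
  rcases le_total 0 x with hs | hs
  · rw [abs_of_nonneg hs]
    have : 0 ≤ x ^ 3 * (21 / 8 - 49 / 64 * x - 7 / 64 * x ^ 2 - 7 / 4 * x ^ 3 + x ^ 4) := by
      refine mul_nonneg (by positivity) ?_
      nlinarith [pow_le_pow_left₀ hs hx'.2 2, pow_le_pow_left₀ hs hx'.2 3, pow_nonneg hs 4]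
    nlinarith
  · rw [abs_of_nonpos hs]
    obtain ⟨t, rfl⟩ : ∃ t, x = -t := ⟨-x, by ring⟩
    have ht : 0 ≤ t := by linarith
    have ht' : t ≤ 1 / 2 := by linarith
    have : 0 ≤ t ^ 3 * (11 / 8 + 79 / 64 * t - 25 / 64 * t ^ 2 - 1 / 4 * t ^ 3 - t ^ 4) := by
      refine mul_nonneg (by positivity) ?_
      nlinarith [pow_le_pow_left₀ ht ht' 2, pow_le_pow_left₀ ht ht' 3, pow_le_pow_left₀ ht ht' 4]
    nlinarith

/-- The constant of the third order remainder of the profile. -/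
noncomputable def cubF (κ w : ℝ) : ℝ := 100 * (κ * √κ) / (√(xi κ w) * xi κ w ^ 3)

/-- Second order upper bound of the profile. -/
theorem sF_step (hκ : 0 < κ) {d : ℝ} (hw : w ≤ 1 - 10000 * κ) (hw' : w + d ≤ 1 - 10000 * κ)
    (hd : |d| ≤ (1 - w) / 2) :
    sF κ (w + d) ≤ sF κ w + s1 κ w * d + s2 κ w / 2 * d ^ 2 + cubF κ w * |d| ^ 3 := by
  have e := xi_eq (κ := κ) hw
  have e' := xi_eq (κ := κ) hw'
  unfold sF s1 s2 hF Two.h1 h2 cubF
  rw [e, e']
  have hx : 0 < 1 - w := by linarith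
  obtain ⟨x, rfl⟩ : ∃ x, d = x * (1 - w) := ⟨d / (1 - w), by field_simp⟩
  have hax : |x| ≤ 1 / 2 := by
    rw [abs_mul, abs_of_pos hx] at hd
    nlinarith
  have hT := inv_sqrt_taylor hax
  have hsp : √(1 - (w + x * (1 - w))) = √(1 - w) * √(1 - x) := by
    rw [← Real.sqrt_mul hx.le]; ring_nf
  rw [hsp, abs_mul, abs_of_pos hx]
  set p := √(1 - w) with hp
  have hp0 : 0 < p := Real.sqrt_pos.2 hx
  have hq0 : 0 < √(1 - x) := Real.sqrt_pos.2 (by linarith [(abs_le.1 hax).2])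
  have h := mul_le_mul_of_nonneg_left hT (show 0 ≤ 100 * (κ * √κ) / p by positivity)
  have e1 : 100 * (κ * √κ) * (1 / (p * √(1 - x)) - 1)
      = 100 * (κ * √κ) / p * (1 / √(1 - x)) - 100 * (κ * √κ) := by field_simp
  have e2 : 50 * (κ * √κ) / ((1 - w) * p) * (x * (1 - w)) = 100 * (κ * √κ) / p * (x / 2) := by
    field_simp; ring
  have e3 : 75 * (κ * √κ) / ((1 - w) ^ 2 * p) / 2 * (x * (1 - w)) ^ 2
      = 100 * (κ * √κ) / p * (3 / 8 * x ^ 2) := by field_simp; ring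
  have e4 : 100 * (κ * √κ) / (p * (1 - w) ^ 3) * (|x| * (1 - w)) ^ 3
      = 100 * (κ * √κ) / p * |x| ^ 3 := by field_simp
  have e5 : 100 * (κ * √κ) * (1 / p - 1) = 100 * (κ * √κ) / p - 100 * (κ * √κ) := by ring
  nlinarith

/-- The third order coefficient of the harmonic mean. -/
noncomputable def remG (a b k l η : ℝ) : ℝ :=
  2 * (b * k - a * l) ^ 2 * (k + l) / ((a + b) ^ 3 * (a + b + η * (k + l)))

/-- The third order coefficient of the level function. -/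
noncomputable def remP (κ w a b j k l q η : ℝ) : ℝ :=
  gam2 a b * (s2 κ w / 2) * (2 * j * q + η * q ^ 2)
    + dgam a b k l * (s1 κ w * q + s2 κ w / 2 * (j + η * q) ^ 2)
    + dgam2 a b k l * (s1 κ w * (j + η * q) + η * (s2 κ w / 2) * (j + η * q) ^ 2)
    + remG a b k l η * (sF κ w + s1 κ w * (η * j + η ^ 2 * q)
        + s2 κ w / 2 * (η * j + η ^ 2 * q) ^ 2)
    + gam2 (a + η * k) (b + η * l) * (cubF κ w * |j + η * q| ^ 3)

theorem TF_step_le (hκ : 0 < κ) {j k l q η : ℝ} (hw : w ≤ 1 - 10000 * κ)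
    (hw' : w + (η * j + η ^ 2 * q) ≤ 1 - 10000 * κ)
    (hd : |η * j + η ^ 2 * q| ≤ (1 - w) / 2) (hη : 0 ≤ η) (ha : 0 < a) (hb : 0 < b)
    (ha' : 0 < a + η * k) (hb' : 0 < b + η * l) :
    TF κ (gam2 a b) w + η * (DF κ (gam2 a b) w * j - sF κ w * dgam a b k l)
        + η ^ 2 * (DF κ (gam2 a b) w * q - gam2 a b * s2 κ w / 2 * j ^ 2
            - s1 κ w * j * dgam a b k l - sF κ w * dgam2 a b k l)
        - η ^ 3 * remP κ w a b j k l q η
      ≤ TF κ (gam2 (a + η * k) (b + η * l)) (w + η * j + η ^ 2 * q) := by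
  have hs := sF_step hκ hw hw' hd
  have hab : a + b ≠ 0 := (add_pos ha hb).ne'
  have hab' : a + η * k + (b + η * l) ≠ 0 := (add_pos ha' hb').ne'
  have hab'' : a + b + η * (k + l) ≠ 0 := by
    intro h; apply hab'; linarith
  have hG : gam2 (a + η * k) (b + η * l) = gam2 a b + η * dgam a b k l
      + η ^ 2 * dgam2 a b k l + η ^ 3 * remG a b k l η := by
    rw [gam2_expand _ _ hab hab']
    unfold remG dgam dgam2
    field_simp
    ring
  have hd3 : |η * j + η ^ 2 * q| ^ 3 = η ^ 3 * |j + η * q| ^ 3 := by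
    rw [show η * j + η ^ 2 * q = η * (j + η * q) by ring, abs_mul, abs_of_nonneg hη, mul_pow]
  have hmul := mul_le_mul_of_nonneg_left hs (gam2_pos ha' hb').le
  rw [hd3] at hmul
  rw [show w + η * j + η ^ 2 * q = w + (η * j + η ^ 2 * q) by ring]
  unfold TF DF remP
  rw [hG] at hmul ⊢
  linear_combination hmul

theorem remP_bound (hκ : 0 < κ) {g : ℝ} (hg : 0 < g) (Λ R η0 : ℝ)
    (hη0 : η0 * (|R| + 1) ≤ g / 2) :
    ∃ Cst : ℝ, ∀ w a b j k l q η : ℝ, w ∈ Set.Icc 0 1 → a ∈ Set.Icc g Λ → b ∈ Set.Icc g Λ →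
      |j| ≤ R → |k| ≤ R → |l| ≤ R → |q| ≤ R → η ∈ Set.Icc 0 η0 →
      remP κ w a b j k l q η ≤ Cst := by
  let P : (Fin 8 → ℝ) → ℝ := fun v => remP κ (v 0) (v 1) (v 2) (v 3) (v 4) (v 5) (v 6) (v 7)
  let lo : Fin 8 → ℝ := ![0, g, g, -R, -R, -R, -R, 0]
  let hi : Fin 8 → ℝ := ![1, Λ, Λ, R, R, R, R, η0]
  have hcont : ContinuousOn P (Set.Icc lo hi) := by
    intro v hv
    apply ContinuousAt.continuousWithinAt
    have h1 : g ≤ v 1 := hv.1 1
    have h2 : g ≤ v 2 := hv.1 2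
    have h4 : |v 4| ≤ |R| := (abs_le.2 ⟨hv.1 4, hv.2 4⟩).trans (le_abs_self R)
    have h5 : |v 5| ≤ |R| := (abs_le.2 ⟨hv.1 5, hv.2 5⟩).trans (le_abs_self R)
    have h7 : 0 ≤ v 7 := hv.1 7
    have h7' : v 7 ≤ η0 := hv.2 7
    have m4 : |v 7 * v 4| ≤ g / 2 := by
      rw [abs_mul, abs_of_nonneg h7]
      nlinarith [abs_nonneg R, abs_nonneg (v 4)]
    have m5 : |v 7 * v 5| ≤ g / 2 := by
      rw [abs_mul, abs_of_nonneg h7]
      nlinarith [abs_nonneg R, abs_nonneg (v 5)]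
    have hab : v 1 + v 2 ≠ 0 := by linarith
    have hab' : v 1 + v 7 * v 4 + (v 2 + v 7 * v 5) ≠ 0 := by
      linarith [(abs_le.1 m4).1, (abs_le.1 m5).1]
    have hab'' : v 1 + v 2 + v 7 * (v 4 + v 5) ≠ 0 := by
      intro h; apply hab'; linarith
    have hx := xi_pos hκ
    have hcub : Continuous (cubF κ) := by
      have h := continuous_xi κ
      unfold cubF
      fun_prop (disch := exact fun w => (mul_pos (Real.sqrt_pos.2 (hx w)) (pow_pos (hx w) 3)).ne')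
    have hv0 : ContinuousAt (fun v : Fin 8 → ℝ => v 0) v := (continuous_apply 0).continuousAt
    have c0 := (continuous_sF hκ).continuousAt.comp hv0
    have c1 := (continuous_s1 hκ).continuousAt.comp hv0
    have c2 := (continuous_s2 hκ).continuousAt.comp hv0
    have c3 := hcub.continuousAt.comp hv0
    have cg : ContinuousAt (fun v : Fin 8 → ℝ => gam2 (v 1) (v 2)) v := by
      unfold gam2; fun_prop (disch := assumption)
    have cg' : ContinuousAt (fun v : Fin 8 → ℝ => gam2 (v 1 + v 7 * v 4) (v 2 + v 7 * v 5)) v := by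
      unfold gam2; fun_prop (disch := assumption)
    have n1 : (v 1 + v 2) ^ 2 ≠ 0 := pow_ne_zero _ hab
    have n2 : (v 2 + v 1) ^ 2 ≠ 0 := by rw [add_comm]; exact n1
    have n3 : (v 1 + v 2) ^ 3 ≠ 0 := pow_ne_zero _ hab
    have n4 : (v 1 + v 2) ^ 3 * (v 1 + v 2 + v 7 * (v 4 + v 5)) ≠ 0 := mul_ne_zero n3 hab''
    have cd : ContinuousAt (fun v : Fin 8 → ℝ => dgam (v 1) (v 2) (v 4) (v 5)) v := by
      unfold dgam gpart
      exact (((continuousAt_const.mul ((continuous_apply 2).continuousAt.pow 2)).div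
        (((continuous_apply 1).continuousAt.add (continuous_apply 2).continuousAt).pow 2) n1).mul
        (continuous_apply 4).continuousAt).add
        (((continuousAt_const.mul ((continuous_apply 1).continuousAt.pow 2)).div
        (((continuous_apply 2).continuousAt.add (continuous_apply 1).continuousAt).pow 2) n2).mul
        (continuous_apply 5).continuousAt)
    have cd2 : ContinuousAt (fun v : Fin 8 → ℝ => dgam2 (v 1) (v 2) (v 4) (v 5)) v := by
      unfold dgam2; fun_prop (disch := assumption)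
    have cG : ContinuousAt (fun v : Fin 8 → ℝ => remG (v 1) (v 2) (v 4) (v 5) (v 7)) v := by
      unfold remG; fun_prop (disch := assumption)
    have ca (i : Fin 8) : ContinuousAt (fun v : Fin 8 → ℝ => v i) v :=
      (continuous_apply i).continuousAt
    have cjq : ContinuousAt (fun v : Fin 8 → ℝ => v 3 + v 7 * v 6) v := by fun_prop
    have cd' : ContinuousAt (fun v : Fin 8 → ℝ => v 7 * v 3 + v 7 ^ 2 * v 6) v := by fun_prop
    exact (((((cg.mul (c2.div_const 2)).mul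
      (((continuousAt_const.mul (ca 3)).mul (ca 6)).add ((ca 7).mul ((ca 6).pow 2)))).add
      (cd.mul ((c1.mul (ca 6)).add ((c2.div_const 2).mul (cjq.pow 2))))).add
      (cd2.mul ((c1.mul cjq).add (((ca 7).mul (c2.div_const 2)).mul (cjq.pow 2))))).add
      (cG.mul ((c0.add (c1.mul cd')).add ((c2.div_const 2).mul (cd'.pow 2))))).add
      (cg'.mul (c3.mul (cjq.abs.pow 3)))
  obtain ⟨Cst, hC⟩ := isCompact_Icc.exists_bound_of_continuousOn hcont
  refine ⟨Cst, fun w a b j k l q η hw ha hb hj hk hl hq hη => ?_⟩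
  obtain ⟨hj1, hj2⟩ := abs_le.1 hj
  obtain ⟨hk1, hk2⟩ := abs_le.1 hk
  obtain ⟨hl1, hl2⟩ := abs_le.1 hl
  obtain ⟨hq1, hq2⟩ := abs_le.1 hq
  have hv : ![w, a, b, j, k, l, q, η] ∈ Set.Icc lo hi := by
    constructor <;> intro i <;> fin_cases i <;>
      simp [lo, hi, hw.1, hw.2, ha.1, ha.2, hb.1, hb.2, hj1, hj2, hk1, hk2, hl1, hl2, hq1, hq2,
        hη.1, hη.2]
  exact (le_abs_self _).trans (hC _ hv)

/-- Second order bound of the level function in one step. -/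
theorem exists_TF_step (hκ : 0 < κ) (hκ1 : 10000 * κ ≤ 1 / 100) {g Λ : ℝ} (hg : 0 < g) (R : ℝ) :
    ∃ Cst : ℝ, 0 ≤ Cst ∧ ∃ η0 : ℝ, 0 < η0 ∧ ∀ w a b j k l q η : ℝ,
      0 ≤ w → w ≤ 1 - 15000 * κ → g ≤ a → a ≤ Λ → g ≤ b → b ≤ Λ →
      |j| ≤ R → |k| ≤ R → |l| ≤ R → |q| ≤ R → 0 ≤ η → η ≤ η0 →
      TF κ (gam2 a b) w + η * (DF κ (gam2 a b) w * j - sF κ w * dgam a b k l)
        + η ^ 2 * (DF κ (gam2 a b) w * q - gam2 a b * s2 κ w / 2 * j ^ 2
            - s1 κ w * j * dgam a b k l - sF κ w * dgam2 a b k l) - η ^ 3 * Cst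
        ≤ TF κ (gam2 (a + η * k) (b + η * l)) (w + η * j + η ^ 2 * q) := by
  set η0 := min 1 (min (2500 * κ / (|R| + 1)) (g / (2 * (|R| + 1)))) with hη0
  have hη0p : 0 < η0 := by positivity
  have hR1 : 0 < |R| + 1 := by positivity
  have hb0 : η0 * (|R| + 1) ≤ g / 2 := by
    have h : η0 ≤ g / 2 / (|R| + 1) := by
      rw [div_div]; exact (min_le_right _ _).trans (min_le_right _ _)
    rwa [le_div_iff₀ hR1] at h
  have ha0 : η0 * (|R| + 1) ≤ 2500 * κ := by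
    rw [← le_div_iff₀ hR1]; exact (min_le_right _ _).trans (min_le_left _ _)
  have h10 : η0 ≤ 1 := min_le_left _ _
  obtain ⟨Cst, hC⟩ := remP_bound hκ hg Λ R η0 hb0
  refine ⟨max Cst 0, le_max_right _ _, η0, hη0p, ?_⟩
  intro w a b j k l q η h0 hw hga haΛ hgb hbΛ hj hk hl hq hη hη'
  clear hη0
  clear_value η0
  have hP := (hC w a b j k l q η ⟨h0, by linarith⟩ ⟨hga, haΛ⟩ ⟨hgb, hbΛ⟩ hj hk hl hq
    ⟨hη, hη'⟩).trans (le_max_left Cst 0)
  have hRR := le_abs_self R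
  have hm : η * (|R| + 1) ≤ 2500 * κ := (mul_le_mul_of_nonneg_right hη' hR1.le).trans ha0
  have hm' : η * (|R| + 1) ≤ g / 2 := (mul_le_mul_of_nonneg_right hη' hR1.le).trans hb0
  have e1 : ∀ x : ℝ, |x| ≤ R → |η * x| ≤ η * (|R| + 1) := fun x hx => by
    rw [abs_mul, abs_of_nonneg hη]
    exact mul_le_mul_of_nonneg_left (by linarith) hη
  have eq' : |η ^ 2 * q| ≤ η * (|R| + 1) := by
    refine le_trans ?_ (e1 q hq)
    rw [abs_mul, abs_mul, abs_of_nonneg hη, abs_of_nonneg (sq_nonneg η)]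
    exact mul_le_mul_of_nonneg_right (by nlinarith) (abs_nonneg q)
  have hd : |η * j + η ^ 2 * q| ≤ 5000 * κ := by
    linarith [abs_add_le (η * j) (η ^ 2 * q), e1 j hj]
  have h := TF_step_le (w := w) (a := a) (b := b) (j := j) (k := k) (l := l) (q := q) (η := η)
    hκ (by linarith) (by linarith [(abs_le.1 hd).2]) (by linarith) hη (by linarith) (by linarith)
    (by linarith [(abs_le.1 (e1 k hk)).1]) (by linarith [(abs_le.1 (e1 l hl)).1])
  linarith [mul_le_mul_of_nonneg_left hP (pow_nonneg hη 3)]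

end Vale.Agent.P078.Tracial.Two
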