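import Vale.Agent.P078.Tracial.Two.Defs

/-! An approximate minimiser is approximately stationary. -/

namespace Vale.Agent.P078.Tracial.Two

set_option linter.unusedSectionVars false

open Filter Topology ComplexOrder
open Scalar (f f' continuous_f continuous_f' f_quad)

variable {M X : Type*} [CStarAlgebra M] [PartialOrder M] [StarOrderedRing M]
variable [TopologicalSpace X] [CompactSpace X] [T2Space X] [TotallyDisconnectedSpace X]
variable {C : Core M X} {P : Prm M}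

/-- A small move of the inverse of a bounded resolvent. -/
theorem exists_resolvent {G : Mˣ} {Λ R t : ℝ} (hΛ : 0 < Λ) (hG : 0 ≤ (G : M))
    (hGΛ : (G : M) ≤ algebraMap ℝ M Λ) {Z : M} (hZ : IsSelfAdjoint Z) (hZR : ‖Z‖ ≤ R)
    (ht : 0 ≤ t) (htR : t * R ≤ 1 / (2 * Λ)) :
    ∃ G' : Mˣ, (↑G'⁻¹ : M) = ↑G⁻¹ - t • Z ∧ 0 ≤ (G' : M) ∧ ‖(G' : M)‖ ≤ 2 * Λ ∧
      (G' : M) = G + t • ((G : M) * Z * G) + (t ^ 2) • ((G : M) * Z * G' * Z * G) := by
  let u : Mˣ := Units.map (algebraMap ℝ M).toMonoidHom (Units.mk0 Λ hΛ.ne')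
  have h1 : algebraMap ℝ M Λ⁻¹ ≤ (↑G⁻¹ : M) := by
    have h := CStarAlgebra.inv_le_inv (a := G) (b := u) hG (by simpa [u] using hGΛ)
    simpa [u] using h
  have htZ : t • Z ≤ algebraMap ℝ M (1 / (2 * Λ)) := by
    have h := smul_le_smul_of_nonneg_left (hZ.le_algebraMap_norm_self.trans
      (algebraMap_mono M hZR)) ht
    refine h.trans ?_
    rw [Algebra.smul_def, ← map_mul]
    exact algebraMap_mono M htR
  have h2 : algebraMap ℝ M (1 / (2 * Λ)) ≤ (↑G⁻¹ : M) - t • Z := by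
    refine le_trans ?_ (sub_le_sub h1 htZ)
    rw [← map_sub]
    exact algebraMap_mono M (le_of_eq (by field_simp; ring))
  have hc : (0 : ℝ) < 1 / (2 * Λ) := by positivity
  let v : Mˣ := Units.map (algebraMap ℝ M).toMonoidHom (Units.mk0 (1 / (2 * Λ)) hc.ne')
  have hv : (0 : M) ≤ (v : M) := by simpa [v] using algebraMap_nonneg M hc.le
  have hu : IsUnit ((↑G⁻¹ : M) - t • Z) :=
    CStarAlgebra.isUnit_of_le (v : M) (by simpa [v] using h2) (v.isUnit.isStrictlyPositive hv)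
  set G' : Mˣ := hu.unit⁻¹ with hG'def
  have hi : (↑G'⁻¹ : M) = ↑G⁻¹ - t • Z := by rw [hG'def, inv_inv, IsUnit.unit_spec]
  have h2' : (v : M) ≤ (↑G'⁻¹ : M) := by rw [hi]; simpa [v] using h2
  have hG' : 0 ≤ (G' : M) :=
    Core.units_inv_nonneg (G := hu.unit) (by rw [IsUnit.unit_spec, ← hi]; exact hv.trans h2')
  have hle : (G' : M) ≤ algebraMap ℝ M (2 * Λ) := by
    have h := CStarAlgebra.inv_le_inv (a := v) (b := G'⁻¹) hv h2'
    rw [inv_inv] at h
    simpa [v] using h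
  refine ⟨G', hi, hG', Core.norm_le_of_nonneg_le (by positivity) hG' hle, ?_⟩
  have d1 : (G' : M) = G + (G : M) * (t • Z) * G' := by
    have h : (G : M) * ((↑G'⁻¹ : M) + t • Z) * G' = (G' : M) := by
      rw [hi, sub_add_cancel, Units.mul_inv, one_mul]
    conv_lhs => rw [← h]
    rw [mul_add, add_mul, mul_assoc (G : M) (↑G'⁻¹ : M), Units.inv_mul, mul_one]
  have d2 : (G' : M) = G + (G' : M) * (t • Z) * G := by
    have h : (G' : M) * ((↑G'⁻¹ : M) + t • Z) * G = (G' : M) := by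
      rw [hi, sub_add_cancel, mul_assoc, Units.inv_mul, mul_one]
    conv_lhs => rw [← h]
    rw [mul_add, add_mul, Units.mul_inv, one_mul]
  calc (G' : M) = G + (G : M) * (t • Z) * G' := d1
    _ = G + (G : M) * (t • Z) * (G + (G' : M) * (t • Z) * G) := by rw [← d2]
    _ = _ := by
        simp only [mul_add, mul_smul_comm, smul_mul_assoc, smul_smul, mul_assoc, sq, add_assoc]

/-- A weight that keeps the level function above the margin. -/
theorem exists_weight_step {κ c g Λ B : ℝ} (hκ : 0 < κ) (hκ1 : 10000 * κ ≤ 1 / 100) (hc : 0 < c)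
    (hg : 0 < g) (hB : 0 ≤ B) :
    ∃ c₂ : ℝ, 0 ≤ c₂ ∧ ∃ t0 : ℝ, 0 < t0 ∧ ∀ w a b v K L t : ℝ, c ≤ w → w ≤ 1 - 15000 * κ →
      g ≤ a → a ≤ Λ → g ≤ b → b ≤ Λ → |K| ≤ B → |L| ≤ B → c ≤ DF κ (gam2 a b) w →
      c ≤ v → v ≤ TF κ (gam2 a b) w → 0 < t → t ≤ t0 →
      0 ≤ w + t * (sF κ w * dgam a b K L / DF κ (gam2 a b) w) + t ^ 2 * c₂ ∧
        w + t * (sF κ w * dgam a b K L / DF κ (gam2 a b) w) + t ^ 2 * c₂ ≤ 1 - 10000 * κ ∧
        v ≤ TF κ (gam2 (a + t * K) (b + t * L))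
          (w + t * (sF κ w * dgam a b K L / DF κ (gam2 a b) w) + t ^ 2 * c₂) := by
  set J := B / c with hJ
  have hJ0 : 0 ≤ J := by positivity
  set R := max B J with hR
  obtain ⟨Cst, hC, η0, hη0, hstep⟩ := exists_TF_step hκ hκ1 (Λ := Λ) hg R
  obtain ⟨S, hS⟩ := isCompact_Icc.exists_bound_of_continuousOn
    ((continuous_s1 hκ).continuousOn (s := Set.Icc (0 : ℝ) 1))
  set m := |S| * J * (4 * B) + Cst with hm
  have hm0 : 0 ≤ m := by positivity
  set c₂ := 2 * m / c with hc₂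
  have hc₂0 : 0 ≤ c₂ := by positivity
  refine ⟨c₂, hc₂0, min (min 1 η0) (min (min c (5000 * κ) / (J + c₂ + 1))
    (min (c / 2 / (m + 1)) (g / 2 / (B + 1)))), by positivity, ?_⟩
  intro w a b v K L t hw hwm hga haΛ hgb hbΛ hK hL hD hv hvT ht ht0
  have ht1 : t ≤ 1 := ht0.trans ((min_le_left _ _).trans (min_le_left _ _))
  have htη : t ≤ η0 := ht0.trans ((min_le_left _ _).trans (min_le_right _ _))
  have htJ : t * (J + c₂ + 1) ≤ min c (5000 * κ) :=
    (le_div_iff₀ (by positivity)).1 (ht0.trans ((min_le_right _ _).trans (min_le_left _ _)))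
  have htm : t * (m + 1) ≤ c / 2 := (le_div_iff₀ (by positivity)).1
    (ht0.trans ((min_le_right _ _).trans ((min_le_right _ _).trans (min_le_left _ _))))
  have htB : t * (B + 1) ≤ g / 2 := (le_div_iff₀ (by positivity)).1
    (ht0.trans ((min_le_right _ _).trans ((min_le_right _ _).trans (min_le_right _ _))))
  have hw0 : 0 ≤ w := hc.le.trans hw
  have hwa : w ≤ 1 - 10000 * κ := by linarith
  have ha : 0 < a := hg.trans_le hga
  have hb : 0 < b := hg.trans_le hgb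
  have hgp : ∀ x y : ℝ, 0 < x → 0 < y → 0 ≤ gpart x y ∧ gpart x y ≤ 2 := fun x y hx hy => by
    refine ⟨by unfold gpart; positivity, ?_⟩
    unfold gpart
    rw [div_le_iff₀ (by positivity)]
    nlinarith
  have hdg : |dgam a b K L| ≤ 4 * B := by
    unfold dgam
    refine (abs_add_le _ _).trans ?_
    rw [abs_mul, abs_mul, abs_of_nonneg (hgp a b ha hb).1, abs_of_nonneg (hgp b a hb ha).1]
    linarith [mul_le_mul (hgp a b ha hb).2 hK (abs_nonneg _) zero_le_two,
      mul_le_mul (hgp b a hb ha).2 hL (abs_nonneg _) zero_le_two]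
  have hD0 : 0 < DF κ (gam2 a b) w := hc.trans_le hD
  set j := sF κ w * dgam a b K L / DF κ (gam2 a b) w with hj
  have hDj : DF κ (gam2 a b) w * j = sF κ w * dgam a b K L := mul_div_cancel₀ _ hD0.ne'
  have hjJ : |j| ≤ J := by
    rw [hj, abs_div, abs_of_pos hD0, abs_mul, abs_of_nonneg (sF_nonneg hκ hκ1 hw0 hwa), hJ]
    refine div_le_div₀ hB ?_ hc hD
    linarith [mul_le_mul (sF_le hκ hκ1 hw0 hwa) hdg (abs_nonneg _) (by norm_num)]
  have h := hstep w a b j K L 0 t hw0 hwm hga haΛ hgb hbΛ (hjJ.trans (le_max_right _ _))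
    (hK.trans (le_max_left _ _)) (hL.trans (le_max_left _ _))
    (by rw [abs_zero]; exact hB.trans (le_max_left _ _)) ht.le htη
  simp only [hDj, sub_self, mul_zero, add_zero] at h
  have hS' : |s1 κ w| ≤ |S| :=
    ((Real.norm_eq_abs _).symm.le.trans (hS w ⟨hw0, by linarith⟩)).trans (le_abs_self S)
  have hcross : |s1 κ w * j * dgam a b K L| ≤ |S| * J * (4 * B) := by
    rw [abs_mul, abs_mul]; gcongr
  have hΓ0 : 0 ≤ gam2 a b := (gam2_pos ha hb).le
  have hs2 : s2 κ w ≤ 0 := by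
    have hx := xi_pos hκ w
    unfold s2 h2
    have : 0 ≤ 75 * (κ * √κ) / (xi κ w ^ 2 * √(xi κ w)) := by positivity
    linarith
  have hd2 : sF κ w * dgam2 a b K L ≤ 0 := by
    refine mul_nonpos_of_nonneg_of_nonpos (sF_nonneg hκ hκ1 hw0 hwa) ?_
    unfold dgam2
    rw [neg_div]
    exact neg_nonpos.2 (by positivity)
  have hj2 : gam2 a b * s2 κ w / 2 * j ^ 2 ≤ 0 :=
    mul_nonpos_of_nonpos_of_nonneg
      (by nlinarith [mul_nonpos_of_nonneg_of_nonpos hΓ0 hs2]) (sq_nonneg j)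
  have hA : -m ≤ 0 - gam2 a b * s2 κ w / 2 * j ^ 2 - s1 κ w * j * dgam a b K L
      - sF κ w * dgam2 a b K L - t * Cst := by
    linarith [(abs_le.1 hcross).2, mul_le_mul_of_nonneg_right ht1 hC]
  have hA' := mul_le_mul_of_nonneg_left hA (sq_nonneg t)
  have hT1 : TF κ (gam2 a b) w - t ^ 2 * m
      ≤ TF κ (gam2 (a + t * K) (b + t * L)) (w + t * j) := by
    linarith
  obtain ⟨hjl, hjr⟩ := abs_le.1 hjJ
  have htj : |t * j| ≤ t * J := by
    rw [abs_mul, abs_of_pos ht]; exact mul_le_mul_of_nonneg_left hjJ ht.le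
  obtain ⟨htjl, htjr⟩ := abs_le.1 htj
  have ht2 : t ^ 2 * c₂ ≤ t * c₂ :=
    mul_le_mul_of_nonneg_right (pow_le_of_le_one ht.le ht1 two_ne_zero) hc₂0
  have ht2m : t ^ 2 * m ≤ t * m :=
    mul_le_mul_of_nonneg_right (pow_le_of_le_one ht.le ht1 two_ne_zero) hm0
  have htp : 0 ≤ t * c₂ := by positivity
  have hmin1 := min_le_left c (5000 * κ)
  have hmin2 := min_le_right c (5000 * κ)
  have h10 : 0 ≤ w + t * j := by linarith
  have h11 : w + t * j ≤ 1 - 10000 * κ := by linarith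
  have htK : |t * K| ≤ t * B := by
    rw [abs_mul, abs_of_pos ht]; exact mul_le_mul_of_nonneg_left hK ht.le
  have htL : |t * L| ≤ t * B := by
    rw [abs_mul, abs_of_pos ht]; exact mul_le_mul_of_nonneg_left hL ht.le
  have ha' : 0 < a + t * K := by linarith [(abs_le.1 htK).1]
  have hb' : 0 < b + t * L := by linarith [(abs_le.1 htL).1]
  have hG0 := (gam2_pos ha' hb').le
  have hc1 : c / 2 ≤ TF κ (gam2 (a + t * K) (b + t * L)) (w + t * j) := by linarith
  have hD1 := (le_DF hκ hκ1 hG0 (by linarith) h10 h11 hc1).2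
  have h21 : w + t * j + t ^ 2 * c₂ ≤ 1 - 10000 * κ := by linarith
  refine ⟨by positivity, h21, ?_⟩
  have htan := TF_tangent hκ hG0 h11 h21
  rw [add_sub_cancel_left] at htan
  have hgain : t ^ 2 * m ≤ DF κ (gam2 (a + t * K) (b + t * L)) (w + t * j) * (t ^ 2 * c₂) := by
    refine le_trans (le_of_eq ?_) (mul_le_mul_of_nonneg_right hD1 (by positivity))
    rw [hc₂]; field_simp
  linarith

/-- Bounds of the derivative of the harmonic mean. -/
theorem gpart_bounds {a b : ℝ} (ha : 0 < a) (hb : 0 < b) : 0 ≤ gpart a b ∧ gpart a b ≤ 2 := by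
  refine ⟨by unfold gpart; positivity, ?_⟩
  unfold gpart
  rw [div_le_iff₀ (by positivity)]
  nlinarith

theorem abs_phi_le {κ c w x y Γ : ℝ} (hκ : 0 < κ) (hκ1 : 10000 * κ ≤ 1 / 100) (hc : 0 < c)
    (h0 : 0 ≤ w) (h1 : w ≤ 1 - 10000 * κ) (hx : 0 < x) (hy : 0 < y) (hD : c ≤ DF κ Γ w) :
    |sF κ w * gpart x y / DF κ Γ w| ≤ 1 / c := by
  obtain ⟨p0, p2⟩ := gpart_bounds hx hy
  have s0 := sF_nonneg hκ hκ1 h0 h1
  rw [abs_div, abs_mul, abs_of_nonneg s0, abs_of_nonneg p0, abs_of_pos (hc.trans_le hD)]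
  refine div_le_div₀ zero_le_one ?_ hc hD
  linarith [mul_le_mul (sF_le hκ hκ1 h0 h1) p2 p0 (by norm_num)]

/-- The change of the potential of one sign along the competitor. -/
theorem pot_sign_le (hP : P.Ok C) {s s' : Col M X} (hG : ∀ k, 0 ≤ (s.G k : M)) (j : Bool)
    {Zj : M} (hZj : IsSelfAdjoint Zj) {H RZ c₃ t : ℝ} (hc₃ : 0 ≤ c₃) (ht : 0 < t) (ht1 : t ≤ 1)
    (hZn : ‖Zj‖ ≤ RZ) {h : C(X, ℝ)} (hhn : ‖C.r h‖ ≤ H)
    (hinv : (↑(s'.G j)⁻¹ : M) = ↑(s.G j)⁻¹ - t • Zj)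
    (hw : P.wt s' ≤ P.wt s + t • h + ContinuousMap.const X (t ^ 2 * c₃)) :
    C.tr (cfc (f P.u2 P.sm P.l) (P.mat C s' j))
      ≤ C.tr (cfc (f P.u2 P.sm P.l) (P.mat C s j)) + t * C.ig (h * P.V C s j)
        - t * C.tr (P.dmat C s j * Zj)
        + t ^ 2 * (3 * c₃ + 1 / P.sm / 2 * (H + c₃ + RZ) ^ 2) := by
  have hsm := P.sm_pos
  set D := t • (C.r h - Zj) + algebraMap ℝ M (t ^ 2 * c₃) with hD
  have hA : IsSelfAdjoint (P.mat C s j) := Prm.mat_isSelfAdjoint hP hG j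
  have hDs : IsSelfAdjoint D :=
    ((IsSelfAdjoint.all t).smul ((C.r_isSelfAdjoint h).sub hZj)).add
      (IsSelfAdjoint.algebraMap M (IsSelfAdjoint.all _))
  have hm : P.mat C s' j ≤ P.mat C s j + D := by
    have hr := C.r_mono hw
    rw [C.r_add, C.r_add, C.r_smul, C.r_const] at hr
    calc P.mat C s' j
        ≤ (↑(s.G j)⁻¹ - t • Zj) + algebraMap ℝ M P.β + sg j • P.y
            + (C.r (P.wt s) + t • C.r h + algebraMap ℝ M (t ^ 2 * c₃)) := by
          rw [Prm.mat, hinv]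
          gcongr
      _ = P.mat C s j + D := by rw [Prm.mat, hD, smul_sub]; abel
  have hk := C.klein_upper (L := 1 / P.sm) (f := f P.u2 P.sm P.l) (f' := f' P.u2 P.sm P.l)
    continuous_f (continuous_f' hsm) (f_quad hsm) hA (hA.add hDs)
  rw [add_sub_cancel_left] at hk
  have hmono := Prm.tr_f_mono (P := P) (C := C) (hA.add hDs) hm
  have hdsa : IsSelfAdjoint (P.dmat C s j) := IsSelfAdjoint.of_nonneg (Prm.dmat_nonneg s j)
  have htr3 : C.tr (P.dmat C s j) ≤ 3 := by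
    rw [← C.ig_Er hdsa]
    exact C.ig_le_of_le fun x => (Prm.V_bounds hP hG j x).2
  have hlin : C.tr (cfc (f' P.u2 P.sm P.l) (P.mat C s j) * D)
      ≤ t * C.ig (h * P.V C s j) - t * C.tr (P.dmat C s j * Zj) + t ^ 2 * (3 * c₃) := by
    rw [show cfc (f' P.u2 P.sm P.l) (P.mat C s j) = P.dmat C s j from rfl, hD, mul_add,
      C.tr_add, mul_smul_comm, C.tr_smul, mul_sub, C.tr_sub, C.tr_comm _ (C.r h),
      C.tr_r_mul h hdsa, Algebra.algebraMap_eq_smul_one, mul_smul_comm, C.tr_smul, mul_one,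
      show C.Er (P.dmat C s j) = P.V C s j from rfl]
    have := mul_le_mul_of_nonneg_left htr3 (show 0 ≤ t ^ 2 * c₃ by positivity)
    linarith
  have hDn : ‖D‖ ≤ t * (H + c₃ + RZ) := by
    have hc0 : 0 ≤ t ^ 2 * c₃ := by positivity
    have hcn : ‖algebraMap ℝ M (t ^ 2 * c₃)‖ ≤ t * c₃ :=
      (Core.norm_le_of_nonneg_le hc0 (algebraMap_nonneg M hc0) le_rfl).trans
        (mul_le_mul_of_nonneg_right (pow_le_of_le_one ht.le ht1 two_ne_zero) hc₃)
    calc ‖D‖ ≤ ‖t • (C.r h - Zj)‖ + ‖algebraMap ℝ M (t ^ 2 * c₃)‖ := norm_add_le _ _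
      _ ≤ t * (H + RZ) + t * c₃ := by
          refine add_le_add ?_ hcn
          rw [norm_smul, Real.norm_of_nonneg ht.le]
          exact mul_le_mul_of_nonneg_left ((norm_sub_le _ _).trans (add_le_add hhn hZn)) ht.le
      _ = t * (H + c₃ + RZ) := by ring
  have hquad : 1 / P.sm / 2 * C.n2sq D ≤ t ^ 2 * (1 / P.sm / 2 * (H + c₃ + RZ) ^ 2) :=
    (mul_le_mul_of_nonneg_left ((C.n2sq_le_norm_sq D).trans
      (pow_le_pow_left₀ (norm_nonneg D) hDn 2)) (by positivity)).trans_eq (by ring)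
  linarith

theorem exists_stationary (hP : P.Ok C) (R : ℝ) :
    ∃ Cst : ℝ, 0 ≤ Cst ∧ ∃ t0 : ℝ, 0 < t0 ∧ ∀ s : Col M X, s.Ok P C → P.Window s →
      P.Bounded s → ∀ (i : Bool) (Z : M), IsSelfAdjoint Z → ‖Z‖ ≤ R →
      ∀ t ζ : ℝ, 0 < t → t ≤ t0 → P.ColMin C s ζ →
      C.tr (P.dmat C s i * Z)
        ≤ C.tr ((s.G i : M) * C.r (P.aFn C s i) * (s.G i : M) * Z) + ζ / t + Cst * t := by
  have hΛ : 0 < P.Λ := P.g_pos.trans_le P.g_le
  have hκ := P.κ_pos
  have hb1 := P.b1_pos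
  set BQ := P.Λ * |R| * P.Λ with hBQ
  set BE := P.Λ * |R| * (2 * P.Λ) * |R| * P.Λ with hBE
  obtain ⟨c₂, hc₂, t₀, ht₀, hwt⟩ := exists_weight_step (c := P.b1) (g := P.g) (Λ := P.Λ)
    (B := BQ + BE) hκ P.κ_le hb1 P.g_pos (by positivity)
  set c₃ := c₂ + 1 / P.b1 * BE with hc₃
  set Db := 1 / P.b1 * BQ + c₃ + |R| with hDb
  set c₆ := 3 * c₃ + 1 / P.sm / 2 * Db ^ 2 + P.ν * BE with hc₆
  have hsm := P.sm_pos
  have hν := P.ν_pos
  refine ⟨2 * c₆, by positivity, min (min 1 t₀) (1 / (2 * P.Λ) / (|R| + 1)), by positivity, ?_⟩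
  intro s hs hW hb i Z hZ hZR t ζ ht ht0 hmin
  have ht1 : t ≤ 1 := ht0.trans ((min_le_left _ _).trans (min_le_left _ _))
  have htt : t ≤ t₀ := ht0.trans ((min_le_left _ _).trans (min_le_right _ _))
  have htR : t * |R| ≤ 1 / (2 * P.Λ) := by
    have := (le_div_iff₀ (by positivity)).1 (ht0.trans (min_le_right _ _))
    linarith
  have hG := hs.G_nonneg
  have hZR' : ‖Z‖ ≤ |R| := hZR.trans (le_abs_self R)
  have hGn : ∀ j, ‖(s.G j : M)‖ ≤ P.Λ := fun j => Core.norm_le_of_nonneg_le hΛ.le (hG j) (hb j).2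
  obtain ⟨G', hi, hG', hG'n, hexp⟩ :=
    exists_resolvent hΛ (hG i) (hb i).2 hZ hZR' ht.le htR
  set Y := (s.G i : M) * Z * s.G i with hY
  set Ye := (s.G i : M) * Z * G' * Z * s.G i with hYe
  have hGsa := IsSelfAdjoint.of_nonneg (hG i)
  have hYsa : IsSelfAdjoint Y := hZ.conjugate_self hGsa
  have hYesa : IsSelfAdjoint Ye := by
    have : Ye = (s.G i : M) * (Z * G' * Z) * s.G i := by simp only [hYe, mul_assoc]
    rw [this]
    exact ((IsSelfAdjoint.of_nonneg hG').conjugate_self hZ).conjugate_self hGsa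
  have hYn : ‖Y‖ ≤ BQ :=
    calc ‖Y‖ ≤ ‖(s.G i : M)‖ * ‖Z‖ * ‖(s.G i : M)‖ := norm_mul₃_le
      _ ≤ BQ := by rw [hBQ]; have := hGn i; gcongr
  have hYen : ‖Ye‖ ≤ BE :=
    calc ‖Ye‖ ≤ ‖(s.G i : M)‖ * ‖Z‖ * ‖(G' : M)‖ * ‖Z‖ * ‖(s.G i : M)‖ :=
          (norm_mul_le _ _).trans (mul_le_mul_of_nonneg_right ((norm_mul_le _ _).trans
            (mul_le_mul_of_nonneg_right norm_mul₃_le (norm_nonneg _))) (norm_nonneg _))
      _ ≤ BE := by rw [hBE]; have := hGn i; gcongr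
  set Q := C.Er Y with hQ
  set E := C.Er Ye with hE
  have hQn : ∀ x, |Q x| ≤ BQ := fun x =>
    (abs_apply_le ((C.norm_Er_le hYsa).trans hYn) x)
  have hEn : ∀ x, |E x| ≤ BE := fun x =>
    (abs_apply_le ((C.norm_Er_le hYesa).trans hYen) x)
  have hErG : ∀ x, C.Er (G' : M) x = C.Er (s.G i : M) x + t * (Q x + t * E x) := fun x => by
    rw [hexp, C.Er_add, C.Er_add, C.Er_smul, C.Er_smul]
    simp only [ContinuousMap.add_apply, ContinuousMap.smul_apply, smul_eq_mul, hQ, hE]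
    ring
  set φ : C(X, ℝ) := P.sc s * P.gp C s i * P.iD C s with hφ
  set W' : C(X, ℝ) := s.W + s.act * (t • (φ * (Q + t • E)) + ContinuousMap.const X (t ^ 2 * c₂))
    with hW'
  set G1 : Bool → Mˣ := fun j => if j = i then G' else s.G j with hG1
  set s' : Col M X := ⟨s.act, s.ass, s.b, W', G1⟩ with hs'
  have hG10 : ∀ j, 0 ≤ (G1 j : M) := fun j => by
    simp only [hG1]; split_ifs
    exacts [hG', hG j]
  -- pointwise facts at active points
  have hact : ∀ x, s.act x = 1 →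
      (0 ≤ W' x ∧ W' x ≤ P.Wa ∧
        s.b x + 2 * P.b1 ≤ TF P.κ (gam2 (C.Er (G1 true : M) x) (C.Er (G1 false : M) x)) (W' x)) ∧
      |φ x| ≤ 1 / P.b1 := by
    intro x hx
    obtain ⟨hT, hw1, hDc⟩ := Prm.window_bounds hs hW hb hx
    have hwm : s.W x ≤ 1 - 15000 * P.κ := hW.high x hx
    have hγ : ∀ j, P.gc C s j x = C.Er (s.G j : M) x := fun j => by rw [Prm.gc_eq hb]; rfl
    have hγb : ∀ j, P.g ≤ C.Er (s.G j : M) x ∧ C.Er (s.G j : M) x ≤ P.Λ :=
      fun j => Prm.γ_bounds hb j x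
    have hΓ : P.Γc C s x = gam2 (C.Er (s.G true : M) x) (C.Er (s.G false : M) x) := by
      rw [← hγ, ← hγ]; rfl
    rw [hΓ] at hT hDc
    have hD : P.b1 ≤ DF P.κ (gam2 (C.Er (s.G true : M) x) (C.Er (s.G false : M) x)) (s.W x) := by
      rw [← hDc]; exact le_max_right _ _
    have hK : |Q x + t * E x| ≤ BQ + BE := by
      refine (abs_add_le _ _).trans (add_le_add (hQn x) ?_)
      rw [abs_mul, abs_of_pos ht]
      exact (mul_le_of_le_one_left (abs_nonneg _) ht1).trans (hEn x)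
    set K := fun j : Bool => if j = i then Q x + t * E x else 0 with hKdef
    have hKb : ∀ j, |K j| ≤ BQ + BE := fun j => by
      simp only [hKdef]; split_ifs
      exacts [hK, by rw [abs_zero]; positivity]
    have hG1e : ∀ j, C.Er (G1 j : M) x = C.Er (s.G j : M) x + t * K j := fun j => by
      simp only [hG1, hKdef]; split_ifs with h
      · rw [h, hErG]
      · ring
    have hv := hwt (s.W x) (C.Er (s.G true : M) x) (C.Er (s.G false : M) x) (s.b x + 2 * P.b1)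
      (K true) (K false) t hw1 hwm (hγb true).1 (hγb true).2 (hγb false).1 (hγb false).2
      (hKb true) (hKb false) hD (by linarith [hs.act_b x hx]) hT ht htt
    have hφx : φ x = sF P.κ (s.W x) * gpart (C.Er (s.G i : M) x) (C.Er (s.G (!i) : M) x)
        / DF P.κ (gam2 (C.Er (s.G true : M) x) (C.Er (s.G false : M) x)) (s.W x) := by
      rw [← hDc, ← hγ i, ← hγ (!i), div_eq_mul_inv]
      rfl
    have hWx : W' x = s.W x + t * (sF P.κ (s.W x)
          * dgam (C.Er (s.G true : M) x) (C.Er (s.G false : M) x) (K true) (K false)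
          / DF P.κ (gam2 (C.Er (s.G true : M) x) (C.Er (s.G false : M) x)) (s.W x))
        + t ^ 2 * c₂ := by
      simp only [hW', ContinuousMap.add_apply, ContinuousMap.mul_apply, ContinuousMap.smul_apply,
        ContinuousMap.const_apply, smul_eq_mul, hx, hφx, hKdef]
      cases i <;> simp [dgam] <;> ring
    rw [← hWx] at hv
    refine ⟨⟨hv.1, hv.2.1, ?_⟩, ?_⟩
    · rw [hG1e, hG1e]; exact hv.2.2
    · rw [hφx]
      exact abs_phi_le hκ P.κ_le hb1 (hs.W_mem x).1 (by linarith) (P.g_pos.trans_le (hγb i).1)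
        (P.g_pos.trans_le (hγb (!i)).1) hD
  have hoff : ∀ x, s.act x = 0 → W' x = s.W x := fun x hx => by simp [hW', hx]
  have hok : s'.Ok P C := by
    refine ⟨hs.act_01, hs.ass_01, hs.act_b, fun x => ?_, hG10, fun x hx => ?_⟩
    · rcases hs.act_01 x with hx | hx
      · show 0 ≤ W' x ∧ W' x ≤ P.Wa
        rw [hoff x hx]; exact hs.W_mem x
      · exact ⟨(hact x hx).1.1, (hact x hx).1.2.1⟩
    · exact Or.inr (hact x hx).1.2.2
  -- the first order change of the weight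
  set h : C(X, ℝ) := s.act * (φ * Q) with hh
  have hwle : P.wt s' ≤ P.wt s + t • h + ContinuousMap.const X (t ^ 2 * c₃) := by
    refine ContinuousMap.le_def.2 fun x => ?_
    simp only [Prm.wt, hs', hW', hh, ContinuousMap.add_apply, ContinuousMap.mul_apply,
      ContinuousMap.smul_apply, ContinuousMap.const_apply, smul_eq_mul]
    rcases hs.act_01 x with hx | hx
    · rw [hx]; linarith [show 0 ≤ t ^ 2 * c₃ by positivity]
    · rw [hx]
      have h1 : φ x * E x ≤ 1 / P.b1 * BE :=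
        (le_abs_self _).trans (by
          rw [abs_mul]; exact mul_le_mul (hact x hx).2 (hEn x) (abs_nonneg _) (by positivity))
      have h2 := mul_le_mul_of_nonneg_left h1 (sq_nonneg t)
      rw [hc₃]
      linarith
  have hhn : ‖C.r h‖ ≤ 1 / P.b1 * BQ := by
    refine (C.norm_r_le h).trans ((ContinuousMap.norm_le _ (by positivity)).2 fun x => ?_)
    rcases hs.act_01 x with hx | hx
    · simp only [hh, ContinuousMap.mul_apply, hx, zero_mul, norm_zero]; positivity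
    · simp only [hh, ContinuousMap.mul_apply, hx, one_mul, Real.norm_eq_abs, abs_mul]
      exact mul_le_mul (hact x hx).2 (hQn x) (abs_nonneg _) (by positivity)
  -- one sign
  have hsign : ∀ j, C.tr (cfc (f P.u2 P.sm P.l) (P.mat C s' j)) + P.ν * C.tr (G1 j : M)
      ≤ C.tr (cfc (f P.u2 P.sm P.l) (P.mat C s j)) + P.ν * C.tr (s.G j : M)
        + t * C.ig (h * P.V C s j)
        + (if j = i then t * (P.ν * C.tr Y - C.tr (P.dmat C s i * Z)) else 0) + t ^ 2 * c₆ := by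
    intro j
    set Zj : M := if j = i then Z else 0 with hZj
    have hZjsa : IsSelfAdjoint Zj := by
      simp only [hZj]; split_ifs
      exacts [hZ, .zero _]
    have hZjn : ‖Zj‖ ≤ |R| := by
      simp only [hZj]; split_ifs
      exacts [hZR', by rw [norm_zero]; positivity]
    have hinv : (↑(s'.G j)⁻¹ : M) = ↑(s.G j)⁻¹ - t • Zj := by
      simp only [hs', hG1, hZj]; split_ifs with hji
      · rw [hji, hi]
      · simp
    have hb' := pot_sign_le hP hG j hZjsa (by positivity : 0 ≤ c₃) ht ht1 hZjn hhn hinv hwle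
    have hGt : P.ν * C.tr (G1 j : M) ≤ P.ν * C.tr (s.G j : M)
        + (if j = i then t * (P.ν * C.tr Y) else 0) + t ^ 2 * (P.ν * BE) := by
      simp only [hG1]; split_ifs with hji
      · have hYet : C.tr Ye ≤ BE := by
          rw [← C.ig_Er hYesa]; exact C.ig_le_of_le fun x => (le_abs_self _).trans (hEn x)
        rw [hji, hexp, C.tr_add, C.tr_add, C.tr_smul, C.tr_smul]
        linarith [mul_le_mul_of_nonneg_left hYet (show 0 ≤ t ^ 2 * P.ν by positivity)]
      · linarith [show 0 ≤ t ^ 2 * (P.ν * BE) by positivity]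
    rw [hc₆, hDb]
    by_cases hji : j = i
    · have e : Zj = Z := if_pos hji
      rw [e] at hb'
      rw [if_pos hji] at hGt
      rw [hji] at hb' hGt ⊢
      rw [if_pos rfl]
      linarith
    · have e : Zj = 0 := if_neg hji
      rw [e, mul_zero, C.tr_zero, mul_zero, sub_zero] at hb'
      rw [if_neg hji] at hGt ⊢
      linarith
  have hmin' : P.pot C s ≤ P.pot C s' + ζ := hmin W' G1 hok
  have hsum : P.pot C s' ≤ P.pot C s + t * C.ig (h * (P.V C s true + P.V C s false))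
      + t * (P.ν * C.tr Y - C.tr (P.dmat C s i * Z)) + t ^ 2 * (2 * c₆) := by
    have h1 := hsign true
    have h2 := hsign false
    simp only [Prm.pot, Fintype.sum_bool, hs', mul_add, C.ig_add]
    cases i <;> simp only [if_true, if_false, Bool.true_eq_false, Bool.false_eq_true] at h1 h2 <;>
      linarith
  have hid : C.tr ((s.G i : M) * C.r (P.aFn C s i) * (s.G i : M) * Z)
      = C.ig (h * (P.V C s true + P.V C s false)) + P.ν * C.tr Y := by
    have e1 : (s.G i : M) * C.r (P.aFn C s i) * (s.G i : M) * Z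
        = (s.G i : M) * (C.r (P.aFn C s i) * ((s.G i : M) * Z)) := by simp only [mul_assoc]
    rw [e1, C.tr_comm, mul_assoc, ← hY, C.tr_r_mul _ hYsa, ← C.ig_Er hYsa, ← C.ig_smul,
      ← C.ig_add]
    congr 1
    refine ContinuousMap.ext fun x => ?_
    have hV : P.Vt C s x = P.V C s true x + P.V C s false x := max_eq_left (by
      linarith [(Prm.V_bounds hP hG true x).1, (Prm.V_bounds hP hG false x).1, P.l_pos])
    simp only [Prm.aFn, hh, hφ, hQ, ContinuousMap.add_apply, ContinuousMap.mul_apply,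
      ContinuousMap.smul_apply, ContinuousMap.const_apply, smul_eq_mul, hV]
    ring
  rw [hid, ← mul_le_mul_iff_of_pos_left ht, mul_add, mul_add, mul_div_cancel₀ _ ht.ne']
  linarith

end Vale.Agent.P078.Tracial.Two
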