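import Vale.Agent.P078.Tracial.Two.Defs
import Vale.Agent.P078.Tracial.Four.StepColour

/-! The change of the potential of one colour in one step. -/

namespace Vale.Agent.P078.Tracial.Two

set_option linter.unusedSectionVars false

open Filter Topology ComplexOrder
open Tracial (norm_le_of_abs abs_apply_le)

variable {M X : Type*} [CStarAlgebra M] [PartialOrder M] [StarOrderedRing M]
variable [TopologicalSpace X] [CompactSpace X] [T2Space X] [TotallyDisconnectedSpace X]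
variable {C : Core M X} {P : Prm M}

theorem gpart_bounds (a b : ℝ) (ha : 0 < a) (hb : 0 < b) :
    0 ≤ gpart a b ∧ gpart a b ≤ 2 := by
  unfold gpart
  refine ⟨by positivity, ?_⟩
  rw [div_le_iff₀ (by positivity)]
  nlinarith [mul_pos ha hb]

theorem abs_dgam2_le {g Λ K a b k l : ℝ} (hg : 0 < g) (ha : g ≤ a) (ha' : a ≤ Λ) (hb : g ≤ b)
    (hb' : b ≤ Λ) (hk : |k| ≤ K) (hl : |l| ≤ K) :
    |dgam2 a b k l| ≤ 8 * Λ ^ 2 * K ^ 2 / (2 * g) ^ 3 := by
  have hK : 0 ≤ K := (abs_nonneg k).trans hk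
  have h1 : |b * k - a * l| ≤ 2 * Λ * K := by
    refine (abs_sub _ _).trans ?_
    rw [abs_mul, abs_mul, abs_of_pos (hg.trans_le ha), abs_of_pos (hg.trans_le hb)]
    have := mul_le_mul hb' hk (abs_nonneg k) (by linarith)
    have := mul_le_mul ha' hl (abs_nonneg l) (by linarith)
    linarith
  have h2 : (b * k - a * l) ^ 2 ≤ (2 * Λ * K) ^ 2 := by
    rw [← sq_abs]; exact pow_le_pow_left₀ (abs_nonneg _) h1 2
  have h3 : (2 * g) ^ 3 ≤ (a + b) ^ 3 := pow_le_pow_left₀ (by linarith) (by linarith) 3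
  have hab : 0 < a + b := by linarith
  rw [dgam2, neg_div, abs_neg, abs_of_nonneg (by positivity)]
  exact div_le_div₀ (by positivity) (by linarith) (by positivity) h3

/-- A scalar weighted inequality. -/
theorem mul_le_delta {δ S x y : ℝ} (hδ : 0 < δ) (_hS : 0 ≤ S) :
    S * (|x| * |y|) ≤ δ * (x * x) + S ^ 2 / (4 * δ) * (y * y) := by
  have e : δ * (x * x) + S ^ 2 / (4 * δ) * (y * y) - S * (|x| * |y|)
      = (2 * δ * |x| - S * |y|) ^ 2 / (4 * δ) := by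
    rw [← abs_mul_abs_self x, ← abs_mul_abs_self y]
    field_simp
    ring
  have : 0 ≤ (2 * δ * |x| - S * |y|) ^ 2 / (4 * δ) := by positivity
  linarith

/-- The correction of the second order coefficient of the weight. -/
theorem second_pt2 {Γ s₂ Sa s₁ Sb k ρ a b Ka Kb δ Λ : ℝ} (hΓ : 0 ≤ Γ) (hΓΛ : Γ ≤ Λ)
    (h2 : |s₂| ≤ Sa) (h2' : s₂ ≤ 0) (h1 : |s₁| ≤ Sb) (ha : 0 ≤ a ∧ a ≤ 2) (hb : 0 ≤ b ∧ b ≤ 2)
    (hδ : 0 < δ) :
    Γ * s₂ / 2 * ((k - ρ) * (k - ρ)) + s₁ * (k - ρ) * (a * Ka + b * Kb)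
      ≤ Γ * s₂ / 2 * (k * k) + s₁ * k * (a * Ka + b * Kb)
        + δ * (k * k + Ka * Ka + Kb * Kb)
        + ((Λ * Sa) ^ 2 + 2 * (2 * Sb) ^ 2) / (4 * δ) * (ρ * ρ) := by
  have hSa : 0 ≤ Sa := (abs_nonneg _).trans h2
  have hSb : 0 ≤ Sb := (abs_nonneg _).trans h1
  have hΛ : 0 ≤ Λ := hΓ.trans hΓΛ
  have t1 : -(Γ * s₂ * k * ρ) ≤ Λ * Sa * (|k| * |ρ|) := by
    refine (neg_le_abs _).trans ?_
    rw [abs_mul, abs_mul, abs_mul, abs_of_nonneg hΓ, mul_assoc]
    exact mul_le_mul_of_nonneg_right (mul_le_mul hΓΛ h2 (abs_nonneg _) hΛ) (by positivity)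
  have t2 : ∀ {c K : ℝ}, 0 ≤ c → c ≤ 2 → -(s₁ * ρ * (c * K)) ≤ 2 * Sb * (|K| * |ρ|) := by
    intro c K hc hc'
    refine (neg_le_abs _).trans ?_
    rw [abs_mul, abs_mul, abs_mul, abs_of_nonneg hc]
    calc |s₁| * |ρ| * (c * |K|) = |s₁| * c * (|K| * |ρ|) := by ring
      _ ≤ Sb * 2 * (|K| * |ρ|) :=
          mul_le_mul_of_nonneg_right (mul_le_mul h1 hc' hc hSb) (by positivity)
      _ = _ := by ring
  have := t2 (K := Ka) ha.1 ha.2
  have := t2 (K := Kb) hb.1 hb.2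
  have := mul_le_delta (x := k) (y := ρ) hδ (mul_nonneg hΛ hSa)
  have := mul_le_delta (x := Ka) (y := ρ) hδ (by positivity : 0 ≤ 2 * Sb)
  have := mul_le_delta (x := Kb) (y := ρ) hδ (by positivity : 0 ≤ 2 * Sb)
  have t3 : Γ * s₂ / 2 * (ρ * ρ) ≤ 0 := by
    have := mul_nonpos_of_nonneg_of_nonpos hΓ h2'
    nlinarith [mul_self_nonneg ρ]
  have e : ((Λ * Sa) ^ 2 + 2 * (2 * Sb) ^ 2) / (4 * δ) * (ρ * ρ)
      = (Λ * Sa) ^ 2 / (4 * δ) * (ρ * ρ) + 2 * ((2 * Sb) ^ 2 / (4 * δ) * (ρ * ρ)) := by ring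
  linarith

namespace Prm

variable (P : Prm M) (C : Core M X)

/-- The first order correction of the weight. -/
noncomputable def ρ (s : Col M X) (h : C(X, ℝ)) : C(X, ℝ) := s.act * (P.iD C s * h)

/-- The second order change of the weight. -/
noncomputable def q2Fn (s : Col M X) (k h : C(X, ℝ)) : C(X, ℝ) :=
  s.act * (P.iD C s * ((1 / 2 : ℝ) • (P.Γc C s * P.s2c s
      * ((k - P.ρ C s h) * (k - P.ρ C s h)))
    + P.s1c s * (k - P.ρ C s h) * P.dΓ C s k + P.sc s * P.d2Γ C s k))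

variable {P C}

theorem Γc_bounds {s : Col M X} (hb : P.Bounded s) (x : X) :
    0 < P.Γc C s x ∧ P.Γc C s x ≤ P.Λ := by
  have h : ∀ i, 0 < P.gc C s i x ∧ P.gc C s i x ≤ P.Λ := fun i =>
    ⟨P.gc_pos C s i x, by rw [gc_eq hb]; exact (γ_bounds hb i x).2⟩
  refine ⟨gam2_pos (h true).1 (h false).1, ?_⟩
  show gam2 (P.gc C s true x) (P.gc C s false x) ≤ P.Λ
  obtain ⟨a0, a1⟩ := h true
  obtain ⟨b0, b1⟩ := h false
  unfold gam2
  rw [div_le_iff₀ (by linarith)]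
  nlinarith

theorem iD_bounds (s : Col M X) (x : X) : 0 < P.iD C s x ∧ P.iD C s x ≤ 1 / P.b1 := by
  refine ⟨inv_pos.2 (P.Dc_pos C s x), ?_⟩
  rw [one_div]
  exact inv_anti₀ P.b1_pos (le_max_right _ _)

theorem Vt_eq (hP : P.Ok C) {s : Col M X} (h : ∀ i, 0 ≤ (s.G i : M)) :
    P.Vt C s = P.V C s true + P.V C s false := by
  ext x
  refine max_eq_left ?_
  linarith [(V_bounds hP h true x).1, (V_bounds hP h false x).1, P.l_pos]

theorem dΓ_apply (s : Col M X) (k : C(X, ℝ)) (x : X) :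
    P.dΓ C s k x = gpart (P.gc C s true x) (P.gc C s false x) * C.K (s.G true : M) k x
      + gpart (P.gc C s false x) (P.gc C s true x) * C.K (s.G false : M) k x := by
  simp only [dΓ, Fintype.sum_bool, ContinuousMap.add_apply, ContinuousMap.mul_apply]
  rfl

/-- The correction is controlled by the residual. -/
theorem ig_ρ_sq_le {s : Col M X} (h : C(X, ℝ)) :
    C.ig (P.ρ C s h * P.ρ C s h) ≤ 1 / P.b1 ^ 2 * C.ig ((s.act * h) * (s.act * h)) := by
  rw [← C.ig_smul]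
  refine C.ig_mono (ContinuousMap.le_def.2 fun x => ?_)
  obtain ⟨h0, h1⟩ := iD_bounds (P := P) (C := C) s x
  simp only [ρ, ContinuousMap.mul_apply, ContinuousMap.smul_apply, smul_eq_mul]
  calc s.act x * (P.iD C s x * h x) * (s.act x * (P.iD C s x * h x))
      = P.iD C s x * P.iD C s x * (s.act x * h x * (s.act x * h x)) := by ring
    _ ≤ 1 / P.b1 * (1 / P.b1) * (s.act x * h x * (s.act x * h x)) :=
        mul_le_mul_of_nonneg_right (mul_le_mul h1 h1 h0.le (h0.le.trans h1)) (mul_self_nonneg _)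
    _ = _ := by ring

/-- The second order change of the weight against the density. -/
theorem exists_ig_q2Fn_le (hP : P.Ok C) {δ : ℝ} (hδ : 0 < δ) :
    ∃ K : ℝ, 0 ≤ K ∧ ∀ (s : Col M X), s.Ok P C → P.Bounded s → ∀ (k h : C(X, ℝ)),
      C.ig (P.q2Fn C s k h * P.Vt C s)
        ≤ C.ig (s.act * P.Vt C s * P.iD C s
            * ((1 / 2 : ℝ) • (P.Γc C s * P.s2c s * (k * k)) + P.s1c s * k * P.dΓ C s k
              + P.sc s * P.d2Γ C s k))
          + δ * C.ig (k * k) + K * C.ig ((s.act * h) * (s.act * h)) := by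
  obtain ⟨Sa, hSa⟩ := isCompact_Icc.exists_bound_of_continuousOn
    (continuous_s2 P.κ_pos).continuousOn (s := Set.Icc (0 : ℝ) P.Wa)
  obtain ⟨Sb, hSb⟩ := isCompact_Icc.exists_bound_of_continuousOn
    (continuous_s1 P.κ_pos).continuousOn (s := Set.Icc (0 : ℝ) P.Wa)
  have hb1 := P.b1_pos
  set c := 6 / P.b1 with hc
  have hc0 : 0 < c := by positivity
  set δ' := δ / (c * (1 + 2 * P.Λ ^ 4)) with hδ'
  have hδ'0 : 0 < δ' := by positivity
  set L := ((P.Λ * Sa) ^ 2 + 2 * (2 * Sb) ^ 2) / (4 * δ') with hL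
  have hL0 : 0 ≤ L := by positivity
  refine ⟨c * L * (1 / P.b1 ^ 2), by positivity, fun s hs hb k h => ?_⟩
  set ρ := P.ρ C s h with hρ
  set K1 := C.K (s.G true : M) k
  set K0 := C.K (s.G false : M) k
  have h1 : P.q2Fn C s k h * P.Vt C s ≤ s.act * P.Vt C s * P.iD C s
        * ((1 / 2 : ℝ) • (P.Γc C s * P.s2c s * (k * k)) + P.s1c s * k * P.dΓ C s k
          + P.sc s * P.d2Γ C s k)
      + (c * δ') • (k * k + K1 * K1 + K0 * K0) + (c * L) • (ρ * ρ) := by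
    refine ContinuousMap.le_def.2 fun x => ?_
    obtain ⟨hΓ, hΓ'⟩ := Γc_bounds (C := C) hb x
    obtain ⟨hi, hi'⟩ := iD_bounds (P := P) (C := C) s x
    have hW := hs.W_mem x
    have ga := gpart_bounds _ _ (P.gc_pos C s true x) (P.gc_pos C s false x)
    have gb := gpart_bounds _ _ (P.gc_pos C s false x) (P.gc_pos C s true x)
    have hs2 : s2 P.κ (s.W x) ≤ 0 := by
      unfold s2 h2
      have := xi_pos P.κ_pos (s.W x)
      have := P.κ_pos
      have : 0 ≤ 75 * (P.κ * √P.κ) / (xi P.κ (s.W x) ^ 2 * √(xi P.κ (s.W x))) := by positivity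
      linarith
    have key := second_pt2 (k := k x) (ρ := ρ x) (Ka := K1 x) (Kb := K0 x) hΓ.le hΓ'
      (hSa _ ⟨hW.1, hW.2⟩) hs2 (hSb _ ⟨hW.1, hW.2⟩) ga gb hδ'0
    rw [← hL] at key
    have hV0 : 0 ≤ P.Vt C s x := le_trans P.l_pos.le (le_max_right _ _)
    have hV6 : P.Vt C s x ≤ 6 := by
      rw [Vt_eq hP hs.G_nonneg, ContinuousMap.add_apply]
      linarith [(V_bounds hP hs.G_nonneg true x).2, (V_bounds hP hs.G_nonneg false x).2]
    have hR : 0 ≤ δ' * (k x * k x + K1 x * K1 x + K0 x * K0 x) + L * (ρ x * ρ x) := by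
      have := mul_self_nonneg (k x)
      have := mul_self_nonneg (K1 x)
      have := mul_self_nonneg (K0 x)
      have := mul_self_nonneg (ρ x)
      positivity
    have hVi : P.iD C s x * P.Vt C s x ≤ c := by
      calc P.iD C s x * P.Vt C s x ≤ 1 / P.b1 * 6 := mul_le_mul hi' hV6 hV0 (by positivity)
        _ = c := by rw [hc]; ring
    have e2 : P.s2c s x = s2 P.κ (s.W x) := rfl
    have e1 : P.s1c s x = s1 P.κ (s.W x) := rfl
    simp only [q2Fn, ← hρ, ContinuousMap.add_apply, ContinuousMap.mul_apply,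
      ContinuousMap.sub_apply, ContinuousMap.smul_apply, smul_eq_mul, dΓ_apply, e1, e2]
    rcases hs.act_01 x with ha | ha <;> rw [ha]
    · have := mul_nonneg hc0.le hR
      linarith
    · have hR' := mul_le_mul_of_nonneg_right hVi hR
      have := mul_le_mul_of_nonneg_left key (mul_nonneg hi.le hV0)
      linarith
  have h2 := C.ig_mono h1
  rw [C.ig_add, C.ig_add, C.ig_smul, C.ig_smul, C.ig_add, C.ig_add] at h2
  have hK : ∀ i, C.ig (C.K (s.G i : M) k * C.K (s.G i : M) k) ≤ P.Λ ^ 4 * C.ig (k * k) := fun i =>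
    (C.cov_sq_K_le (IsSelfAdjoint.of_nonneg (hs.G_nonneg i)) k).trans
      (mul_le_mul_of_nonneg_right (pow_le_pow_left₀ (norm_nonneg _)
        (Core.norm_le_of_nonneg_le (P.g_pos.le.trans P.g_le) (hs.G_nonneg i) (hb i).2) 4)
        (C.ig_nonneg (ContinuousMap.le_def.2 fun x => by simpa using mul_self_nonneg (k x))))
  have h3 := mul_le_mul_of_nonneg_left (add_le_add (hK true) (hK false))
    (mul_nonneg hc0.le hδ'0.le)
  have h4 : c * δ' * (1 + 2 * P.Λ ^ 4) = δ := by rw [hδ']; field_simp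
  have h5 := mul_le_mul_of_nonneg_left (ig_ρ_sq_le (P := P) (C := C) (s := s) h)
    (mul_nonneg hc0.le hL0)
  rw [← hρ] at h5
  rw [← h4]
  linarith

/-- The direction of the budget at an active point. -/
theorem dir_eq (s : Col M X) (k h : C(X, ℝ)) {x : X} (ha : s.act x = 1) :
    P.dir C s k h x = P.Dc C s x * k x - P.sc s x * P.dΓ C s k x - h x ∧
    P.dir C s k h x = P.Dc C s x * (k x - P.ρ C s h x) - P.sc s x * P.dΓ C s k x := by
  have hD : P.Dc C s x ≠ 0 := (P.Dc_pos C s x).ne'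
  have e : P.dir C s k h x = P.Dc C s x * k x - P.sc s x * P.dΓ C s k x - h x := by
    simp only [dir, dΓ, Fintype.sum_bool, ContinuousMap.sub_apply, ContinuousMap.add_apply,
      ContinuousMap.mul_apply, ha, one_mul]
    ring
  refine ⟨e, e.trans ?_⟩
  simp only [ρ, ContinuousMap.mul_apply, ha, one_mul,
    show P.iD C s x = (P.Dc C s x)⁻¹ from rfl]
  field_simp
  ring

/-- Uniform bounds of the quantities of one step. -/
theorem exists_bounds (P : Prm M) (C : Core M X) (B : ℝ) :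
    ∃ T : ℝ, 0 ≤ T ∧ ∀ (s : Col M X), s.Ok P C → P.Bounded s →
      ∀ (k h : C(X, ℝ)), ‖k‖ ≤ B → ‖h‖ ≤ B → ∀ x, |k x - P.ρ C s h x| ≤ T ∧
        (∀ i, |C.K (s.G i : M) k x| ≤ T) ∧ |P.q2Fn C s k h x| ≤ T ∧
        (s.act x = 1 → |P.dir C s k h x| ≤ T) := by
  obtain ⟨Sa, hSa⟩ := isCompact_Icc.exists_bound_of_continuousOn
    (continuous_s2 P.κ_pos).continuousOn (s := Set.Icc (0 : ℝ) P.Wa)
  obtain ⟨Sb, hSb⟩ := isCompact_Icc.exists_bound_of_continuousOn
    (continuous_s1 P.κ_pos).continuousOn (s := Set.Icc (0 : ℝ) P.Wa)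
  have hb1 := P.b1_pos
  have hg := P.g_pos
  have hΛ : 0 < P.Λ := hg.trans_le P.g_le
  set B0 := max B 1
  have hB0 : 0 < B0 := lt_max_of_lt_right one_pos
  set Kb := P.Λ ^ 2 * B0 with hKb
  set J := B0 + 1 / P.b1 * B0 with hJ
  set dG := 8 * P.Λ ^ 2 * Kb ^ 2 / (2 * P.g) ^ 3 with hdG
  set Qb := 1 / P.b1 * (1 / 2 * (P.Λ * |Sa| * (J * J)) + |Sb| * J * (4 * Kb) + 1 / 4 * dG) with hQb
  set dB := (1 + P.Λ * |Sb|) * B0 + 1 / 4 * (4 * Kb) + B0 with hdB
  have hKb0 : 0 ≤ Kb := by positivity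
  have hJ0 : 0 ≤ J := by positivity
  have hQb0 : 0 ≤ Qb := by positivity
  have hdB0 : 0 ≤ dB := by positivity
  refine ⟨J + Kb + Qb + dB, by positivity, fun s hs hb k h hkB hhB x => ?_⟩
  have hkx := abs_apply_le (hkB.trans (le_max_left B 1)) x
  have hhx := abs_apply_le (hhB.trans (le_max_left B 1)) x
  obtain ⟨hi0, hi1⟩ := iD_bounds (P := P) (C := C) s x
  obtain ⟨hΓ0, hΓ1⟩ := Γc_bounds (C := C) hb x
  have hW := hs.W_mem x
  have h2 : |P.s2c s x| ≤ |Sa| := (hSa _ ⟨hW.1, hW.2⟩).trans (le_abs_self _)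
  have h1 : |P.s1c s x| ≤ |Sb| := (hSb _ ⟨hW.1, hW.2⟩).trans (le_abs_self _)
  have h0 : |P.sc s x| ≤ 1 / 4 := by
    show |sF P.κ (s.W x)| ≤ 1 / 4
    rw [abs_of_nonneg (sF_nonneg P.κ_pos P.κ_le hW.1 hW.2)]
    exact sF_le P.κ_pos P.κ_le hW.1 hW.2
  have hρx : |P.ρ C s h x| ≤ 1 / P.b1 * B0 := by
    rcases hs.act_01 x with ha | ha
    · simp [ρ, ha]; positivity
    · simp only [ρ, ContinuousMap.mul_apply, ha, one_mul, abs_mul, abs_of_pos hi0]
      exact mul_le_mul hi1 hhx (abs_nonneg _) (by positivity)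
  have hj : |k x - P.ρ C s h x| ≤ J := (abs_sub _ _).trans (add_le_add hkx hρx)
  have hK : ∀ i, |C.K (s.G i : M) k x| ≤ Kb := fun i => abs_apply_le
    ((C.norm_K_le _ _).trans (mul_le_mul (pow_le_pow_left₀ (norm_nonneg _)
      (Core.norm_le_of_nonneg_le hΛ.le (hs.G_nonneg i) (hb i).2) 2)
      (hkB.trans (le_max_left B 1)) (norm_nonneg _) (by positivity))) x
  have hdΓ : |P.dΓ C s k x| ≤ 4 * Kb := by
    rw [dΓ_apply]
    obtain ⟨a0, a2⟩ := gpart_bounds _ _ (P.gc_pos C s true x) (P.gc_pos C s false x)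
    obtain ⟨b0, b2⟩ := gpart_bounds _ _ (P.gc_pos C s false x) (P.gc_pos C s true x)
    refine (abs_add_le _ _).trans ?_
    rw [abs_mul, abs_mul, abs_of_nonneg a0, abs_of_nonneg b0]
    have := mul_le_mul a2 (hK true) (abs_nonneg _) zero_le_two
    have := mul_le_mul b2 (hK false) (abs_nonneg _) zero_le_two
    linarith
  have hgc : ∀ i, P.g ≤ P.gc C s i x ∧ P.gc C s i x ≤ P.Λ := fun i => by
    rw [gc_eq hb]; exact γ_bounds hb i x
  refine ⟨by linarith, fun i => (hK i).trans (by linarith), le_trans ?_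
    (show Qb ≤ J + Kb + Qb + dB by linarith), fun ha => le_trans ?_
    (show dB ≤ J + Kb + Qb + dB by linarith)⟩
  · rcases hs.act_01 x with ha | ha
    · simp [q2Fn, ha, hQb0]
    have hd2 : |P.d2Γ C s k x| ≤ dG :=
      abs_dgam2_le hg (hgc true).1 (hgc true).2 (hgc false).1 (hgc false).2 (hK true) (hK false)
    simp only [q2Fn, ContinuousMap.mul_apply, ContinuousMap.add_apply, ContinuousMap.sub_apply,
      ContinuousMap.smul_apply, smul_eq_mul, ha, one_mul]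
    rw [abs_mul, abs_of_pos hi0, hQb]
    refine mul_le_mul hi1 ?_ (abs_nonneg _) (by positivity)
    refine (abs_add_le _ _).trans (add_le_add ((abs_add_le _ _).trans (add_le_add ?_ ?_)) ?_)
    · rw [abs_mul, abs_mul, abs_mul, abs_mul, abs_of_pos hΓ0,
        abs_of_nonneg (by norm_num : (0:ℝ) ≤ 1 / 2)]
      gcongr
    · rw [abs_mul, abs_mul]; gcongr
    · rw [abs_mul]; gcongr
  · rw [(dir_eq s k h ha).1, hdB]
    have hDle : |P.Dc C s x| ≤ 1 + P.Λ * |Sb| := by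
      rw [abs_of_pos (P.Dc_pos C s x)]
      refine max_le ?_ ?_
      · unfold DF
        have := mul_le_mul hΓ1 h1 (abs_nonneg _) hΛ.le
        have := neg_le_abs (P.Γc C s x * P.s1c s x)
        rw [abs_mul, abs_of_pos hΓ0] at this
        show 1 - P.Γc C s x * P.s1c s x ≤ _
        linarith
      · have := P.κ_le
        have : P.b1 ≤ 1 := by unfold Prm.b1; linarith [P.κ_pos]
        linarith [mul_nonneg hΛ.le (abs_nonneg Sb)]
    have t1 : |P.Dc C s x * k x| ≤ (1 + P.Λ * |Sb|) * B0 := by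
      rw [abs_mul]; exact mul_le_mul hDle hkx (abs_nonneg _) (by positivity)
    have t2 : |P.sc s x * P.dΓ C s k x| ≤ 1 / 4 * (4 * Kb) := by
      rw [abs_mul]; exact mul_le_mul h0 hdΓ (abs_nonneg _) (by norm_num)
    have := abs_sub (P.Dc C s x * k x - P.sc s x * P.dΓ C s k x) (h x)
    have := abs_sub (P.Dc C s x * k x) (P.sc s x * P.dΓ C s k x)
    linarith

/-- The moved weight is admissible with the moved resolvents. -/
theorem exists_move (P : Prm M) (C : Core M X) (B : ℝ) :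
    ∃ C2 Qb : ℝ, 0 ≤ C2 ∧ 0 ≤ Qb ∧ ∃ η0 : ℝ, 0 < η0 ∧ η0 ≤ 1 ∧
      ∀ (s : Col M X), s.Ok P C → P.Window s → P.Bounded s →
      ∀ (k h : C(X, ℝ)), ‖k‖ ≤ B → ‖h‖ ≤ B → k * s.act = k →
      ∀ η : ℝ, 0 < η → η ≤ η0 → ∀ G' : Bool → Mˣ, (∀ i, 0 ≤ (G' i : M)) →
        (∀ i, (G' i : M) = (s.G i : M) + η • ((s.G i : M) * C.r k * (s.G i : M))) →
        (∀ x, |P.q2Fn C s k h x| ≤ Qb) ∧
        ∃ W' : C(X, ℝ),
          (⟨s.act, s.ass, s.b + η • P.dir C s k h, W', G'⟩ : Col M X).Ok P C ∧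
          P.wt (⟨s.act, s.ass, s.b + η • P.dir C s k h, W', G'⟩ : Col M X)
            = P.wt s + η • (k - P.ρ C s h)
              + η ^ 2 • (P.q2Fn C s k h + (η * C2) • (s.act * P.iD C s)) := by
  obtain ⟨T, hT, hbd⟩ := exists_bounds P C B
  have hb1 := P.b1_pos
  have hκ := P.κ_pos
  obtain ⟨C2, hC2, ηT, hηT, hstep⟩ := exists_TF_step hκ P.κ_le P.g_pos (Λ := P.Λ) (T + 1)
  refine ⟨C2, T, hC2, hT,
    min (min 1 ηT) (min (P.b1 / (2 * (2 * T + 2))) (P.b1 / (C2 + 1))), by positivity,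
    (min_le_left _ _).trans (min_le_left _ _), ?_⟩
  intro s hs hw hb k h hkB hhB hka η hη hη0 G' hG'0 hG'v
  obtain ⟨⟨hη1, hη2⟩, hη3, hη5⟩ :
      (η ≤ 1 ∧ η ≤ ηT) ∧ η ≤ P.b1 / (2 * (2 * T + 2)) ∧ η ≤ P.b1 / (C2 + 1) := by
    simpa only [le_min_iff] using hη0
  rw [le_div_iff₀ (by positivity)] at hη3 hη5
  refine ⟨fun x => (hbd s hs hb k h hkB hhB x).2.2.1, ?_⟩
  have hηT0 := mul_nonneg hη.le hT
  set qq : C(X, ℝ) := P.q2Fn C s k h + (η * C2) • (s.act * P.iD C s) with hqq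
  set ρ' := P.ρ C s h with hρ
  set W' : C(X, ℝ) := s.W + η • (k - ρ') + η ^ 2 • qq with hW'
  have hEr' : ∀ i x, C.Er (G' i : M) x = P.γ C s i x + η * C.K (s.G i : M) k x := fun i x => by
    rw [hG'v, C.Er_add, C.Er_smul, Core.K, (IsSelfAdjoint.of_nonneg (hs.G_nonneg i)).star_eq]
    rfl
  have hk0 : ∀ x, s.act x = 0 → k x = 0 := fun x ha => by
    have := congrArg (fun f : C(X, ℝ) => f x) hka
    simpa [ha] using this.symm
  have hρ0 : ∀ x, s.act x = 0 → ρ' x = 0 := fun x ha => by simp [hρ, ρ, ha]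
  have hqq0 : ∀ x, s.act x = 0 → qq x = 0 := fun x ha => by simp [hqq, q2Fn, ha]
  have hqqx : ∀ x, s.act x = 1 → |qq x| ≤ T + 1 := fun x ha => by
    obtain ⟨hi0, hi1⟩ := iD_bounds (P := P) (C := C) s x
    simp only [hqq, ContinuousMap.add_apply, ContinuousMap.smul_apply, ContinuousMap.mul_apply,
      smul_eq_mul, ha, one_mul]
    refine (abs_add_le _ _).trans (add_le_add (hbd s hs hb k h hkB hhB x).2.2.1 ?_)
    rw [abs_of_nonneg (by positivity)]
    calc η * C2 * P.iD C s x ≤ η * C2 * (1 / P.b1) :=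
          mul_le_mul_of_nonneg_left hi1 (by positivity)
      _ ≤ 1 := by rw [mul_one_div, div_le_one hb1]; linarith
  have hmain : ∀ x, s.act x = 1 → (0 ≤ W' x ∧ W' x ≤ P.Wa) ∧
      -P.b1 ≤ s.b x + η * P.dir C s k h x ∧
      s.b x + η * P.dir C s k h x + 2 * P.b1
        ≤ TF P.κ (gam2 (C.Er (G' true : M) x) (C.Er (G' false : M) x)) (W' x) := fun x ha => by
    obtain ⟨hTF, hW1, hD⟩ := window_bounds hs hw hb ha
    have hW := hs.W_mem x
    have hWm : s.W x ≤ P.Wm := hw.high x ha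
    obtain ⟨hj, hKx, -, hdx⟩ := hbd s hs hb k h hkB hhB x
    have hqqR := hqqx x ha
    have hmove : |η * (k x - ρ' x) + η ^ 2 * qq x| ≤ P.b1 := by
      refine (abs_add_le _ _).trans ?_
      rw [abs_mul, abs_mul, abs_of_pos hη, abs_of_pos (pow_pos hη 2)]
      have := mul_le_mul_of_nonneg_left hj hη.le
      have h2 : η ^ 2 * |qq x| ≤ η * (T + 1) := by
        rw [sq, mul_assoc]
        exact mul_le_mul_of_nonneg_left
          ((mul_le_of_le_one_left (abs_nonneg _) hη1).trans hqqR) hη.le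
      rw [← hρ] at this
      linarith
    obtain ⟨hm1, hm2⟩ := abs_le.1 hmove
    have eW : W' x = s.W x + η * (k x - ρ' x) + η ^ 2 * qq x := by simp [hW']
    refine ⟨⟨by rw [eW]; linarith, ?_⟩, ?_, ?_⟩
    · rw [eW]
      unfold Prm.Wm at hWm
      unfold Prm.Wa
      unfold Prm.b1 at hm1 hm2
      linarith
    · have h3 := mul_le_mul_of_nonneg_left (abs_le.1 (hdx ha)).1 hη.le
      linarith [hw.low x ha]
    · have hgc : ∀ i, P.g ≤ P.gc C s i x ∧ P.gc C s i x ≤ P.Λ := fun i => by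
        rw [gc_eq hb]; exact γ_bounds hb i x
      have h4 := hstep (s.W x) (P.gc C s true x) (P.gc C s false x) (k x - ρ' x)
        (C.K (s.G true : M) k x) (C.K (s.G false : M) k x) (qq x) η hW.1
        (by unfold Prm.Wm at hWm; linarith) (hgc true).1 (hgc true).2 (hgc false).1
        (hgc false).2 (hj.trans (by linarith)) ((hKx true).trans (by linarith))
        ((hKx false).trans (by linarith)) hqqR hη.le hη2
      rw [hEr', hEr', eW, ← gc_eq hb, ← gc_eq hb]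
      refine le_trans ?_ h4
      have hde : dgam (P.gc C s true x) (P.gc C s false x) (C.K (s.G true : M) k x)
          (C.K (s.G false : M) k x) = P.dΓ C s k x := by rw [dΓ_apply]; rfl
      rw [show gam2 (P.gc C s true x) (P.gc C s false x) = P.Γc C s x from rfl, hde,
        show dgam2 (P.gc C s true x) (P.gc C s false x) (C.K (s.G true : M) k x)
          (C.K (s.G false : M) k x) = P.d2Γ C s k x from rfl, ← hD]
      have hq : P.Dc C s x * qq x = P.Γc C s x * s2 P.κ (s.W x) / 2 * (k x - ρ' x) ^ 2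
          + s1 P.κ (s.W x) * (k x - ρ' x) * P.dΓ C s k x + sF P.κ (s.W x) * P.d2Γ C s k x
          + η * C2 := by
        simp only [hqq, q2Fn, ← hρ, ContinuousMap.add_apply, ContinuousMap.mul_apply,
          ContinuousMap.sub_apply, ContinuousMap.smul_apply, smul_eq_mul, ha, one_mul,
          show P.iD C s x = (P.Dc C s x)⁻¹ from rfl,
          show P.s2c s x = s2 P.κ (s.W x) from rfl, show P.s1c s x = s1 P.κ (s.W x) from rfl,
          show P.sc s x = sF P.κ (s.W x) from rfl]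
        field_simp [(P.Dc_pos C s x).ne']
      rw [(dir_eq s k h ha).2, ← hρ, hq, show P.sc s x = sF P.κ (s.W x) from rfl]
      linarith
  refine ⟨W', ⟨hs.act_01, hs.ass_01, fun x ha => ?_, fun x => ?_, hG'0, fun x ha => ?_⟩, ?_⟩
  · simpa using (hmain x ha).2.1
  · rcases hs.act_01 x with ha | ha
    · have : W' x = s.W x := by simp [hW', hk0 x ha, hρ0 x ha, hqq0 x ha]
      show 0 ≤ W' x ∧ W' x ≤ P.Wa
      rw [this]; exact hs.W_mem x
    · exact (hmain x ha).1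
  · refine Or.inr ?_
    simpa using (hmain x ha).2.2
  · ext x
    rcases hs.act_01 x with ha | ha
    · simp [wt, ha, hk0 x ha, hρ0 x ha, hqq0 x ha]
    · simp [wt, hW', ha]; ring

/-- The change of the potential of one sign. -/
theorem one_side (hP : P.Ok C) {s s' : Col M X} (hG : ∀ i, 0 ≤ (s.G i : M))
    (hG' : ∀ i, 0 ≤ (s'.G i : M)) (i : Bool) {k q2 u ρ' : C(X, ℝ)} {η C2 N B0 Qb Cu : ℝ}
    (hη : 0 < η) (hη1 : η ≤ 1) (hC2 : 0 ≤ C2) (hk : ‖k‖ ≤ B0) (hGn : ‖(s.G i : M)‖ ≤ N)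
    (hq : ‖q2‖ ≤ Qb) (hu : ‖u‖ ≤ Cu)
    (hwt : P.wt s' = P.wt s + η • (k - ρ') + η ^ 2 • (q2 + (η * C2) • u))
    (hv : (s'.G i : M) = (s.G i : M) + η • ((s.G i : M) * C.r k * (s.G i : M))) {C3 : ℝ}
    (hi : ‖(↑(s'.G i)⁻¹ : M) - (↑(s.G i)⁻¹ - η • C.r k
        + η ^ 2 • (C.r k * (s.G i : M) * C.r k))‖ ≤ η ^ 3 * C3) :
    C.tr (cfc (Scalar.f P.u2 P.sm P.l) (P.mat C s' i)) + P.ν * C.tr (s'.G i : M)
      ≤ C.tr (cfc (Scalar.f P.u2 P.sm P.l) (P.mat C s i)) + P.ν * C.tr (s.G i : M)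
        + η * (C.tr (P.dmat C s i * (-C.r ρ'))
          + P.ν * C.tr ((s.G i : M) * C.r k * (s.G i : M)))
        + η ^ 2 * (P.loss C s i k + C.ig (q2 * P.V C s i) + 1 / P.sm * C.ig (ρ' * ρ'))
        + η ^ 3 * (3 * (C3 + C2 * Cu) + 1 / P.sm * (B0 * N * B0 + Qb + (C3 + C2 * Cu)) ^ 2) := by
  have hσ := P.sm_pos
  have hB0 : 0 ≤ B0 := (norm_nonneg _).trans hk
  have hN : 0 ≤ N := (norm_nonneg _).trans hGn
  have hCu : 0 ≤ Cu := (norm_nonneg _).trans hu
  have hC3 : 0 ≤ C3 := nonneg_of_mul_nonneg_right ((norm_nonneg _).trans hi) (by positivity)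
  set N3 := C3 + C2 * Cu with hN3
  set N2 := B0 * N * B0 + Qb with hN2
  set W := P.dmat C s i with hWdef
  set A1 := -C.r ρ' with hA1
  set A2 := C.r k * (s.G i : M) * C.r k + C.r q2 with hA2
  set A3 := ((↑(s'.G i)⁻¹ : M) - (↑(s.G i)⁻¹ - η • C.r k
      + η ^ 2 • (C.r k * (s.G i : M) * C.r k))) + (η ^ 3 * C2) • C.r u with hA3
  set Δ := η • A1 + η ^ 2 • A2 + A3 with hΔ
  have hmat : P.mat C s' i = P.mat C s i + Δ := by
    simp only [mat, hwt, hΔ, hA1, hA2, hA3, C.r_add, C.r_sub, C.r_smul, smul_add, smul_sub,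
      smul_smul]
    match_scalars <;> ring
  have hAsa : IsSelfAdjoint (P.mat C s i) := mat_isSelfAdjoint hP hG i
  have hA' : IsSelfAdjoint (P.mat C s' i) := mat_isSelfAdjoint hP hG' i
  have h2 := C.klein_upper Scalar.continuous_f (Scalar.continuous_f' (l := P.l) hσ)
    (Scalar.f_quad (u := P.u2) (l := P.l) hσ) hAsa hA'
  rw [show cfc (Scalar.f' P.u2 P.sm P.l) (P.mat C s i) = W from rfl, hmat,
    add_sub_cancel_left] at h2
  rw [hmat]
  have hA3b : ‖A3‖ ≤ η ^ 3 * N3 := by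
    refine (norm_add_le _ _).trans ?_
    rw [hN3, mul_add, norm_smul, Real.norm_of_nonneg (by positivity), ← mul_assoc _ C2]
    exact add_le_add hi (mul_le_mul_of_nonneg_left ((C.norm_r_le _).trans hu) (by positivity))
  have hWΔ : C.tr (W * Δ) ≤ η * C.tr (W * A1) + η ^ 2 * C.tr (W * A2) + 3 * (η ^ 3 * N3) := by
    rw [hΔ, mul_add, mul_add, C.tr_add, C.tr_add, mul_smul_comm, mul_smul_comm, C.tr_smul,
      C.tr_smul]
    have := (le_abs_self _).trans (C.abs_tr_mul_le_norm W A3)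
    have := mul_le_mul (norm_dmat_le (P := P) (C := C) s i) hA3b (norm_nonneg _) (by norm_num)
    linarith
  have hA2b : ‖A2‖ ≤ N2 := by
    refine (norm_add_le _ _).trans (add_le_add ?_ ((C.norm_r_le _).trans hq))
    have hkn : ‖C.r k‖ ≤ B0 := (C.norm_r_le k).trans hk
    exact norm_mul₃_le.trans (by gcongr)
  have hn1 : C.n2sq A1 = C.ig (ρ' * ρ') := by
    rw [← C.cov_n2sq_r]; simp [hA1, Core.n2sq]
  have hnΔ : 1 / P.sm / 2 * C.n2sq Δ ≤ η ^ 2 * (1 / P.sm * C.ig (ρ' * ρ'))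
      + η ^ 3 * (1 / P.sm * (N2 + N3) ^ 2) := by
    set Bm := η ^ 2 • A2 + A3
    have hη32 : η ^ 3 ≤ η ^ 2 := pow_le_pow_of_le_one hη.le hη1 (by norm_num)
    have hBm : ‖Bm‖ ≤ η ^ 2 * (N2 + N3) := by
      refine (norm_add_le _ _).trans ?_
      rw [mul_add, norm_smul, Real.norm_of_nonneg (sq_nonneg η)]
      exact add_le_add (mul_le_mul_of_nonneg_left hA2b (sq_nonneg η))
        (hA3b.trans (mul_le_mul_of_nonneg_right hη32 (by positivity)))
    have hB2 : C.n2sq Bm ≤ η ^ 3 * (N2 + N3) ^ 2 := by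
      refine (C.n2sq_le_norm_sq Bm).trans ((pow_le_pow_left₀ (norm_nonneg _) hBm 2).trans ?_)
      rw [mul_pow, ← pow_mul]
      exact mul_le_mul_of_nonneg_right (pow_le_pow_of_le_one hη.le hη1 (by norm_num))
        (sq_nonneg _)
    have hsum : C.n2sq Δ ≤ 2 * C.n2sq (η • A1) + 2 * C.n2sq Bm := by
      rw [show Δ = η • A1 + Bm by simp only [hΔ, Bm]; abel]
      exact C.n2sq_add_two_le _ _
    rw [show C.n2sq (η • A1) = η ^ 2 * C.n2sq A1 by simp [Core.n2sq, C.tr_smul, smul_smul, sq],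
      hn1] at hsum
    calc 1 / P.sm / 2 * C.n2sq Δ
        ≤ 1 / P.sm / 2 * (2 * (η ^ 2 * C.ig (ρ' * ρ')) + 2 * (η ^ 3 * (N2 + N3) ^ 2)) :=
          mul_le_mul_of_nonneg_left (by linarith) (by positivity)
      _ = _ := by ring
  have hA2t : C.tr (W * A2) = P.loss C s i k + C.ig (q2 * P.V C s i) := by
    rw [hA2, mul_add, C.tr_add, C.tr_comm W (C.r q2),
      C.tr_r_mul q2 (z := W) IsSelfAdjoint.cfc, C.tr_comm W]
    rfl
  have htG : P.ν * C.tr (s'.G i : M) = P.ν * C.tr (s.G i : M)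
      + η * (P.ν * C.tr ((s.G i : M) * C.r k * (s.G i : M))) := by
    rw [hv, C.tr_add, C.tr_smul]; ring
  rw [← hA2t, htG]
  linarith

end Prm

open Prm in
/-- One step of one colour. The constant of the residual does not depend on the bound `B` of
the direction. -/
theorem exists_colour_step (hP : P.Ok C) {δ : ℝ} (hδ : 0 < δ) :
    ∃ K : ℝ, 0 ≤ K ∧ ∀ B : ℝ, ∃ Cst : ℝ, 0 ≤ Cst ∧ ∃ η0 : ℝ, 0 < η0 ∧
      ∀ (s : Col M X), s.Ok P C → P.Window s → P.Bounded s →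
      ∀ (k h0 : C(X, ℝ)), ‖k‖ ≤ B → ‖h0‖ ≤ B → k * s.act = k →
      ∀ η : ℝ, 0 < η → η ≤ η0 →
        ∃ (W' : C(X, ℝ)) (G' : Bool → Mˣ),
          (⟨s.act, s.ass, s.b + η • P.dir C s k h0, W', G'⟩ : Col M X).Ok P C ∧
          P.pot C ⟨s.act, s.ass, s.b + η • P.dir C s k h0, W', G'⟩
            ≤ P.pot C s + η * P.lin C s k h0
              + η ^ 2 * (P.second C s k + δ * C.ig (k * k)
                + K * C.ig ((s.act * h0) * (s.act * h0)))
              + η ^ 3 * Cst := by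
  obtain ⟨Kq, hKq, hquad⟩ := exists_ig_q2Fn_le hP hδ
  have hb1 := P.b1_pos
  have hσ := P.sm_pos
  have hg := P.g_pos
  have hΛ : 0 < P.Λ := hg.trans_le P.g_le
  refine ⟨Kq + 2 / P.sm * (1 / P.b1 ^ 2), by positivity, fun B => ?_⟩
  set B0 := max B 1
  have hB0 : 0 < B0 := lt_max_of_lt_right one_pos
  obtain ⟨C2, Qb, hC2, hQb, ηm, hηm, hηm1, hmove⟩ := exists_move P C B
  set C3 := (B0 * P.Λ) ^ 3 * (2 / P.g)
  refine ⟨2 * (3 * (C3 + C2 * (1 / P.b1))
      + 1 / P.sm * (B0 * P.Λ * B0 + Qb + (C3 + C2 * (1 / P.b1))) ^ 2), by positivity,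
    min ηm (P.g / 2 / (P.Λ * B0 * P.Λ + 1)), by positivity, ?_⟩
  intro s hs hw hb k h0 hkB hhB hka η hη hη0
  obtain ⟨hη1, hη4⟩ := le_min_iff.1 hη0
  rw [le_div_iff₀ (by positivity)] at hη4
  have hk : ‖k‖ ≤ B0 := hkB.trans (le_max_left _ _)
  have hG := hs.G_nonneg
  have hnG : ∀ i, ‖(s.G i : M)‖ ≤ P.Λ := fun i =>
    Core.norm_le_of_nonneg_le hΛ.le (hG i) (hb i).2
  have hex : ∀ i, ∃ G' : Mˣ, 0 ≤ (G' : M) ∧
      (G' : M) = (s.G i : M) + η • ((s.G i : M) * C.r k * (s.G i : M)) ∧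
      ‖(↑G'⁻¹ : M) - (↑(s.G i)⁻¹ - η • C.r k + η ^ 2 • (C.r k * (s.G i : M) * C.r k))‖
        ≤ η ^ 3 * C3 := fun i =>
    Four.exists_inv_step (hG i) hg (hb i).1 (hnG i) (C.r_isSelfAdjoint k)
      ((C.norm_r_le k).trans hk) hη.le (by linarith)
  choose G' hG'0 hG'v hG'i using hex
  obtain ⟨hq2x, W', hok, hwt⟩ := hmove s hs hw hb k h0 hkB hhB hka η hη hη1 G' hG'0 hG'v
  refine ⟨W', G', hok, ?_⟩
  set s' : Col M X := ⟨s.act, s.ass, s.b + η • P.dir C s k h0, W', G'⟩ with hs'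
  set ρ' := P.ρ C s h0 with hρ
  set q2 := P.q2Fn C s k h0 with hq2
  have hu : ‖s.act * P.iD C s‖ ≤ 1 / P.b1 := norm_le_of_abs (by positivity) fun x => by
    obtain ⟨hi0, hi1⟩ := iD_bounds (P := P) (C := C) s x
    rcases hs.act_01 x with ha | ha <;>
      simp only [ContinuousMap.mul_apply, ha, zero_mul, one_mul, abs_zero, abs_of_pos hi0]
    · positivity
    · exact hi1
  have hone := fun i => one_side hP (s' := s') hG hG'0 i hη (hη1.trans hηm1) hC2 hk (hnG i)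
    (norm_le_of_abs hQb hq2x) hu hwt (hG'v i) (hG'i i)
  have hsum := add_le_add (hone true) (hone false)
  have hl : P.lin C s k h0 = ∑ i, (C.tr (P.dmat C s i * (-C.r ρ'))
      + P.ν * C.tr ((s.G i : M) * C.r k * (s.G i : M))) := by
    rw [Prm.lin, hρ, Prm.ρ, ← mul_assoc]
  have hq : C.ig (q2 * P.Vt C s) = C.ig (q2 * P.V C s true) + C.ig (q2 * P.V C s false) := by
    rw [Vt_eq hP hG, mul_add, C.ig_add]
  have h3 := hquad s hs hb k h0
  rw [← hq2, hq] at h3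
  have h4 := mul_le_mul_of_nonneg_left (ig_ρ_sq_le (P := P) (C := C) (s := s) h0)
    (by positivity : (0:ℝ) ≤ 2 / P.sm)
  rw [← hρ] at h4
  have h5 : (P.loss C s true k + C.ig (q2 * P.V C s true) + 1 / P.sm * C.ig (ρ' * ρ'))
      + (P.loss C s false k + C.ig (q2 * P.V C s false) + 1 / P.sm * C.ig (ρ' * ρ'))
      ≤ P.second C s k + δ * C.ig (k * k)
        + (Kq + 2 / P.sm * (1 / P.b1 ^ 2)) * C.ig ((s.act * h0) * (s.act * h0)) := by
    rw [Prm.second, Fintype.sum_bool]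
    have : 2 / P.sm * C.ig (ρ' * ρ')
        = 1 / P.sm * C.ig (ρ' * ρ') + 1 / P.sm * C.ig (ρ' * ρ') := by ring
    linarith
  have h6 := mul_le_mul_of_nonneg_left h5 (sq_nonneg η)
  have hp : P.pot C s' = ∑ i, (C.tr (cfc (Scalar.f P.u2 P.sm P.l) (P.mat C s' i))
      + P.ν * C.tr (s'.G i : M)) := rfl
  rw [hp, Prm.pot, hl, Fintype.sum_bool, Fintype.sum_bool, Fintype.sum_bool]
  linarith

end Vale.Agent.P078.Tracial.Two
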