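import Vale.Agent.P078.Tracial.Two.Kz
import Vale.Agent.P078.Tracial.StepAux
import Vale.Agent.P078.Tracial.DiagDev

/-! The squared map of the part off the subalgebra along orthogonal cells. -/

namespace Vale.Agent.P078.Tracial.Core

set_option linter.unusedSectionVars false

open Filter Topology ComplexOrder

variable {M X : Type*} [CStarAlgebra M] [PartialOrder M] [StarOrderedRing M]
variable [TopologicalSpace X] [CompactSpace X] [T2Space X] [TotallyDisconnectedSpace X]
variable (C : Core M X)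

/-- Schwarz inequality for the expectation. -/
lemma Er_sq_le {A u v w : M} (hA : 0 ≤ A) (h1 : star u * A * v = w) (h2 : star v * A * u = w)
    (x : X) : C.Er w x ^ 2 ≤ C.Er (star u * A * u) x * C.Er (star v * A * v) x := by
  have key : ∀ t : ℝ, 0 ≤ C.Er (star u * A * u) x * (t * t) + (2 * C.Er w x) * t
      + C.Er (star v * A * v) x := fun t => by
    have h := ContinuousMap.le_def.1 (C.Er_nonneg (star_left_conjugate_nonneg hA (t • u + v))) x
    have e : star (t • u + v) * A * (t • u + v) =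
        (t * t) • (star u * A * u) + t • w + t • w + star v * A * v := by
      rw [star_add, star_smul, star_trivial]
      simp only [add_mul, mul_add, smul_mul_assoc, mul_smul_comm, h1, h2]
      module
    rw [e, C.Er_add, C.Er_add, C.Er_add, C.Er_smul, C.Er_smul] at h
    simp at h ⊢
    linarith
  have := discrim_le_zero key
  rw [discrim] at this
  linarith

/-- Schwarz inequality for the positive map of the part off the subalgebra. -/
lemma Kz_sq_le {G : M} (hG : IsSelfAdjoint G) (g a b : C(X, ℝ)) (hg : 0 ≤ g)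
    (hab : ∀ y, a y * b y = 1) (x : X) :
    C.Kz G g x ^ 2 ≤ C.Kz G (g * a * a) x * C.Kz G (g * b * b) x := by
  simp only [C.Kz_eq hG]
  set z := C.zG G
  have key : ∀ t : ℝ, 0 ≤ C.Er (z * C.r (g * a * a) * z) x * (t * t)
      + (2 * C.Er (z * C.r g * z) x) * t + C.Er (z * C.r (g * b * b) * z) x := fun t => by
    have hz : IsSelfAdjoint z := C.zG_isSelfAdjoint hG
    have hn : (0 : C(X, ℝ)) ≤ g * (t • a + b) * (t • a + b) :=
      ContinuousMap.le_def.2 fun y => by
        simp only [ContinuousMap.zero_apply, ContinuousMap.mul_apply, mul_assoc]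
        exact mul_nonneg (ContinuousMap.le_def.1 hg y) (mul_self_nonneg _)
    have h := ContinuousMap.le_def.1 (C.Er_nonneg (star_left_conjugate_nonneg (C.r_nonneg hn) z)) x
    rw [hz.star_eq] at h
    have e : g * (t • a + b) * (t • a + b) =
        (t * t) • (g * a * a) + t • g + t • g + g * b * b := by
      ext y
      simp only [ContinuousMap.mul_apply, ContinuousMap.add_apply, ContinuousMap.smul_apply,
        smul_eq_mul]
      linear_combination 2 * t * g y * hab y
    rw [e] at h
    simp only [C.r_add, C.r_smul, mul_add, add_mul, mul_smul_comm, smul_mul_assoc, C.Er_add,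
      C.Er_smul] at h
    simp at h ⊢
    linarith
  have := discrim_le_zero key
  rw [discrim] at this
  linarith

/-- Conjugations along cells converge to the expectation inside a weighted trace. -/
lemma tendsto_cells {z A : M} (hz : IsSelfAdjoint z) (hA : IsSelfAdjoint A) (g w : C(X, ℝ)) :
    Tendsto (fun π : DiscreteQuotient X => ∑ i : π,
      C.ig (w * C.Er (z * C.r (g * cellFn π i) * A * C.r (g * cellFn π i) * z)))
      atBot (𝓝 (C.ig (g ^ 2 * C.Er A * C.Er (z * C.r w * z)))) := by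
  set Bm := C.r g * z * C.r w * z * C.r g with hBm
  have hBsa : IsSelfAdjoint Bm := by
    have := ((C.r_isSelfAdjoint w).conjugate_self hz).conjugate_self (C.r_isSelfAdjoint g)
    simpa [hBm, mul_assoc] using this
  have e1 : ∀ π : DiscreteQuotient X, ∑ i : π,
      C.ig (w * C.Er (z * C.r (g * cellFn π i) * A * C.r (g * cellFn π i) * z)) =
      C.tr (Bm * C.pinch π A) := fun π => by
    simp only [pinch, e, Finset.mul_sum, C.tr_sum]
    refine Finset.sum_congr rfl fun i _ => ?_
    rw [← C.tr_r_mul w ?_, show C.r (g * cellFn π i) = C.r g * C.r (cellFn π i) from C.r_mul _ _,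
      show C.r w * (z * (C.r g * C.r (cellFn π i)) * A * (C.r g * C.r (cellFn π i)) * z) =
        C.r w * z * C.r g * (C.r (cellFn π i) * A * C.r (cellFn π i)) * (C.r g * z) by
          rw [C.r_comm g (cellFn π i)]
          nth_rw 1 [← C.r_comm g (cellFn π i)]
          simp only [mul_assoc],
      C.tr_comm, hBm]
    · simp only [mul_assoc]
    · have := (hA.conjugate_self (C.r_isSelfAdjoint (g * cellFn π i))).conjugate_self hz
      simpa [mul_assoc] using this
  have e2 : C.ig (g ^ 2 * C.Er A * C.Er (z * C.r w * z)) = C.tr (Bm * C.r (C.Er A)) := by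
    rw [C.tr_comm, C.tr_r_mul _ hBsa]
    congr 1
    rw [hBm, show C.r g * z * C.r w * z * C.r g = C.r g * (z * C.r w * z) * C.r g by
      simp only [mul_assoc], C.Er_bimod]
    ring
  simp only [e1, e2]
  rw [tendsto_iff_norm_sub_tendsto_zero]
  have hd : ∀ π : DiscreteQuotient X, ‖C.tr (Bm * C.pinch π A) - C.tr (Bm * C.r (C.Er A))‖ ≤
      √(C.n2sq Bm) * √(C.n2sq (C.pinch π A - C.eE A)) := fun π => by
    rw [Real.norm_eq_abs, ← C.tr_sub, ← mul_sub, C.eE_of_selfAdjoint hA]
    have := C.abs_tr_mul_le Bm (C.pinch π A - C.r (C.Er A))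
    exact this
  refine squeeze_zero (fun π => norm_nonneg _) hd ?_
  have h := ((Real.continuous_sqrt.tendsto 0).comp (C.pinch_tendsto A)).const_mul (√(C.n2sq Bm))
  rw [Real.sqrt_zero, mul_zero] at h
  exact h

/-- Schwarz inequalities for the map of the part off the subalgebra, through the resolvent. -/
theorem eventually_X {G : Mˣ} (hG : 0 ≤ (G : M)) (μ q θ : C(X, ℝ)) (hμ : 0 ≤ μ)
    (hθ : ∀ x, 0 < θ x)
    (hζ : ∀ x, q x ≠ 0 ∨ μ x ≠ 0 →
      C.Er (C.zG (G : M) * (↑G⁻¹ : M) * C.zG (G : M)) x ≤ θ x ^ 2 * C.Er (G : M) x)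
    {ε : ℝ} (hε : 0 < ε) :
    ∀ᶠ π : DiscreteQuotient X in atBot,
      ∑ i : π, C.ig (q ^ 2 * C.Kz (G : M) (μ * cellFn π i) ^ 2)
        ≤ C.ig (μ ^ 2 * C.Er (G : M) * θ
            * C.Er (C.zG (G : M) * C.r (q ^ 2 * C.Er (G : M) * θ) * C.zG (G : M))) + ε := by
  have hGsa := IsSelfAdjoint.of_nonneg hG
  have hGi : (0 : M) ≤ (↑G⁻¹ : M) := CFC.inv_nonneg_of_nonneg G hG
  have hGisa := IsSelfAdjoint.of_nonneg hGi
  set z := C.zG (G : M)
  have hz : IsSelfAdjoint z := C.zG_isSelfAdjoint hGsa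
  have hzgz : IsSelfAdjoint (z * (↑G⁻¹ : M) * z) := hGisa.conjugate_self hz
  set γ := C.Er (G : M)
  set ζ := C.Er (z * (↑G⁻¹ : M) * z)
  set w := q ^ 2 * γ * θ with hw
  set W := C.Er (z * C.r w * z)
  set a : C(X, ℝ) := ⟨fun y => √√(θ y), by fun_prop⟩
  set b : C(X, ℝ) := ⟨fun y => (√√(θ y))⁻¹,
    Continuous.inv₀ (by fun_prop) fun y => by have := hθ y; positivity⟩
  have ha : ∀ y, a y * a y = √(θ y) := fun y => by
    simp only [a, ContinuousMap.coe_mk]
    exact Real.mul_self_sqrt (Real.sqrt_nonneg _)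
  have hb : ∀ y, b y * b y = (√(θ y))⁻¹ := fun y => by
    simp only [b, ContinuousMap.coe_mk, ← mul_inv]
    rw [Real.mul_self_sqrt (Real.sqrt_nonneg _)]
  have hab : ∀ y, a y * b y = 1 := fun y => by
    simp only [a, b, ContinuousMap.coe_mk]
    exact mul_inv_cancel₀ (by have := hθ y; positivity)
  set g1 := μ * a * a
  set g2 := μ * b * b
  -- the pointwise bound along one cell
  have hpt : ∀ (π : DiscreteQuotient X) (i : π) (x : X),
      q x ^ 2 * C.Kz (G : M) (μ * cellFn π i) x ^ 2 ≤ 1 / 2 *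
        (w x * C.Er (z * C.r (g1 * cellFn π i) * (G : M) * C.r (g1 * cellFn π i) * z) x
          + w x * C.Er (z * C.r (g2 * cellFn π i) * (z * (↑G⁻¹ : M) * z)
              * C.r (g2 * cellFn π i) * z) x) := by
    intro π i x
    rcases eq_or_ne (q x) 0 with hq | hq
    · simp [hw, hq]
    set f := μ * cellFn π i
    have hf : 0 ≤ f := ContinuousMap.le_def.2 fun y =>
      mul_nonneg (ContinuousMap.le_def.1 hμ y) (ContinuousMap.le_def.1 (cellFn_nonneg π i) y)
    have hP : g1 * cellFn π i = f * a * a := by simp only [g1, f]; ring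
    have hQ : g2 * cellFn π i = f * b * b := by simp only [g2, f]; ring
    rw [hP, hQ]
    set f1 := f * a * a
    set f2 := f * b * b
    set P := C.Kz (G : M) f1 x
    set Q := C.Kz (G : M) f2 x
    set A1 := C.Er (z * C.r f1 * (G : M) * C.r f1 * z) x
    set A2 := C.Er (z * C.r f2 * (z * (↑G⁻¹ : M) * z) * C.r f2 * z) x
    have hK := C.Kz_sq_le hGsa f a b hf hab x
    have h1 : P ^ 2 ≤ ζ x * A1 := by
      have := C.Er_sq_le (u := z) (v := (G : M) * C.r f1 * z) (w := z * C.r f1 * z) hGi
        (by simp [hz.star_eq, ← mul_assoc])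
        (by simp [hz.star_eq, star_mul, hGsa.star_eq, C.star_r, mul_assoc]) x
      simpa [P, A1, ζ, C.Kz_eq hGsa, hz.star_eq, hGsa.star_eq, C.star_r, star_mul, mul_assoc, z]
        using this
    have h2 : Q ^ 2 ≤ γ x * A2 := by
      have := C.Er_sq_le (u := (1 : M)) (v := (↑G⁻¹ : M) * (z * C.r f2 * z))
        (w := z * C.r f2 * z) hG
        (by simp [← mul_assoc])
        (by simp [hz.star_eq, star_mul, hGisa.star_eq, C.star_r, mul_assoc]) x
      simpa [Q, A2, γ, C.Kz_eq hGsa, hz.star_eq, hGisa.star_eq, C.star_r, star_mul, mul_assoc, z]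
        using this
    have hA1 : 0 ≤ A1 := by
      have h := ContinuousMap.le_def.1 (C.Er_nonneg (star_left_conjugate_nonneg hG
        (C.r f1 * z))) x
      simpa [A1, hz.star_eq, C.star_r, mul_assoc] using h
    have h0 := hθ x
    have hγ0 : 0 ≤ γ x := ContinuousMap.le_def.1 (C.Er_nonneg hG) x
    have h1' : P ^ 2 ≤ θ x ^ 2 * γ x * A1 :=
      h1.trans (mul_le_mul_of_nonneg_right (hζ x (Or.inl hq)) hA1)
    have hPQ : 2 * θ x * (P * Q) ≤ θ x * (θ x * γ x * (A1 + A2)) := by
      nlinarith [sq_nonneg (P - θ x * Q), mul_le_mul_of_nonneg_left h2 (sq_nonneg (θ x))]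
    have hPQ' : 2 * (P * Q) ≤ θ x * γ x * (A1 + A2) :=
      le_of_mul_le_mul_left (by linarith) h0
    simp only [hw, ContinuousMap.mul_apply, ContinuousMap.pow_apply]
    nlinarith [mul_le_mul_of_nonneg_left hK (sq_nonneg (q x)),
      mul_le_mul_of_nonneg_left hPQ' (sq_nonneg (q x))]
  -- the limits
  have hlim := ((C.tendsto_cells hz hGsa g1 w).add (C.tendsto_cells hz hzgz g2 w)).const_mul
    (1 / 2 : ℝ)
  have hW : 0 ≤ W := C.Er_nonneg (by
    have := star_left_conjugate_nonneg (C.r_nonneg (f := w) (ContinuousMap.le_def.2 fun y =>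
      mul_nonneg (mul_nonneg (sq_nonneg _) (ContinuousMap.le_def.1 (C.Er_nonneg hG) y))
        (hθ y).le)) z
    rwa [hz.star_eq] at this)
  have hmain : C.ig (g1 ^ 2 * γ * W) + C.ig (g2 ^ 2 * ζ * W) ≤
      2 * C.ig (μ ^ 2 * γ * θ * W) := by
    rw [two_mul]
    refine add_le_add (C.ig_mono (ContinuousMap.le_def.2 fun y => ?_))
      (C.ig_mono (ContinuousMap.le_def.2 fun y => ?_))
    · simp only [g1, ContinuousMap.mul_apply, ContinuousMap.pow_apply]
      rw [mul_assoc (μ y) (a y), ha, mul_pow, Real.sq_sqrt (hθ y).le]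
      exact le_of_eq (by ring)
    · simp only [g2, ContinuousMap.mul_apply, ContinuousMap.pow_apply]
      rw [mul_assoc (μ y) (b y), hb, mul_pow, inv_pow, Real.sq_sqrt (hθ y).le]
      refine mul_le_mul_of_nonneg_right ?_ (ContinuousMap.le_def.1 hW y)
      rcases eq_or_ne (μ y) 0 with h | h
      · simp [h]
      · calc μ y ^ 2 * (θ y)⁻¹ * ζ y ≤ μ y ^ 2 * (θ y)⁻¹ * (θ y ^ 2 * γ y) :=
              mul_le_mul_of_nonneg_left (hζ y (Or.inr h))
                (mul_nonneg (sq_nonneg _) (inv_nonneg.2 (hθ y).le))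
          _ = μ y ^ 2 * γ y * θ y := by field_simp [(hθ y).ne']
  filter_upwards [hlim.eventually (Iio_mem_nhds (lt_add_of_pos_right _ hε))] with π hπ
  simp only [← Finset.sum_add_distrib, Finset.mul_sum, ← C.ig_add, ← C.ig_smul]
    at hπ
  have hsum := Finset.sum_le_sum fun i (_ : i ∈ (Finset.univ : Finset π)) =>
    C.ig_mono (f := q ^ 2 * C.Kz (G : M) (μ * cellFn π i) ^ 2)
      (g := (1 / 2 : ℝ) • (w * C.Er (z * C.r (g1 * cellFn π i) * (G : M) * C.r (g1 * cellFn π i) * z)
          + w * C.Er (z * C.r (g2 * cellFn π i) * (z * (↑G⁻¹ : M) * z)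
              * C.r (g2 * cellFn π i) * z))) (ContinuousMap.le_def.2 fun x => by
        simpa [mul_add] using hpt π i x)
  rw [C.ig_smul, C.ig_add] at hπ
  linarith

end Vale.Agent.P078.Tracial.Core
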