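import Vale.Agent.P078.Tracial.Two.Decomp
import Vale.Agent.P078.Tracial.Two.XBound
import Vale.Agent.P078.Tracial.Two.Cov
import Vale.Agent.P078.Tracial.Two.StepColour
import Vale.Agent.P078.Tracial.Two.Clean
import Vale.Agent.P078.Tracial.Step

/-! An approximate minimiser has a small unassigned set. -/

namespace Vale.Agent.P078.Tracial.Two

set_option linter.unusedSectionVars false

open Filter Topology ComplexOrder

variable {M X : Type*} [CStarAlgebra M] [PartialOrder M] [StarOrderedRing M]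
variable [TopologicalSpace X] [CompactSpace X] [T2Space X] [TotallyDisconnectedSpace X]
variable {C : Core M X} {P : Prm M}
variable {r : ℕ}

/-- The data of the step at a state. -/
noncomputable def stepData2 (P : Prm M) (C : Core M X) (s : Config2 M X r) :
    Core.StepData2 M X r where
  act := s.act
  U := s.U
  μ c := P.μ C (col s c)
  m c := s.act c * P.Dc C (col s c)
  n c i := s.act c * P.sc (col s c) * P.gp C (col s c) i
  G c i := (s.G c i : M)
  W c i := P.zaz C (col s c) i

theorem stepData2_ok {N : ℝ}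
    (hN : ∀ s : Col M X, s.Ok P C → P.Window s → P.Bounded s →
      ‖P.μ C s‖ ≤ N ∧ ‖s.act * P.Dc C s‖ ≤ N ∧ ‖P.Ffn C s‖ ≤ N ∧ ‖P.θc s * P.Ffn C s‖ ≤ N ∧
      ∀ i, ‖s.act * P.sc s * P.gp C s i‖ ≤ N ∧ ‖(s.G i : M)‖ ≤ N ∧ ‖P.zaz C s i‖ ≤ N ∧
        ‖P.qFn C s i‖ ≤ N)
    {s : Config2 M X r} (hs : StateOk P C s) (hw : ∀ c, P.Window (col s c))
    (hb : ∀ c, P.Bounded (col s c)) : (stepData2 P C s).Ok N := by
  refine ⟨hs.act_01, hs.U_01, hs.act_le, fun c => Prm.μ_act (hs.col c), fun c => ?_,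
    fun c i => ?_, fun c => ?_, fun c i => ?_, hs.G_nonneg,
    fun c i => Prm.zaz_nonneg (hs.col c) i⟩
  · exact Core.mul_act_eq (hs.act_01 c) fun x h => by
      have h' : s.act c x = 0 := h
      simp [stepData2, h']
  · exact Core.mul_act_eq (hs.act_01 c) fun x h => by
      have h' : s.act c x = 0 := h
      simp [stepData2, h']
  · obtain ⟨h1, h2, -⟩ := hN (col s c) (hs.col c) (hw c) (hb c)
    exact ⟨h1, h2⟩
  · obtain ⟨-, -, -, -, h⟩ := hN (col s c) (hs.col c) (hw c) (hb c)
    exact ⟨(h i).1, (h i).2.1, (h i).2.2.1⟩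

theorem norm_constr2_le {N B : ℝ} (hN : 0 ≤ N) {d : Core.StepData2 M X r} (hd : d.Ok N)
    (u : Fin r → C(X, ℝ)) (hu : ∀ c, ‖u c‖ ≤ B) :
    ‖C.constr2 d u‖ ≤ r * (N * (N * B) + 2 * (N * (N ^ 2 * (N * B)))) := by
  refine (norm_sum_le _ _).trans ((Finset.sum_le_sum fun c _ => ?_).trans (le_of_eq
    (by rw [Finset.sum_const, Finset.card_univ, Fintype.card_fin, nsmul_eq_mul])))
  have hμu : ‖d.μ c * u c‖ ≤ N * B :=
    (norm_mul_le _ _).trans (mul_le_mul (hd.bdd_col c).1 (hu c) (norm_nonneg _) hN)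
  have hNB : 0 ≤ N * B := (norm_nonneg _).trans hμu
  refine (norm_sub_le _ _).trans (add_le_add ?_ ?_)
  · exact (norm_mul_le _ _).trans (mul_le_mul (hd.bdd_col c).2 hμu (norm_nonneg _) hN)
  · refine (norm_sum_le _ _).trans ((Finset.sum_le_sum fun i _ => ?_).trans (le_of_eq
      (by rw [Finset.sum_const, Finset.card_univ, Fintype.card_bool, nsmul_eq_mul, Nat.cast_two])))
    obtain ⟨h1, h2, -⟩ := hd.bdd c i
    refine (norm_mul_le _ _).trans (mul_le_mul h1 ?_ (norm_nonneg _) hN)
    exact (C.norm_K_le _ _).trans (mul_le_mul (pow_le_pow_left₀ (norm_nonneg _) h2 2) hμu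
      (norm_nonneg _) (sq_nonneg _))

/-- The quadratic form controlling the second order change. -/
noncomputable def quad2 (P : Prm M) (C : Core M X) (s : Config2 M X r) (δ K : ℝ)
    (v : Fin r → C(X, ℝ)) : ℝ :=
  (∑ c, (P.quad1 C (col s c) (v c)
      + δ * C.ig (P.μ C (col s c) * v c * (P.μ C (col s c) * v c))))
    + K * C.ig (C.constr2 (stepData2 P C s) v * C.constr2 (stepData2 P C s) v)

theorem constr2_add (d : Core.StepData2 M X r) (v w : Fin r → C(X, ℝ)) :
    C.constr2 d (v + w) = C.constr2 d v + C.constr2 d w := by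
  simp only [Core.constr2, Pi.add_apply, mul_add, C.K_add,
    ← Finset.sum_add_distrib]
  exact Finset.sum_congr rfl fun c _ => by rw [Finset.sum_add_distrib]; abel

theorem constr2_sub (d : Core.StepData2 M X r) (v w : Fin r → C(X, ℝ)) :
    C.constr2 d (v - w) = C.constr2 d v - C.constr2 d w := by
  rw [eq_sub_iff_add_eq, ← constr2_add, sub_add_cancel]

theorem ig_sq_parallelogram (m f g : C(X, ℝ)) :
    C.ig (m * ((f + g) * (f + g))) + C.ig (m * ((f - g) * (f - g)))
      = 2 * C.ig (m * (f * f)) + 2 * C.ig (m * (g * g)) := by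
  rw [← C.ig_add, ← C.ig_smul, ← C.ig_smul, ← C.ig_add]
  congr 1
  ext x
  simp
  ring

theorem ig_Kz_parallelogram (q μ : C(X, ℝ)) (G : M) (f g : C(X, ℝ)) :
    C.ig (q * (f + g) * C.Kz G (μ * (f + g))) + C.ig (q * (f - g) * C.Kz G (μ * (f - g)))
      = 2 * C.ig (q * f * C.Kz G (μ * f)) + 2 * C.ig (q * g * C.Kz G (μ * g)) := by
  rw [← C.ig_add, ← C.ig_smul, ← C.ig_smul, ← C.ig_add]
  congr 1
  simp only [Core.Kz, mul_add μ, mul_sub μ, C.K_add, C.K_sub]
  ext x
  simp
  ring

theorem tr_loss_parallelogram (μ : C(X, ℝ)) (A B : M) (f g : C(X, ℝ)) :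
    C.tr (C.r (μ * (f + g)) * A * C.r (μ * (f + g)) * B)
        + C.tr (C.r (μ * (f - g)) * A * C.r (μ * (f - g)) * B)
      = 2 * C.tr (C.r (μ * f) * A * C.r (μ * f) * B)
        + 2 * C.tr (C.r (μ * g) * A * C.r (μ * g) * B) := by
  simp only [mul_add μ, mul_sub μ, C.r_add, C.r_sub, add_mul, mul_add, sub_mul, mul_sub, C.tr_add,
    C.tr_sub]
  ring

theorem quad1_parallelogram (s : Col M X) (v w : C(X, ℝ)) :
    P.quad1 C s (v + w) + P.quad1 C s (v - w) = 2 * P.quad1 C s v + 2 * P.quad1 C s w := by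
  have h1 := ig_sq_parallelogram (C := C) (P.psi C s) v w
  have h2 : ∀ i, C.ig (P.qFn C s i * (v + w) * C.Kz (s.G i : M) (P.μ C s * (v + w)))
      + C.ig (P.qFn C s i * (v - w) * C.Kz (s.G i : M) (P.μ C s * (v - w))) = _ :=
    fun i => ig_Kz_parallelogram _ _ _ v w
  have h3 := fun i => tr_loss_parallelogram (C := C) (P.μ C s) (s.G i : M) (P.zaz C s i) v w
  have a := h2 true
  have b := h2 false
  have c := h3 true
  have e := h3 false
  simp only [Prm.quad1, Fintype.sum_bool]
  linarith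

theorem quad2_parallelogram (s : Config2 M X r) (δ K : ℝ) (v w : Fin r → C(X, ℝ)) :
    quad2 P C s δ K (v + w) + quad2 P C s δ K (v - w)
      = 2 * quad2 P C s δ K v + 2 * quad2 P C s δ K w := by
  set d := stepData2 P C s with hd
  have hsq : ∀ f g : C(X, ℝ), C.ig ((f + g) * (f + g)) + C.ig ((f - g) * (f - g))
      = 2 * C.ig (f * f) + 2 * C.ig (g * g) := fun f g => by
    simpa using ig_sq_parallelogram (C := C) 1 f g
  have h3 := hsq (C.constr2 d v) (C.constr2 d w)
  have h4 : ∀ c, (P.quad1 C (col s c) (v c + w c)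
        + δ * C.ig (P.μ C (col s c) * (v c + w c) * (P.μ C (col s c) * (v c + w c))))
      + (P.quad1 C (col s c) (v c - w c)
        + δ * C.ig (P.μ C (col s c) * (v c - w c) * (P.μ C (col s c) * (v c - w c))))
      = 2 * (P.quad1 C (col s c) (v c) + δ * C.ig (P.μ C (col s c) * v c * (P.μ C (col s c) * v c)))
        + 2 * (P.quad1 C (col s c) (w c)
          + δ * C.ig (P.μ C (col s c) * w c * (P.μ C (col s c) * w c))) := fun c => by
    have a := quad1_parallelogram (P := P) (C := C) (col s c) (v c) (w c)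
    have b := hsq (P.μ C (col s c) * v c) (P.μ C (col s c) * w c)
    rw [← mul_add, ← mul_sub] at b
    linear_combination a + δ * b
  unfold quad2
  rw [← hd, constr2_add, constr2_sub]
  simp only [Pi.add_apply, Pi.sub_apply]
  have h5 := Finset.sum_congr rfl fun c (_ : c ∈ Finset.univ) => h4 c
  simp only [Finset.sum_add_distrib, ← Finset.mul_sum] at h5 ⊢
  linear_combination h5 + K * h3

theorem colMin_of_min {s : Config2 M X r} (hs : StateOk P C s) {ζ : ℝ}
    (hmin : ∀ t : Config2 M X r, StateOk P C t → P.Psi C s ≤ P.Psi C t + ζ) (c : Fin r) :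
    P.ColMin C (col s c) ζ := by
  classical
  intro W' G' h
  set t : Config2 M X r := ⟨s.ass, s.act, s.b, Function.update s.W c W',
    Function.update s.G c G'⟩ with ht
  have hne : ∀ c', c' ≠ c → col t c' = col s c' := fun c' h' => by
    simp [ht, col, Function.update_of_ne h']
  have hcc : col t c = ⟨(col s c).act, (col s c).ass, (col s c).b, W', G'⟩ := by
    simp [ht, col]
  have hcol : ∀ c', (col t c').Ok P C := fun c' => by
    rcases eq_or_ne c' c with rfl | h'
    · rw [hcc]; exact h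
    · rw [hne c' h']; exact hs.col c'
  have htok : StateOk P C t := ⟨hs.ass_01, hs.act_01, hs.U_01, hs.act_le, hs.b_sum, hs.b_supp,
    hs.b_drop, hs.b_act, fun c' => (hcol c').W_mem, fun c' => (hcol c').G_nonneg,
    fun c' => (hcol c').inv⟩
  have h1 := hmin t htok
  unfold Prm.Psi at h1
  rw [← Finset.add_sum_erase _ _ (Finset.mem_univ c),
    ← Finset.add_sum_erase _ _ (Finset.mem_univ c),
    Finset.sum_congr rfl (fun c' h' => by rw [hne c' (Finset.ne_of_mem_erase h')] :
      ∀ c' ∈ Finset.univ.erase c, P.pot C (col t c') = P.pot C (col s c')), hcc] at h1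
  linarith

theorem second_sign {sg : ℝ} (hsg : sg * sg = 1) (s : Col M X) (k : C(X, ℝ)) :
    P.second C s (sg • k) = P.second C s k := by
  have e1 : sg • k * sg • k = k * k := by rw [smul_mul_smul_comm, hsg, one_smul]
  have e2 : P.dΓ C s (sg • k) = sg • P.dΓ C s k := by
    simp only [Prm.dΓ, C.K_smul, mul_smul_comm, ← Finset.smul_sum]
  have e3 : P.d2Γ C s (sg • k) = P.d2Γ C s k := by
    ext x
    simp only [Prm.d2Γ, dgam2, ContinuousMap.coe_mk, C.K_smul, ContinuousMap.smul_apply,
      smul_eq_mul]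
    rw [show ∀ a b p q : ℝ, (b * (sg * p) - a * (sg * q)) ^ 2 = (b * p - a * q) ^ 2 from
      fun a b p q => by linear_combination (b * p - a * q) ^ 2 * hsg]
  simp only [Prm.second, Prm.loss, C.r_smul, e1, e2, e3, smul_mul_assoc, mul_smul_comm, smul_smul,
    hsg, one_smul]

theorem lin_smul (sg : ℝ) (s : Col M X) (k h : C(X, ℝ)) :
    P.lin C s (sg • k) (sg • h) = sg * P.lin C s k h := by
  simp only [Prm.lin, mul_smul_comm, smul_mul_assoc, C.r_smul, mul_neg, ← smul_neg, C.tr_smul,
    C.tr_neg, Finset.mul_sum]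
  exact Finset.sum_congr rfl fun i _ => by ring

/-- At an approximate minimiser the quadratic form is almost nonnegative. -/
theorem quad2_ge {δ K B Cst η0 ζ η e2 : ℝ} (hK : 0 ≤ K) (hB : 0 ≤ B)
    (hstep : ∀ (s : Col M X), s.Ok P C → P.Window s → P.Bounded s →
      ∀ (k h0 : C(X, ℝ)), ‖k‖ ≤ B → ‖h0‖ ≤ B → k * s.act = k →
      ∀ η : ℝ, 0 < η → η ≤ η0 →
        ∃ (W' : C(X, ℝ)) (G' : Bool → Mˣ),
          (⟨s.act, s.ass, s.b + η • P.dir C s k h0, W', G'⟩ : Col M X).Ok P C ∧
          P.pot C ⟨s.act, s.ass, s.b + η • P.dir C s k h0, W', G'⟩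
            ≤ P.pot C s + η * P.lin C s k h0
              + η ^ 2 * (P.second C s k + δ * C.ig (k * k)
                + K * C.ig ((s.act * h0) * (s.act * h0)))
              + η ^ 3 * Cst)
    {s : Config2 M X r} (hs : StateOk P C s) (hw : ∀ c, P.Window (col s c))
    (hb : ∀ c, P.Bounded (col s c))
    (hmin : ∀ t : Config2 M X r, StateOk P C t → P.Psi C s ≤ P.Psi C t + ζ)
    (hη : 0 < η) (hη1 : η ≤ η0) (v : Fin r → C(X, ℝ))
    (hk : ∀ c, ‖P.μ C (col s c) * v c‖ ≤ B)
    (hres : ‖C.constr2 (stepData2 P C s) v‖ ≤ B)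
    (hdec : ∀ c, P.second C (col s c) (P.μ C (col s c) * v c)
      ≤ P.quad1 C (col s c) (v c) + e2) :
    0 ≤ ζ + η ^ 2 * (quad2 P C s δ (K * r) v + r * e2) + η ^ 3 * (r * Cst) := by
  classical
  set d := stepData2 P C s with hd
  set atot : C(X, ℝ) := ∑ c, s.act c with hatot
  set ia : C(X, ℝ) := ⟨fun x => (max (atot x) 1)⁻¹,
    Continuous.inv₀ (by fun_prop) fun x => (lt_max_of_lt_right one_pos).ne'⟩ with hia
  set res := C.constr2 d v with hresdef
  set h0 : C(X, ℝ) := res * ia with hh0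
  set k : Fin r → C(X, ℝ) := fun c => P.μ C (col s c) * v c with hkdef
  have hia1 : ∀ x, 0 ≤ ia x ∧ ia x ≤ 1 := fun x =>
    ⟨inv_nonneg.2 (zero_le_one.trans (le_max_right _ _)),
      inv_le_one_of_one_le₀ (le_max_right _ _)⟩
  have hh0b : ‖h0‖ ≤ B := Tracial.norm_le_of_abs hB fun x => by
    rw [hh0, ContinuousMap.mul_apply, abs_mul, abs_of_nonneg (hia1 x).1]
    exact (mul_le_of_le_one_right (abs_nonneg _) (hia1 x).2).trans (Tracial.abs_apply_le hres x)
  have hka : ∀ c, k c * s.act c = k c := fun c => by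
    show P.μ C (col s c) * v c * s.act c = P.μ C (col s c) * v c
    rw [mul_right_comm]
    exact congrArg (· * v c) (Prm.μ_act (hs.col c))
  have hmove : ∀ sg : ℝ, sg = 1 ∨ sg = -1 →
      0 ≤ ζ + sg * (η * ∑ c, P.lin C (col s c) (k c) h0)
        + η ^ 2 * (quad2 P C s δ (K * r) v + r * e2) + η ^ 3 * (r * Cst) := by
    intro sg hsg
    have hsg1 : ‖sg‖ = 1 := by rcases hsg with h | h <;> simp [h]
    choose W' G' hok hpot using fun c => hstep (col s c) (hs.col c) (hw c) (hb c) (sg • k c)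
      (sg • h0) (by rw [norm_smul, hsg1, one_mul]; exact hk c)
      (by rw [norm_smul, hsg1, one_mul]; exact hh0b)
      (by rw [smul_mul_assoc]; exact congrArg (sg • ·) (hka c)) η hη hη1
    set D : Fin r → C(X, ℝ) := fun c => P.dir C (col s c) (sg • k c) (sg • h0) with hD
    have hD' : ∀ c, D c = sg • P.dir C (col s c) (k c) h0 := fun c => by
      simp only [hD, Prm.dir, C.K_smul, mul_smul_comm, ← Finset.smul_sum, smul_sub]
    have hDoff : ∀ c x, s.act c x = 0 → D c x = 0 := fun c x h => by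
      have h' : (col s c).act x = 0 := h
      simp [hD, Prm.dir, h']
    have hDsum : ∑ c, D c = 0 := by
      simp only [hD', ← Finset.smul_sum]
      convert smul_zero sg using 2
      ext x
      have hr1 : ∑ c, (s.act c x * P.Dc C (col s c) x * k c x
          - ∑ i, s.act c x * P.sc (col s c) x * P.gp C (col s c) i x
              * C.K (s.G c i : M) (k c) x) = res x := by
        simp only [hresdef, Core.constr2, ContinuousMap.coe_sum, Finset.sum_apply,
          ContinuousMap.sub_apply, ContinuousMap.mul_apply, hd, stepData2, hkdef]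
      simp only [ContinuousMap.coe_sum, Finset.sum_apply, Prm.dir, ContinuousMap.sub_apply,
        ContinuousMap.mul_apply, ContinuousMap.zero_apply]
      rw [Finset.sum_sub_distrib]
      change (∑ c, (s.act c x * P.Dc C (col s c) x * k c x
          - ∑ i, s.act c x * P.sc (col s c) x * P.gp C (col s c) i x
              * C.K (s.G c i : M) (k c) x)) - ∑ c, s.act c x * h0 x = 0
      rw [hr1, ← Finset.sum_mul, ← Finset.sum_apply, ← ContinuousMap.coe_sum, ← hatot]
      by_cases hex : ∃ c, s.act c x = 1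
      · obtain ⟨c0, hc0⟩ := hex
        have hnn : ∀ c ∈ (Finset.univ : Finset (Fin r)), 0 ≤ s.act c x := fun c _ => by
          rcases hs.act_01 c x with h | h <;> simp [h]
        have h1 : 1 ≤ atot x := by
          simp only [hatot, ContinuousMap.coe_sum, Finset.sum_apply]
          calc (1 : ℝ) = s.act c0 x := hc0.symm
            _ ≤ _ := Finset.single_le_sum hnn (Finset.mem_univ c0)
        simp only [hh0, hia, ContinuousMap.mul_apply, ContinuousMap.coe_mk, max_eq_left h1]
        field_simp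
        ring
      · have hall : ∀ c, s.act c x = 0 := fun c =>
          (hs.act_01 c x).resolve_right fun h => hex ⟨c, h⟩
        have hr0 : res x = 0 := by
          rw [← hr1]
          exact Finset.sum_eq_zero fun c _ => by simp [hall c]
        simp [hh0, hr0]
    set t : Config2 M X r := ⟨s.ass, s.act, fun c => s.b c + η • D c, W', G'⟩ with ht
    have htok : StateOk P C t := ⟨hs.ass_01, hs.act_01, hs.U_01, hs.act_le, by
        show ∑ c, (s.b c + η • D c) = P.S • s.U
        rw [Finset.sum_add_distrib, ← Finset.smul_sum, hDsum, smul_zero, add_zero, hs.b_sum],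
      fun c x h => by
        have ha : s.act c x = 0 := by
          have h1 := hs.act_le c x
          have h2 : s.U x = 0 := h
          rcases hs.act_01 c x with ha | ha
          · exact ha
          · linarith
        simp [ht, hDoff c x ha, hs.b_supp c x h],
      fun c x h => by simpa [ht, hDoff c x h] using hs.b_drop c x h,
      fun c x h => (hok c).act_b x h, fun c => (hok c).W_mem, fun c => (hok c).G_nonneg,
      fun c => (hok c).inv⟩
    have hsg2 : sg * sg = 1 := by rcases hsg with h | h <;> simp [h]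
    have hres2 : ∀ c, C.ig (s.act c * (sg • h0) * (s.act c * (sg • h0))) ≤ C.ig (res * res) :=
      fun c => by
      refine C.ig_mono (ContinuousMap.le_def.2 fun x => ?_)
      simp only [ContinuousMap.mul_apply, ContinuousMap.smul_apply, smul_eq_mul, hh0]
      have h1 := hia1 x
      have hi2 : ia x * ia x ≤ 1 := mul_le_one₀ h1.2 h1.1 h1.2
      rcases hs.act_01 c x with ha | ha <;> rw [ha]
      · simpa using mul_self_nonneg (res x)
      · calc 1 * (sg * (res x * ia x)) * (1 * (sg * (res x * ia x)))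
            = (sg * sg) * (ia x * ia x) * (res x * res x) := by ring
          _ ≤ res x * res x := by
            rw [hsg2, one_mul]
            exact mul_le_of_le_one_left (mul_self_nonneg _) hi2
    have hbound : ∀ c, P.pot C (col t c) ≤ P.pot C (col s c)
        + sg * (η * P.lin C (col s c) (k c) h0)
        + η ^ 2 * (P.quad1 C (col s c) (v c) + δ * C.ig (k c * k c) + K * C.ig (res * res) + e2)
        + η ^ 3 * Cst := fun c => by
      have h1 := hpot c
      have e : sg • k c * sg • k c = k c * k c := by rw [smul_mul_smul_comm, hsg2, one_smul]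
      rw [lin_smul, second_sign hsg2, e] at h1
      have h2 := mul_le_mul_of_nonneg_left (mul_le_mul_of_nonneg_left (hres2 c) hK) (sq_nonneg η)
      have h3 := mul_le_mul_of_nonneg_left (hdec c) (sq_nonneg η)
      simp only [ht, hD, col, hkdef] at h1 h2 h3 ⊢
      linarith
    have h3 := hmin t htok
    have h4 : P.Psi C t ≤ _ := Finset.sum_le_sum fun c _ => hbound c
    rw [Finset.sum_add_distrib, Finset.sum_add_distrib, Finset.sum_add_distrib,
      ← Finset.mul_sum, ← Finset.mul_sum, ← Finset.mul_sum, Finset.sum_add_distrib,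
      Finset.sum_add_distrib, Finset.sum_const, Finset.sum_const, Finset.sum_const,
      Finset.card_univ, Fintype.card_fin, nsmul_eq_mul, nsmul_eq_mul, nsmul_eq_mul] at h4
    change P.Psi C t ≤ P.Psi C s + _ + _ + _ at h4
    have hq : (∑ c, (P.quad1 C (col s c) (v c) + δ * C.ig (k c * k c)))
        + (r : ℝ) * (K * C.ig (res * res)) = quad2 P C s δ (K * r) v := by
      unfold quad2
      rw [← hd, ← hresdef]
      ring
    rw [hq] at h4
    linarith
  have h1 := hmove 1 (Or.inl rfl)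
  have h2 := hmove (-1) (Or.inr rfl)
  linarith

/-- The positive part. -/
noncomputable def posC (f : C(X, ℝ)) : C(X, ℝ) := ⟨fun x => max (f x) 0, by fun_prop⟩

/-- The active weight with small excess. -/
noncomputable def massF (P : Prm M) (C : Core M X) (s : Config2 M X r) (c : Fin r) : C(X, ℝ) :=
  P.good C (col s c) * s.W c * P.uc (col s c)

/-- The loss and the crossing limits are paid by the mass. -/
theorem main_terms_le (hP : P.Ok C) {s : Col M X} (hs : s.Ok P C) (hw : P.Window s)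
    (hb : P.Bounded s) {e3 : ℝ} (he3 : 0 ≤ e3)
    (h1 : C.ig (P.Ffn C s * ∑ i, C.Er (P.zaz C s i))
      ≤ C.ig (P.Ffn C s * ∑ i, (P.V C s i - P.γ C s i ^ 2 * P.aFn C s i)) + e3)
    (h2 : C.ig (P.θc s * P.Ffn C s * ∑ i, C.Er (P.zaz C s i))
      ≤ C.ig (P.θc s * P.Ffn C s * ∑ i, (P.V C s i - P.γ C s i ^ 2 * P.aFn C s i)) + e3) :
    -C.ig (P.psi C s * s.act)
        + (∑ i, C.ig (P.μ C s ^ 2 * s.act * C.Er (s.G i : M) * C.Er (P.zaz C s i)))
        + 1 / 400 * ∑ i, C.ig (P.μ C s ^ 2 * C.Er (s.G i : M) * P.θc s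
            * C.Er (C.zG (s.G i : M) * C.r (P.qFn C s i ^ 2 * C.Er (s.G i : M) * P.θc s)
              * C.zG (s.G i : M)))
      ≤ -(69 / 2) * C.ig (P.good C s * s.W * P.uc s) + 2 * e3 := by
  have hθ : ∀ x, 0 ≤ P.θc s x := fun x => Real.sqrt_nonneg _
  have hz : ∀ i, 0 ≤ C.Er (P.zaz C s i) := fun i => C.Er_nonneg (Prm.zaz_nonneg hs i)
  have a1 : (∑ i, C.ig (P.μ C s ^ 2 * s.act * C.Er (s.G i : M) * C.Er (P.zaz C s i)))
      ≤ C.ig (P.Ffn C s * ∑ i, C.Er (P.zaz C s i)) := by
    rw [Finset.mul_sum, C.ig_sum]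
    refine Finset.sum_le_sum fun i _ => C.ig_mono (ContinuousMap.le_def.2 fun x => ?_)
    have e := congrArg (fun f : C(X, ℝ) => f x) (Prm.μ_act hs)
    simp only [ContinuousMap.mul_apply] at e
    simp only [ContinuousMap.mul_apply, ContinuousMap.pow_apply]
    rw [sq, mul_assoc (P.μ C s x), e]
    exact mul_le_mul_of_nonneg_right (Prm.γ_le_Ffn hP hs hw hb i x) (ContinuousMap.le_def.1 (hz i) x)
  have a2 : (∑ i, C.ig (P.μ C s ^ 2 * C.Er (s.G i : M) * P.θc s
            * C.Er (C.zG (s.G i : M) * C.r (P.qFn C s i ^ 2 * C.Er (s.G i : M) * P.θc s)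
              * C.zG (s.G i : M))))
      ≤ 20 * C.ig (P.θc s * P.Ffn C s * ∑ i, C.Er (P.zaz C s i)) := by
    rw [Finset.mul_sum, C.ig_sum, Finset.mul_sum]
    refine Finset.sum_le_sum fun i _ => ?_
    rw [← C.ig_smul]
    refine C.ig_mono (ContinuousMap.le_def.2 fun x => ?_)
    have hzs := C.zG_isSelfAdjoint (IsSelfAdjoint.of_nonneg (hs.G_nonneg i))
    have hle : C.zG (s.G i : M) * C.r (P.qFn C s i ^ 2 * C.Er (s.G i : M) * P.θc s)
        * C.zG (s.G i : M) ≤ (20 : ℝ) • P.zaz C s i := by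
      have h := star_left_conjugate_le_conjugate (C.r_mono (ContinuousMap.le_def.2 fun y =>
        (Prm.qsq_le hP hs hw hb i y) : P.qFn C s i ^ 2 * C.Er (s.G i : M) * P.θc s
          ≤ (20 : ℝ) • P.aFn C s i)) (C.zG (s.G i : M))
      rw [hzs.star_eq, C.r_smul, mul_smul_comm, smul_mul_assoc] at h
      exact h
    have h' := ContinuousMap.le_def.1 (C.Er_mono hle) x
    rw [C.Er_smul] at h'
    have hγ : 0 ≤ P.μ C s x * P.μ C s x * P.γ C s i x :=
      mul_nonneg (mul_self_nonneg _)
        (P.g_pos.le.trans (Prm.γ_bounds hb i x).1)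
    have hF := mul_le_mul_of_nonneg_right (Prm.γ_le_Ffn hP hs hw hb i x) (hθ x)
    have hz0 : 0 ≤ C.Er (P.zaz C s i) x := ContinuousMap.le_def.1 (hz i) x
    simp only [ContinuousMap.mul_apply, ContinuousMap.pow_apply, ContinuousMap.smul_apply,
      smul_eq_mul] at h' ⊢
    calc _ ≤ P.μ C s x ^ 2 * P.γ C s i x * P.θc s x * (20 * C.Er (P.zaz C s i) x) :=
          mul_le_mul_of_nonneg_left h' (by rw [sq]; exact mul_nonneg hγ (hθ x))
      _ ≤ P.Ffn C s x * P.θc s x * (20 * C.Er (P.zaz C s i) x) := by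
          rw [sq]; exact mul_le_mul_of_nonneg_right hF (by linarith)
      _ = _ := by ring
  set S : C(X, ℝ) := ∑ i, (P.V C s i - P.γ C s i ^ 2 * P.aFn C s i) with hS
  have a3 : -C.ig (P.psi C s * s.act) + C.ig (P.Ffn C s * S)
      + 1 / 20 * C.ig (P.θc s * P.Ffn C s * S) ≤ -(69 / 2) * C.ig (P.good C s * s.W * P.uc s) := by
    rw [← C.ig_neg, ← C.ig_smul, ← C.ig_add, ← C.ig_add, ← C.ig_smul]
    refine C.ig_mono (ContinuousMap.le_def.2 fun x => ?_)
    have m1 := Prm.main_le hP hs hw hb x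
    have m2 := Prm.cross_le hP hs hw hb x
    have e : P.psi C s x * s.act x = P.psi C s x := by
      rcases hs.act_01 x with h | h
      · have hμ := congrArg (fun f : C(X, ℝ) => f x) (Prm.μ_act hs)
        simp only [ContinuousMap.mul_apply, h, mul_zero] at hμ
        have : P.psi C s x = 0 := by simp [Prm.psi, psiR, ← hμ]
        simp [this, h]
      · simp [h]
    simp only [hS, ContinuousMap.add_apply, ContinuousMap.neg_apply, ContinuousMap.mul_apply,
      ContinuousMap.smul_apply, ContinuousMap.coe_sum, Finset.sum_apply, ContinuousMap.sub_apply,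
      ContinuousMap.pow_apply, smul_eq_mul, e]
    linarith
  have b1 := mul_le_mul_of_nonneg_left (a2.trans (mul_le_mul_of_nonneg_left h2 (by norm_num)))
    (by norm_num : (0 : ℝ) ≤ 1 / 400)
  linarith

theorem U_small (hP : P.Ok C) {ε : ℝ} (hε : 0 < ε) (r : ℕ) :
    ∃ ζ > 0, ∀ s : Config2 M X r, StateOk P C s → (∀ c, P.Window (col s c)) →
      (∀ c, P.Bounded (col s c)) →
      (∀ t : Config2 M X r, StateOk P C t → P.Psi C s ≤ P.Psi C t + ζ) →
      C.ig s.U ≤ ε + 10 / P.κ * P.Psi C s := by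
  classical
  obtain ⟨N, hN, hNb⟩ := Prm.exists_bound (X := X) hP
  set R : ℝ := (r : ℝ) + 1 with hR
  have hR1 : 1 ≤ R := by rw [hR]; linarith [Nat.cast_nonneg (α := ℝ) r]
  have hr0 : (0 : ℝ) ≤ r := Nat.cast_nonneg r
  set δ := ε / (10 * (N ^ 2 * R + 1)) with hδ
  have hδ0 : 0 < δ := by positivity
  obtain ⟨K, hK, hcolour⟩ := exists_colour_step (X := X) hP hδ0
  set ε' := ε / (10 * ((K + 1) * R)) with hε'
  have hε'0 : 0 < ε' := by positivity
  obtain ⟨Cst, hCst, hcov⟩ := C.exists_cov2 r ε' N 100 hε'0 (by norm_num)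
  set B := N * Cst + r * (N * (N * Cst) + 2 * (N * (N ^ 2 * (N * Cst)))) with hBdef
  have hb1 : 0 ≤ N * Cst := by positivity
  have hb2 : 0 ≤ (r : ℝ) * (N * (N * Cst) + 2 * (N * (N ^ 2 * (N * Cst)))) := by positivity
  obtain ⟨Cc, hCc, η0, hη0, hstep⟩ := hcolour B
  obtain ⟨C2, hC2, t2, ht2, hsec⟩ := exists_second_le (X := X) hP (N * Cst)
  obtain ⟨C3, hC3, t3, ht3, hzaz⟩ := exists_zaz_le (X := X) hP N
  set η := min η0 (ε / (10 * (R * (Cc + 1)))) with hη
  have hηp : 0 < η := lt_min hη0 (by positivity)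
  set τ := min (min t2 t3) (ε / (10 * (R * (C2 + C3 + 1)))) with hτ
  have hτp : 0 < τ := lt_min (lt_min ht2 ht3) (by positivity)
  set ζ := min (ε * τ / (10 * R)) (ε * η ^ 2 / 10) with hζ
  have hζ0 : 0 < ζ := lt_min (by positivity) (by positivity)
  refine ⟨ζ, hζ0, fun s hs hw hb hmin => ?_⟩
  have hcm := colMin_of_min hs hmin
  set d := stepData2 P C s with hd
  have hdOk := stepData2_ok hNb hs hw hb
  set μ : Fin r → C(X, ℝ) := fun c => P.μ C (col s c) with hμ
  set w : Fin r → C(X, ℝ) := fun c => posC (P.psi C (col s c)) with hwdef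
  set w' : Fin r → C(X, ℝ) :=
    fun c => posC (-P.psi C (col s c)) + δ • (μ c * μ c) with hw'def
  set q : Fin r → Bool → C(X, ℝ) := fun c i => P.qFn C (col s c) i with hq
  obtain ⟨Q, hQact, hQn, π₁, hπ₁⟩ := hcov d hdOk w w' q
    (fun c x => ⟨le_max_right _ _,
      max_le (Prm.psi_le_one hP (hs.col c) (hw c) (hb c) x) zero_le_one⟩)
    (fun c x => by
      simp only [hw'def, ContinuousMap.add_apply, ContinuousMap.smul_apply,
        ContinuousMap.mul_apply, smul_eq_mul]
      exact add_nonneg (le_max_right _ _) (mul_nonneg hδ0.le (mul_self_nonneg _)))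
    (fun c i => by
      obtain ⟨-, -, -, -, h⟩ := hNb (col s c) (hs.col c) (hw c) (hb c)
      exact (h i).2.2.2)
    (fun c i => by
      show P.μ C (col s c) * P.pFn C (col s c) i * s.act c = _
      rw [mul_right_comm]
      exact congrArg (· * P.pFn C (col s c) i) (Prm.μ_act (hs.col c)))
  -- the cells
  have hX : ∀ c i, ∀ᶠ π : DiscreteQuotient X in atBot,
      ∑ j : π, C.ig (q c i ^ 2 * C.Kz (s.G c i : M) (μ c * cellFn π j) ^ 2)
        ≤ C.ig (μ c ^ 2 * C.Er (s.G c i : M) * P.θc (col s c)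
            * C.Er (C.zG (s.G c i : M) * C.r (q c i ^ 2 * C.Er (s.G c i : M) * P.θc (col s c))
              * C.zG (s.G c i : M))) + ε' := fun c i =>
    C.eventually_X (hs.G_nonneg c i) (μ c) (q c i) (P.θc (col s c))
      (ContinuousMap.le_def.2 fun x => Prm.μ_nonneg _ (hs.col c) x)
      (fun x => thF_pos P.κ_pos _)
      (fun x h => Prm.zeta_le hP (hs.col c) (hw c) (hb c) i
        (Prm.good_of_ne_zero (hs.col c) (i := i) h)) hε'0
  obtain ⟨π₀, hle0, hXπ⟩ := ((eventually_le_atBot π₁).and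
    (eventually_all.2 fun c => eventually_all.2 fun i => hX c i)).exists
  obtain ⟨hloss, hmass, hupper, hcross, hres⟩ := hπ₁ π₀ hle0
  set e : Fin r × π₀ → (Fin r → C(X, ℝ)) := fun ci => Q (Core.unitVec π₀ ci.1 ci.2) with he
  obtain ⟨sg, hsg, hle⟩ :=
    exists_signs (quad2 P C s δ (K * r)) (quad2_parallelogram s δ (K * r)) e Finset.univ
  set u : Fin r → C(X, ℝ) := ∑ ci : Fin r × π₀, sg ci • Core.unitVec π₀ ci.1 ci.2 with hu
  have hv : ∑ ci, sg ci • e ci = Q u := by simp only [he, hu, map_sum, map_smul]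
  have hu1 : ‖u‖ ≤ 1 := by
    refine (pi_norm_le_iff_of_nonneg zero_le_one).2 fun c =>
      Tracial.norm_le_of_abs zero_le_one fun x => ?_
    have : u c x = sg (c, π₀.proj x) := by
      simp only [hu, Finset.sum_apply, Pi.smul_apply, Core.unitVec, ContinuousMap.coe_sum,
        ContinuousMap.smul_apply, smul_eq_mul]
      rw [Finset.sum_eq_single (c, π₀.proj x)]
      · simp [cellFn_apply]
      · rintro ⟨c', i⟩ _ hne
        by_cases hc : c = c'
        · subst hc
          have : π₀.proj x ≠ i := fun h => hne (by rw [h])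
          simp [cellFn_apply, this]
        · simp [hc]
      · simp
    rcases hsg (c, π₀.proj x) with h | h <;> simp [this, h]
  rw [hv] at hle
  have hwB : ∀ c, ‖Q u c‖ ≤ Cst := fun c =>
    (norm_le_pi_norm _ c).trans ((hQn u).trans (mul_le_of_le_one_right hCst hu1))
  have hk : ∀ c, ‖μ c * Q u c‖ ≤ N * Cst := fun c =>
    (norm_mul_le _ _).trans (mul_le_mul (hdOk.bdd_col c).1 (hwB c) (norm_nonneg _) hN)
  have hτ2 : τ ≤ t2 := (min_le_left _ _).trans (min_le_left _ _)
  have hτ3 : τ ≤ t3 := (min_le_left _ _).trans (min_le_right _ _)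
  have hkey := quad2_ge hK (B := B) (by linarith) hstep hs hw hb hmin hηp (min_le_left _ _) (Q u)
    (fun c => (hk c).trans (by rw [hBdef]; linarith))
    ((norm_constr2_le hN hdOk (Q u) hwB).trans (by rw [hBdef]; linarith))
    (e2 := ζ / τ + C2 * τ)
    (fun c => by
      have := hsec (col s c) (hs.col c) (hw c) (hb c) τ ζ hτp hτ2 (hcm c) (Q u c) (hk c)
      linarith)
  -- the average over the noise
  have hmain : ∀ c, -C.ig (P.psi C (col s c) * s.act c)
        + (∑ i, C.ig (μ c ^ 2 * s.act c * C.Er (s.G c i : M) * C.Er (P.zaz C (col s c) i)))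
        + 1 / 400 * ∑ i, C.ig (μ c ^ 2 * C.Er (s.G c i : M) * P.θc (col s c)
            * C.Er (C.zG (s.G c i : M) * C.r (q c i ^ 2 * C.Er (s.G c i : M) * P.θc (col s c))
              * C.zG (s.G c i : M)))
      ≤ -(69 / 2) * C.ig (massF P C s c) + 2 * (ζ / τ + C3 * τ) := fun c => by
    obtain ⟨-, -, hF, hθF, -⟩ := hNb (col s c) (hs.col c) (hw c) (hb c)
    have h1 := hzaz (col s c) (hs.col c) (hw c) (hb c) τ ζ hτp hτ3 (hcm c) _ hF
    have h2 := hzaz (col s c) (hs.col c) (hw c) (hb c) τ ζ hτp hτ3 (hcm c) _ hθF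
    exact main_terms_le hP (hs.col c) (hw c) (hb c)
      (add_nonneg (div_nonneg hζ0.le hτp.le) (mul_nonneg hC3 hτp.le)) (by linarith) (by linarith)
  have hXs : (∑ c, ∑ i, ∑ j : π₀, C.ig (q c i ^ 2 * C.Kz (d.G c i) (d.μ c * cellFn π₀ j) ^ 2))
      ≤ (∑ c, ∑ i, C.ig (μ c ^ 2 * C.Er (s.G c i : M) * P.θc (col s c)
            * C.Er (C.zG (s.G c i : M) * C.r (q c i ^ 2 * C.Er (s.G c i : M) * P.θc (col s c))
              * C.zG (s.G c i : M)))) + 2 * r * ε' := by
    refine (Finset.sum_le_sum fun c _ => Finset.sum_le_sum fun i _ => hXπ c i).trans_eq ?_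
    simp only [Finset.sum_add_distrib, Finset.sum_const, Finset.card_univ, Fintype.card_bool,
      Fintype.card_fin, nsmul_eq_mul]
    push_cast
    ring
  have hw'act : (∑ c, C.ig (w' c * s.act c))
      ≤ (∑ c, C.ig (posC (-P.psi C (col s c)) * s.act c)) + r * (δ * N ^ 2) := by
    have : ∀ c, C.ig (w' c * s.act c)
        ≤ C.ig (posC (-P.psi C (col s c)) * s.act c) + δ * N ^ 2 := fun c => by
      rw [hw'def, add_mul, C.ig_add, smul_mul_assoc, C.ig_smul]
      refine add_le_add le_rfl (mul_le_mul_of_nonneg_left ?_ hδ0.le)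
      refine C.ig_le_of_le fun x => ?_
      have h1 := Tracial.abs_apply_le (hdOk.bdd_col c).1 x
      simp only [ContinuousMap.mul_apply]
      rcases hs.act_01 c x with h | h <;> rw [h]
      · simpa using sq_nonneg N
      · rw [mul_one, ← sq, ← sq_abs]
        exact pow_le_pow_left₀ (abs_nonneg _) h1 2
    refine (Finset.sum_le_sum fun c _ => this c).trans_eq ?_
    rw [Finset.sum_add_distrib, Finset.sum_const, Finset.card_univ, Fintype.card_fin,
      nsmul_eq_mul]
  have hpsi : (∑ c, C.ig (posC (-P.psi C (col s c)) * s.act c)) - (∑ c, C.ig (w c * s.act c))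
      = ∑ c, -C.ig (P.psi C (col s c) * s.act c) := by
    rw [← Finset.sum_sub_distrib]
    refine Finset.sum_congr rfl fun c _ => ?_
    rw [← C.ig_sub, ← C.ig_neg]
    congr 1
    ext x
    simp only [hwdef, posC, ContinuousMap.sub_apply, ContinuousMap.neg_apply,
      ContinuousMap.mul_apply, ContinuousMap.coe_mk]
    rcases le_total 0 (P.psi C (col s c) x) with h | h
    · rw [max_eq_left h, max_eq_right (by linarith)]; ring
    · rw [max_eq_right h, max_eq_left (by linarith)]; ring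
  have hform : ∀ c v, P.quad1 C (col s c) v
        + δ * C.ig (P.μ C (col s c) * v * (P.μ C (col s c) * v))
      = C.ig (w' c * v ^ 2) - C.ig (w c * v ^ 2) + (∑ i, C.lossB2 d c i v)
        + ∑ i, C.ig (q c i * v * C.Kz (d.G c i) (d.μ c * v)) := fun c v => by
    have e : C.ig (w' c * v ^ 2) - C.ig (w c * v ^ 2)
        = -C.ig (P.psi C (col s c) * (v * v))
          + δ * C.ig (P.μ C (col s c) * v * (P.μ C (col s c) * v)) := by
      rw [← C.ig_sub, ← C.ig_neg, ← C.ig_smul, ← C.ig_add]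
      congr 1
      ext x
      simp only [hw'def, hwdef, hμ, posC, ContinuousMap.sub_apply, ContinuousMap.add_apply,
        ContinuousMap.neg_apply, ContinuousMap.smul_apply, ContinuousMap.mul_apply,
        ContinuousMap.pow_apply, ContinuousMap.coe_mk, smul_eq_mul]
      rcases le_total 0 (P.psi C (col s c) x) with h | h
      · rw [max_eq_left h, max_eq_right (by linarith)]; ring
      · rw [max_eq_right h, max_eq_left (by linarith)]; ring
    rw [e, Prm.quad1, Finset.sum_add_distrib]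
    simp only [Core.lossB2, hd, stepData2, hq, col]
    ring
  have hU : d.U = s.U := rfl
  rw [hU] at hmass hcross
  have havg : ∑ ci, quad2 P C s δ (K * r) (e ci)
      ≤ -(69 / 2) * (∑ c, C.ig (massF P C s c)) + 201 * C.ig s.U
        + 2 * r * (ζ / τ + C3 * τ) + r * (δ * N ^ 2) + (4 + r + K * r) * ε' := by
    simp only [quad2, he, ← hd, Fintype.sum_prod_type, hform]
    simp only [← sq, Finset.sum_add_distrib, Finset.sum_sub_distrib, ← Finset.mul_sum]
    have hm := Finset.sum_le_sum fun c (_ : c ∈ Finset.univ) => hmain c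
    rw [Finset.sum_add_distrib, Finset.sum_add_distrib, Finset.sum_add_distrib, ← Finset.mul_sum,
      ← Finset.mul_sum, Finset.sum_const, Finset.card_univ, Fintype.card_fin,
      nsmul_eq_mul] at hm
    have hres' := mul_le_mul_of_nonneg_left hres (mul_nonneg hK hr0)
    have hrε : 0 ≤ (r : ℝ) * ε' := by positivity
    have eact : ∀ c, d.act c = s.act c := fun c => rfl
    simp only [hd, stepData2, hμ] at hloss hmass hupper hcross hXs hm hres' ⊢
    linarith
  have hq2 := hle.trans havg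
  have hbudget := Prm.budget hP hs hw hb
  -- the small terms
  have s1 : (r : ℝ) * (ζ / τ) ≤ ε / 10 := by
    have h : ζ / τ ≤ ε / (10 * R) := by
      rw [div_le_iff₀ hτp, div_mul_eq_mul_div]; exact min_le_left _ _
    calc (r : ℝ) * (ζ / τ) ≤ R * (ε / (10 * R)) :=
          mul_le_mul (by rw [hR]; linarith) h (by positivity) (by linarith)
      _ = ε / 10 := by field_simp
  have s2 : (r : ℝ) * ((C2 + C3) * τ) ≤ ε / 10 := by
    calc (r : ℝ) * ((C2 + C3) * τ) ≤ R * ((C2 + C3 + 1) * (ε / (10 * (R * (C2 + C3 + 1))))) :=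
          mul_le_mul (by rw [hR]; linarith) (mul_le_mul (by linarith) (min_le_right _ _) hτp.le
            (by positivity)) (by positivity) (by linarith)
      _ = ε / 10 := by field_simp
  have s3 : (r : ℝ) * (δ * N ^ 2) ≤ ε / 10 := by
    calc (r : ℝ) * (δ * N ^ 2) = δ * (N ^ 2 * r) := by ring
      _ ≤ δ * (N ^ 2 * R + 1) := by
          refine mul_le_mul_of_nonneg_left ?_ hδ0.le
          have := mul_le_mul_of_nonneg_left (show (r : ℝ) ≤ R by rw [hR]; linarith) (sq_nonneg N)
          linarith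
      _ = ε / 10 := by rw [hδ]; field_simp
  have s4 : (4 + r + K * r) * ε' ≤ ε := by
    calc (4 + r + K * r) * ε' ≤ 10 * ((K + 1) * R) * ε' := by
          refine mul_le_mul_of_nonneg_right ?_ hε'0.le
          rw [hR]
          linarith [mul_nonneg hK hr0]
      _ = ε := by rw [hε']; field_simp
  have s5 : η * ((r : ℝ) * Cc) ≤ ε / 10 := by
    calc η * ((r : ℝ) * Cc) ≤ ε / (10 * (R * (Cc + 1))) * (R * (Cc + 1)) :=
          mul_le_mul (min_le_right _ _)
            (mul_le_mul (by rw [hR]; linarith) (by linarith) hCc (by linarith)) (by positivity)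
            (by positivity)
      _ = ε / 10 := by field_simp
  have s6 : ζ ≤ η ^ 2 * (ε / 10) := (min_le_right _ _).trans_eq (by ring)
  have s7 : η ^ 3 * (r * Cc) ≤ η ^ 2 * (ε / 10) := by
    calc η ^ 3 * (r * Cc) = η ^ 2 * (η * (r * Cc)) := by ring
      _ ≤ η ^ 2 * (ε / 10) := mul_le_mul_of_nonneg_left s5 (sq_nonneg η)
  have h9 : η ^ 2 * 0 ≤ η ^ 2 * (quad2 P C s δ (K * r) (Q u) + r * (ζ / τ + C2 * τ) + ε / 5) := by
    linarith
  have h10 := le_of_mul_le_mul_left h9 (pow_pos hηp 2)
  have h11 : 0 ≤ (r : ℝ) * (C2 * τ) := by positivity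
  have h12 : 0 ≤ (r : ℝ) * (C3 * τ) := by positivity
  have hΨ : 0 ≤ P.Psi C s := Prm.Psi_nonneg hP hs
  have hU0 : 0 ≤ C.ig s.U := C.ig_nonneg (ContinuousMap.le_def.2 fun x => by
    rcases hs.U_01 x with h | h <;> simp [h])
  have hS : 30 * C.ig s.U ≤ P.S * C.ig s.U := mul_le_mul_of_nonneg_right P.S_ge hU0
  have hk0 : 0 ≤ P.Psi C s / P.κ := div_nonneg hΨ P.κ_pos.le
  have e30 : 30 / P.κ * P.Psi C s = 30 * (P.Psi C s / P.κ) := by ring
  have e10 : 10 / P.κ * P.Psi C s = 10 * (P.Psi C s / P.κ) := by ring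
  have eG : (∑ c, C.ig (P.good C (col s c) * s.W c * P.uc (col s c)))
      = ∑ c, C.ig (massF P C s c) := rfl
  rw [eG, e30] at hbudget
  rw [e10]
  linarith

end Vale.Agent.P078.Tracial.Two
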